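import Vale.Agent.Lib.P368.D3.PartB

/-!
Column specifications: the state after the first layer, as a function of the inputs.
-/

set_option linter.unusedSectionVars false
set_option linter.unusedSimpArgs false
set_option linter.unusedVariables false

namespace Vale.Agent.Lib.P368

open Matrix
open scoped Matrix.Norms.L2Operator ComplexConjugate ComplexOrder

section Cols

variable {Q : Type*} [Fintype Q] [DecidableEq Q]

/-- A column specification: sites, a ket, and a flag for the reflection. -/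
structure CSpec (Q : Type*) [Fintype Q] [DecidableEq Q] where
  T : Finset Q
  s : Q → Bool → ℂ
  hs : ∀ q, ip (s q) (s q) = 1
  f : ℂ
  hf : f = 0 ∨ f = 1

variable (I : Finset Q) (u : Q → Bool → ℂ)

/-- The product ket of an input pattern. -/
def vk (y : Q → Bool) : Q → Bool → ℂ := fun q => if q ∈ I then pinKet u y q else u q

theorem vk_unit (hu : ∀ q, ip (u q) (u q) = 1) (y : Q → Bool) (q : Q) :
    ip (vk I u y q) (vk I u y q) = 1 := by
  unfold vk
  by_cases hq : q ∈ I
  · simp only [hq, if_true]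
    exact pinKet_unit (T := {q}) (fun q' _ => hu q') y q (by simp)
  · simp only [hq, if_false]
    exact hu q

theorem vk_congr {T : Finset Q} {y y' : Q → Bool} (h : ∀ q ∈ T, y q = y' q) :
    ∀ q ∈ T, vk I u y q = vk I u y' q := by
  intro q hq
  unfold vk pinKet
  rw [h q hq]

theorem GK_congr {C : Finset Q} {f : ℂ} {v v' w : Q → Bool → ℂ} (h : ∀ q ∈ C, v q = v' q) :
    GK C f v w = GK C f v' w := by
  unfold GK TK
  rw [kb_congr h (fun _ _ => rfl), prodIp_congr (fun _ _ => rfl) h]

namespace CSpec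

variable (c : CSpec Q)

/-- The output ket operator of a column. -/
noncomputable def A (y : Q → Bool) : MM Q := GK c.T c.f (vk I u y) c.s

/-- The output state of a column. -/
noncomputable def rho (y : Q → Bool) : MM Q := c.A I u y * (c.A I u y)ᴴ

theorem A_ket (y : Q → Bool) : IsKet c.T (c.A I u y) := GK_ket _ _ _ _

theorem A_norm (hu : ∀ q, ip (u q) (u q) = 1) (y : Q → Bool) : ‖c.A I u y‖ = 1 :=
  GK_norm (fun q _ => vk_unit I u hu y q) (fun q _ => c.hs q) c.hf

theorem rho_mem (y : Q → Bool) : c.rho I u y ∈ SpanOn c.T :=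
  mul_mem_spanOn (c.A_ket I u y).1 (conjTranspose_mem_spanOn (c.A_ket I u y).1)

theorem rho_psd (y : Q → Bool) : (c.rho I u y).PosSemidef := by
  have := posSemidef_conjTranspose_mul_self (c.A I u y)ᴴ
  rwa [conjTranspose_conjTranspose] at this

theorem A_congr {y y' : Q → Bool} (h : ∀ q ∈ c.T, y q = y' q) : c.A I u y = c.A I u y' :=
  GK_congr (vk_congr I u h)

theorem rho_congr {y y' : Q → Bool} (h : ∀ q ∈ c.T, y q = y' q) : c.rho I u y = c.rho I u y' := by
  unfold rho
  rw [c.A_congr I u h]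

end CSpec

/-- The product of the states of a list of columns. -/
noncomputable def rhoL (l : List (CSpec Q)) (y : Q → Bool) : MM Q := (l.map (fun c => c.rho I u y)).prod

theorem rhoL_mem (l : List (CSpec Q)) (y : Q → Bool) : rhoL I u l y ∈ SpanOn (uni l CSpec.T) :=
  prod_mem_spanOn (fun c hc => spanOn_mono (uni_subset hc) (c.rho_mem I u y))

theorem rhoL_psd (l : List (CSpec Q)) (hp : l.Pairwise (fun a b => Disjoint a.T b.T)) (y : Q → Bool) :
    (rhoL I u l y).PosSemidef := by
  induction l with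
  | nil =>
    simp only [rhoL, List.map_nil, List.prod_nil]
    exact Matrix.PosSemidef.one
  | cons c l ih =>
    rw [List.pairwise_cons] at hp
    simp only [rhoL, List.map_cons, List.prod_cons]
    refine psd_mul_of_commute (c.rho_psd I u y) (ih hp.2) ?_
    exact commute_spanOn (disjoint_uni_right hp.1) (c.rho_mem I u y) (rhoL_mem I u l y)

/-- Trace with the reference projector. -/
theorem trace_rhoL (hu : ∀ q, ip (u q) (u q) = 1) (l : List (CSpec Q))
    (hp : l.Pairwise (fun a b => Disjoint a.T b.T)) (y : Q → Bool) :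
    ∀ U : Finset Q, Disjoint U (uni l CSpec.T) →
      (kb U eK eK * rhoL I u l y).trace = (kb (U ∪ uni l CSpec.T) eK eK).trace := by
  induction l with
  | nil =>
    intro U _
    simp [rhoL, uni]
  | cons c l ih =>
    intro U hU
    rw [List.pairwise_cons] at hp
    rw [uni_cons, Finset.disjoint_union_right] at hU
    have e := trace_ket_K (c.A_ket I u y) hU.1 (disjoint_uni_right hp.1).symm (rhoL_mem I u l y)
    simp only [rhoL, List.map_cons, List.prod_cons]
    show (kb U eK eK * (c.A I u y * (c.A I u y)ᴴ * rhoL I u l y)).trace = _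
    rw [e, c.A_norm I u hu y]
    have hd : Disjoint (U ∪ c.T) (uni l CSpec.T) := by
      rw [Finset.disjoint_union_left]
      exact ⟨hU.2, disjoint_uni_right hp.1⟩
    rw [ih hp.2 (U ∪ c.T) hd, uni_cons, Finset.union_assoc]
    simp

theorem trace_kb_eK_univ : (kb (Finset.univ : Finset Q) eK eK).trace = 1 := by
  rw [trace_kb_unit (eK_unit _)]
  simp

/-- The projector of `J` times a column list, as a product. -/
theorem trace_P_rhoL (l : List (CSpec Q)) (hp : l.Pairwise (fun a b => Disjoint a.T b.T)) (y : Q → Bool)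
    {φ : Q → Bool → ℂ} :
    ∀ (U J : Finset Q), J ⊆ uni l CSpec.T → Disjoint U (uni l CSpec.T) → UnitOn J φ →
      (kb U eK eK * (kb J φ φ * rhoL I u l y)).trace =
        (((l.map (fun c => ‖kb (J ∩ c.T) φ φ * c.A I u y‖ ^ 2)).prod : ℝ) : ℂ) *
          (kb (U ∪ uni l CSpec.T) eK eK).trace := by
  induction l with
  | nil =>
    intro U J hJ _ _
    have hJe : J = ∅ := by
      simpa [uni] using hJ
    subst hJe
    simp [rhoL, uni, kb_empty]
  | cons c l ih =>
    intro U J hJ hU hφ
    rw [List.pairwise_cons] at hp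
    rw [uni_cons, Finset.disjoint_union_right] at hU
    set J₁ := J ∩ c.T with hJ₁
    set J₂ := J \ c.T with hJ₂
    have hJsplit : J = J₁ ∪ J₂ := by
      ext q
      simp only [hJ₁, hJ₂, Finset.mem_union, Finset.mem_inter, Finset.mem_sdiff]
      tauto
    have hJd : Disjoint J₁ J₂ := by
      rw [Finset.disjoint_left]
      intro q h1 h2
      exact (Finset.mem_sdiff.mp h2).2 (Finset.mem_inter.mp h1).2
    have hJ₂sub : J₂ ⊆ uni l CSpec.T := by
      intro q hq
      obtain ⟨h1, h2⟩ := Finset.mem_sdiff.mp hq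
      rcases Finset.mem_union.mp (by rw [uni_cons] at hJ; exact hJ h1) with h3 | h3
      · exact absurd h3 h2
      · exact h3
    have hφ₂ : UnitOn J₂ φ := fun q hq => hφ q (Finset.mem_sdiff.mp hq).1
    have hφ₁ : UnitOn J₁ φ := fun q hq => hφ q (Finset.mem_inter.mp hq).1
    set p := kb J₁ φ φ with hpdef
    set R := rhoL I u l y with hR
    set A := c.A I u y with hA
    have hRm : R ∈ SpanOn (uni l CSpec.T) := rhoL_mem I u l y
    have hdl : Disjoint c.T (uni l CSpec.T) := disjoint_uni_right hp.1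
    have hpm : p ∈ SpanOn c.T := kb_mem_spanOn Finset.inter_subset_right _ _
    have hK : kb J₂ φ φ * R ∈ SpanOn (uni l CSpec.T) :=
      mul_mem_spanOn (kb_mem_spanOn hJ₂sub _ _) hRm
    have hAm : A ∈ SpanOn c.T := (c.A_ket I u y).1
    have hX : IsKet c.T (p * A) := by
      refine ⟨mul_mem_spanOn hpm hAm, ?_⟩
      rw [Matrix.mul_assoc, (c.A_ket I u y).2]
    have hpp : p * p = p := kb_idem hφ₁
    have hph : pᴴ = p := kb_hermitian _ _
    have c1 : kb J₂ φ φ * (A * Aᴴ) = (A * Aᴴ) * kb J₂ φ φ :=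
      (commute_spanOn hdl (mul_mem_spanOn hAm (conjTranspose_mem_spanOn hAm)) (kb_mem_spanOn hJ₂sub φ φ)).symm
    have c2 : p * (kb J₂ φ φ * R) = (kb J₂ φ φ * R) * p := (commute_spanOn hdl hpm hK)
    have c3 : kb U eK eK * p = p * kb U eK eK :=
      (commute_spanOn hU.1.symm hpm (kb_mem_spanOn (Finset.Subset.refl _) _ _)).symm
    have e1 : (kb U eK eK * (kb J φ φ * rhoL I u (c :: l) y)).trace =
        (kb U eK eK * ((p * A) * (p * A)ᴴ * (kb J₂ φ φ * R))).trace := by
      have hrc : rhoL I u (c :: l) y = A * Aᴴ * R := rfl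
      rw [hrc, hJsplit, kb_union_same hJd, ← hpdef, conjTranspose_mul, hph]
      calc (kb U eK eK * (p * kb J₂ φ φ * (A * Aᴴ * R))).trace
          = (kb U eK eK * p * ((kb J₂ φ φ * (A * Aᴴ)) * R)).trace := by simp only [Matrix.mul_assoc]
        _ = (kb U eK eK * (p * p) * ((A * Aᴴ) * (kb J₂ φ φ * R))).trace := by
            rw [c1, hpp]
            simp only [Matrix.mul_assoc]
        _ = (p * kb U eK eK * p * ((A * Aᴴ) * (kb J₂ φ φ * R))).trace := by
            rw [← c3]
            simp only [Matrix.mul_assoc]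
        _ = (p * (kb U eK eK * p * ((A * Aᴴ) * (kb J₂ φ φ * R)))).trace := by
            simp only [Matrix.mul_assoc]
        _ = ((kb U eK eK * p * ((A * Aᴴ) * (kb J₂ φ φ * R))) * p).trace := Matrix.trace_mul_comm _ _
        _ = (kb U eK eK * p * (A * Aᴴ * ((kb J₂ φ φ * R) * p))).trace := by simp only [Matrix.mul_assoc]
        _ = (kb U eK eK * p * (A * Aᴴ * (p * (kb J₂ φ φ * R)))).trace := by rw [c2]
        _ = _ := by simp only [Matrix.mul_assoc]
    rw [e1]
    have e2 := trace_ket_K hX hU.1 hdl.symm hK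
    rw [e2]
    have hd : Disjoint (U ∪ c.T) (uni l CSpec.T) := by
      rw [Finset.disjoint_union_left]
      exact ⟨hU.2, hdl⟩
    rw [ih hp.2 (U ∪ c.T) J₂ hJ₂sub hd hφ₂, uni_cons, Finset.union_assoc]
    have hmap : l.map (fun c' => ‖kb (J₂ ∩ c'.T) φ φ * c'.A I u y‖ ^ 2) =
        l.map (fun c' => ‖kb (J ∩ c'.T) φ φ * c'.A I u y‖ ^ 2) := by
      refine List.map_congr_left (fun c' hc' => ?_)
      have hset : J₂ ∩ c'.T = J ∩ c'.T := by
        ext q
        simp only [hJ₂, Finset.mem_inter, Finset.mem_sdiff]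
        constructor
        · rintro ⟨⟨h1, _⟩, h3⟩
          exact ⟨h1, h3⟩
        · rintro ⟨h1, h3⟩
          exact ⟨⟨h1, fun h4 => Finset.disjoint_left.mp (hp.1 c' hc') h4 h3⟩, h3⟩
      rw [hset]
    rw [hmap]
    simp only [List.map_cons, List.prod_cons]
    push_cast
    ring

end Cols

end Vale.Agent.Lib.P368

/-!
The mixing lemma: a product projector on many input sites has small expectation.
-/

set_option linter.unusedSectionVars false
set_option linter.unusedSimpArgs false
set_option linter.unusedVariables false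

namespace Vale.Agent.Lib.P368

open Matrix
open scoped Matrix.Norms.L2Operator ComplexConjugate ComplexOrder

section Mix

variable {Q : Type*} [Fintype Q] [DecidableEq Q]

/-- The average over all patterns. -/
noncomputable abbrev Av {E : Type*} [AddCommMonoid E] [Module ℝ E] (F : (Q → Bool) → E) : E := WS ∅ F

theorem Av_eq_half_pow {E : Type*} [AddCommMonoid E] [Module ℝ E] (J : Finset Q) (F : (Q → Bool) → E) :
    Av F = ((1 / 2 : ℝ) ^ J.card) • WS J F := by
  show WS (∅ : Finset Q) F = _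
  unfold WS
  rw [smul_smul]
  congr 1
  have h1 : (∅ : Finset Q)ᶜ = Finset.univ := by simp
  rw [h1, Finset.card_univ]
  have h2 : (Jᶜ).card + J.card = Fintype.card Q := by
    rw [Finset.card_compl]
    have := Finset.card_le_univ J
    omega
  rw [← h2, pow_add, one_div, inv_pow]
  field_simp

theorem Av_mul_indep (A B : Finset Q) (hAB : Disjoint A B) {f g : (Q → Bool) → ℝ}
    (hf : ∀ y y', (∀ q ∈ A, y q = y' q) → f y = f y')
    (hg : ∀ y y', (∀ q ∈ B, y q = y' q) → g y = g y') :
    Av (fun y => f y * g y) = Av f * Av g := by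
  have h1 := sum_mul_of_indep A B hAB hf hg
  show WS (∅ : Finset Q) (fun y => f y * g y) = WS (∅ : Finset Q) f * WS (∅ : Finset Q) g
  unfold WS
  simp only [smul_eq_mul]
  have h2 : (∅ : Finset Q)ᶜ = Finset.univ := by simp
  rw [h2, Finset.card_univ]
  have h3 : ((2 : ℝ) ^ Fintype.card Q) ≠ 0 := by positivity
  field_simp
  linarith

theorem Av_add {E : Type*} [AddCommMonoid E] [Module ℝ E] (F G : (Q → Bool) → E) :
    Av (fun y => F y + G y) = Av F + Av G := WS_add _ _ _

theorem Av_const (c : ℝ) : Av (fun _ : Q → Bool => c) = c := WS_empty_const c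

/-- The algebra of a pinned column. -/
theorem lamb_col_id (a x z g f : ℂ) :
    lamb (1 * a) (-(2 * f * (x * z)) * g) (star z) =
      ‖a‖ ^ 2 + ‖z‖ ^ 2 * (4 * ‖f‖ ^ 2 * ‖x‖ ^ 2 * ‖g‖ ^ 2 - 4 * (f * star a * x * g).re) := by
  unfold lamb
  simp only [Complex.sq_norm, Complex.normSq_apply, Complex.mul_re, Complex.mul_im, Complex.sub_re, Complex.sub_im,
    Complex.neg_re, Complex.neg_im, Complex.star_def, Complex.conj_re, Complex.conj_im, map_mul, Complex.one_re,
    Complex.one_im, Complex.re_ofNat, Complex.im_ofNat, map_one, Complex.conj_ofNat]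
  ring

variable (I : Finset Q) (u : Q → Bool → ℂ)

theorem WS_complex_re_mul (T : Finset Q) (c : ℂ) (F : (Q → Bool) → ℂ) :
    WS T (fun y => (c * F y).re) = (c * WS T F).re := by
  have h : c * WS T F = WS T (fun y => c * F y) := by
    unfold WS
    rw [Finset.smul_sum, Finset.smul_sum, Finset.mul_sum]
    refine Finset.sum_congr rfl (fun y _ => ?_)
    simp only [Complex.real_smul]
    ring
  rw [h, re_WS]

/-- The average of a pinned column. -/
theorem col_av (hu : ∀ q, ip (u q) (u q) = 1) (c : CSpec Q) {J : Finset Q} (hJT : J ⊆ c.T) (hJI : J ⊆ I)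
    {φ : Q → Bool → ℂ} (hφ : UnitOn J φ) :
    Av (fun y => ‖kb J φ φ * c.A I u y‖ ^ 2) = (1 / 2 : ℝ) ^ J.card := by
  set g := prodIp J φ c.s with hg
  set a : (Q → Bool) → ℂ := fun y => prodIp J φ (pinKet u y) with ha
  set x : (Q → Bool) → ℂ := fun y => prodIp J c.s (pinKet u y) with hx
  set z : (Q → Bool) → ℂ := fun y => prodIp (c.T \ J) c.s (vk I u y) with hz
  have hsJ : UnitOn J c.s := fun q _ => c.hs q
  have hvJ : ∀ y, ∀ q ∈ J, vk I u y q = pinKet u y q := fun y q hq => by
    unfold vk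
    rw [if_pos (hJI hq)]
  have hform : ∀ y, ‖kb J φ φ * c.A I u y‖ ^ 2 = ‖a y‖ ^ 2 +
      ‖z y‖ ^ 2 * (4 * ‖c.f‖ ^ 2 * ‖x y‖ ^ 2 * ‖g‖ ^ 2 - 4 * (c.f * star (a y) * x y * g).re) := by
    intro y
    unfold CSpec.A GK
    rw [norm_P_TK hJT hφ (fun q _ => vk_unit I u hu y q) (fun q _ => c.hs q)]
    have e1 : prodIp J φ (vk I u y) = a y := prodIp_congr (fun _ _ => rfl) (hvJ y)
    have e2 : prodIp c.T c.s (vk I u y) = x y * z y := by
      have hd : Disjoint J (c.T \ J) := Finset.disjoint_sdiff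
      have hu' : J ∪ (c.T \ J) = c.T := Finset.union_sdiff_of_subset hJT
      conv_lhs => rw [← hu']
      rw [prodIp_union hd]
      congr 1
      exact prodIp_congr (fun _ _ => rfl) (hvJ y)
    have e3 : prodIp (c.T \ J) (vk I u y) c.s = star (z y) := by
      rw [hz]
      simp only
      rw [star_prodIp]
    rw [e1, e2, e3]
    exact lamb_col_id _ _ _ _ _
  simp only [hform]
  rw [Av_add]
  -- the first term
  have hA1 : WS J (fun y => ‖a y‖ ^ 2) = 1 := by
    have h := WS_norm_sq J (r := u) (u := φ) hu hφ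
    rw [← h]
    congr 1
    funext y
    simp only [ha]
    rw [← star_prodIp J (pinKet u y) φ, norm_star]
  have hX1 : WS J (fun y => ‖x y‖ ^ 2) = 1 := by
    have h := WS_norm_sq J (r := u) (u := c.s) hu hsJ
    rw [← h]
    congr 1
    funext y
    simp only [hx]
    rw [← star_prodIp J (pinKet u y) c.s, norm_star]
  have hcross : WS J (fun y => star (a y) * x y) = star g := by
    have h := WS_cross J (r := u) hu c.s φ
    rw [show star g = prodIp J c.s φ from star_prodIp J φ c.s, ← h]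
    congr 1
    funext y
    show star (prodIp J φ (pinKet u y)) * prodIp J c.s (pinKet u y) =
      star (prodIp J (pinKet u y) c.s) * prodIp J (pinKet u y) φ
    rw [star_prodIp, ← star_prodIp J (pinKet u y) c.s, mul_comm]
  -- the independence
  set G : (Q → Bool) → ℝ := fun y => 4 * ‖c.f‖ ^ 2 * ‖x y‖ ^ 2 * ‖g‖ ^ 2 - 4 * (c.f * star (a y) * x y * g).re with hG
  have hG0 : WS J G = 0 := by
    have h1 : G = fun y => (4 * ‖c.f‖ ^ 2 * ‖g‖ ^ 2) * ‖x y‖ ^ 2 - 4 * ((c.f * g) * (star (a y) * x y)).re := by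
      funext y
      simp only [hG]
      have : c.f * star (a y) * x y * g = (c.f * g) * (star (a y) * x y) := by ring
      rw [this]
      ring
    rw [h1, WS_sub, WS_real_mul_left, hX1, WS_real_mul_left, WS_complex_re_mul, hcross]
    have h2 : (c.f * g * star g).re = c.f.re * ‖g‖ ^ 2 := by
      rw [mul_assoc, Complex.star_def, Complex.mul_conj']
      have : ((‖g‖ : ℂ) ^ 2) = ((‖g‖ ^ 2 : ℝ) : ℂ) := by push_cast; rfl
      rw [this, Complex.re_mul_ofReal]
    rw [h2]
    rcases c.hf with h3 | h3 <;> rw [h3] <;> simp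
  have hGdep : ∀ y y', (∀ q ∈ J, y q = y' q) → G y = G y' := by
    intro y y' h
    have e1 : x y = x y' := prodIp_congr (fun _ _ => rfl) (pinKet_congr h)
    have e2 : a y = a y' := prodIp_congr (fun _ _ => rfl) (pinKet_congr h)
    simp only [hG, e1, e2]
  have hzdep : ∀ y y', (∀ q ∈ c.T \ J, y q = y' q) → ‖z y‖ ^ 2 = ‖z y'‖ ^ 2 := by
    intro y y' h
    have e1 : z y = z y' := prodIp_congr (fun _ _ => rfl) (vk_congr I u h)
    rw [e1]
  have h2 := Av_mul_indep (c.T \ J) J Finset.sdiff_disjoint hzdep hGdep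
  rw [h2, Av_eq_half_pow J (fun y => ‖a y‖ ^ 2), hA1, Av_eq_half_pow J G, hG0]
  simp

/-- Averages of products over independent columns. -/
theorem Av_prod (l : List (CSpec Q)) (F : CSpec Q → (Q → Bool) → ℝ)
    (hdep : ∀ c ∈ l, ∀ y y', (∀ q ∈ c.T, y q = y' q) → F c y = F c y')
    (hp : l.Pairwise (fun a b => Disjoint a.T b.T)) :
    Av (fun y => (l.map (fun c => F c y)).prod) = (l.map (fun c => Av (F c))).prod := by
  induction l with
  | nil =>
    simp only [List.map_nil, List.prod_nil]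
    exact Av_const 1
  | cons c l ih =>
    rw [List.pairwise_cons] at hp
    simp only [List.map_cons, List.prod_cons]
    have hd : Disjoint c.T (uni l CSpec.T) := disjoint_uni_right hp.1
    have hg : ∀ y y', (∀ q ∈ uni l CSpec.T, y q = y' q) →
        (l.map (fun c => F c y)).prod = (l.map (fun c => F c y')).prod := by
      intro y y' h
      congr 1
      refine List.map_congr_left (fun c' hc' => ?_)
      exact hdep c' (by simp [hc']) y y' (fun q hq => h q (uni_subset hc' hq))
    rw [Av_mul_indep c.T (uni l CSpec.T) hd (hdep c (by simp)) hg,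
      ih (fun c' hc' => hdep c' (by simp [hc'])) hp.2]

/-- The mixing lemma for a set of input sites. -/
theorem mixing_eq (hu : ∀ q, ip (u q) (u q) = 1) (l : List (CSpec Q))
    (hp : l.Pairwise (fun a b => Disjoint a.T b.T)) (hcov : uni l CSpec.T = Finset.univ)
    {J : Finset Q} (hJI : J ⊆ I) {φ : Q → Bool → ℂ} (hφ : UnitOn J φ) :
    Av (fun y => (kb J φ φ * rhoL I u l y).trace.re) = (1 / 2 : ℝ) ^ J.card := by
  have h1 : ∀ y, (kb J φ φ * rhoL I u l y).trace.re = (l.map (fun c => ‖kb (J ∩ c.T) φ φ * c.A I u y‖ ^ 2)).prod := by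
    intro y
    have h2 := trace_P_rhoL I u l hp y (φ := φ) ∅ J (by rw [hcov]; exact Finset.subset_univ _)
      (Finset.disjoint_empty_left _) hφ
    rw [kb_empty, Matrix.one_mul, hcov, Finset.empty_union, trace_kb_eK_univ, mul_one] at h2
    rw [h2, Complex.ofReal_re]
  simp only [h1]
  have hdep : ∀ c ∈ l, ∀ y y', (∀ q ∈ c.T, y q = y' q) →
      ‖kb (J ∩ c.T) φ φ * c.A I u y‖ ^ 2 = ‖kb (J ∩ c.T) φ φ * c.A I u y'‖ ^ 2 := by
    intro c _ y y' h
    rw [c.A_congr I u h]
  rw [Av_prod l (fun c y => ‖kb (J ∩ c.T) φ φ * c.A I u y‖ ^ 2) hdep hp]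
  have h3 : ∀ (l' : List (CSpec Q)) (J' : Finset Q), l'.Pairwise (fun a b => Disjoint a.T b.T) → J' ⊆ uni l' CSpec.T →
      (l'.map (fun c => (1 / 2 : ℝ) ^ (J' ∩ c.T).card)).prod = (1 / 2 : ℝ) ^ J'.card := by
    intro l'
    induction l' with
    | nil =>
      intro J' _ hJ'
      have : J' = ∅ := by simpa [uni] using hJ'
      simp [this]
    | cons c l' ih =>
      intro J' hp' hJ'
      rw [List.pairwise_cons] at hp'
      simp only [List.map_cons, List.prod_cons]
      have hsub : J' \ c.T ⊆ uni l' CSpec.T := by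
        intro q hq
        obtain ⟨h1, h2⟩ := Finset.mem_sdiff.mp hq
        rcases Finset.mem_union.mp (by rw [uni_cons] at hJ'; exact hJ' h1) with h3 | h3
        · exact absurd h3 h2
        · exact h3
      have h4 := ih (J' \ c.T) hp'.2 hsub
      have h5 : l'.map (fun c' => (1 / 2 : ℝ) ^ ((J' \ c.T) ∩ c'.T).card) =
          l'.map (fun c' => (1 / 2 : ℝ) ^ (J' ∩ c'.T).card) := by
        refine List.map_congr_left (fun c' hc' => ?_)
        have : (J' \ c.T) ∩ c'.T = J' ∩ c'.T := by
          ext q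
          simp only [Finset.mem_inter, Finset.mem_sdiff]
          constructor
          · rintro ⟨⟨h1, _⟩, h3⟩
            exact ⟨h1, h3⟩
          · rintro ⟨h1, h3⟩
            exact ⟨⟨h1, fun h6 => Finset.disjoint_left.mp (hp'.1 c' hc') h6 h3⟩, h3⟩
        rw [this]
      rw [h5] at h4
      rw [h4, ← pow_add]
      congr 1
      have h6 := Finset.card_inter_add_card_sdiff J' c.T
      omega
  have h4 : l.map (fun c => Av (fun y => ‖kb (J ∩ c.T) φ φ * c.A I u y‖ ^ 2)) =
      l.map (fun c => (1 / 2 : ℝ) ^ (J ∩ c.T).card) := by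
    refine List.map_congr_left (fun c _ => ?_)
    exact col_av I u hu c Finset.inter_subset_right (fun q hq => hJI (Finset.mem_inter.mp hq).1)
      (fun q hq => hφ q (Finset.mem_inter.mp hq).1)
  rw [h4]
  exact h3 l J hp (by rw [hcov]; exact Finset.subset_univ _)

/-- The trace of a smaller projector is larger. -/
theorem trace_proj_mono {P P' ρ : MM Q} (hP : Pᴴ = P ∧ P * P = P) (hP' : P'ᴴ = P' ∧ P' * P' = P')
    (hc : P * P' = P' * P) (hρ : ρ.PosSemidef) : (P * P' * ρ).trace.re ≤ (P * ρ).trace.re := by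
  have h1 := projector_psd hP.1 hP.2
  have h2 := projector_psd (one_sub_projector hP'.1 hP'.2).1 (one_sub_projector hP'.1 hP'.2).2
  have h3 : (P * (1 - P')).PosSemidef := by
    refine psd_mul_of_commute h1 h2 ?_
    simp only [Matrix.mul_sub, Matrix.sub_mul, Matrix.mul_one, Matrix.one_mul, hc]
  have h4 := trace_psd_mul_re h3 hρ
  have e : P * (1 - P') * ρ = P * ρ - P * P' * ρ := by
    simp only [Matrix.mul_sub, Matrix.sub_mul, Matrix.mul_one]
  rw [e, Matrix.trace_sub, Complex.sub_re] at h4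
  linarith

/-- The mixing lemma. -/
theorem mixing (hu : ∀ q, ip (u q) (u q) = 1) (l : List (CSpec Q))
    (hp : l.Pairwise (fun a b => Disjoint a.T b.T)) (hcov : uni l CSpec.T = Finset.univ)
    (J : Finset Q) {φ : Q → Bool → ℂ} (hφ : UnitOn J φ) :
    Av (fun y => (kb J φ φ * rhoL I u l y).trace.re) ≤ (1 / 2 : ℝ) ^ (J ∩ I).card := by
  have h1 : UnitOn (J ∩ I) φ := fun q hq => hφ q (Finset.mem_inter.mp hq).1
  rw [← mixing_eq I u hu l hp hcov (J := J ∩ I) Finset.inter_subset_right h1]
  refine WS_real_le _ (fun y => ?_)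
  have hJ : J = (J ∩ I) ∪ (J \ I) := by
    ext q
    simp only [Finset.mem_union, Finset.mem_inter, Finset.mem_sdiff]
    tauto
  have hd : Disjoint (J ∩ I) (J \ I) := by
    rw [Finset.disjoint_left]
    intro q h2 h3
    exact (Finset.mem_sdiff.mp h3).2 (Finset.mem_inter.mp h2).2
  have e : kb J φ φ = kb (J ∩ I) φ φ * kb (J \ I) φ φ := by
    conv_lhs => rw [hJ]
    exact kb_union_same hd _ _
  rw [e]
  refine trace_proj_mono ⟨kb_hermitian _ _, kb_idem h1⟩
    ⟨kb_hermitian _ _, kb_idem (fun q hq => hφ q (Finset.mem_sdiff.mp hq).1)⟩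
    (kb_comm_disjoint hd _ _ _ _) (rhoL_psd I u l hp y)

end Mix

end Vale.Agent.Lib.P368

/-!
Building rows from the second layer of reflections.
-/

set_option linter.unusedSectionVars false
set_option linter.unusedSimpArgs false
set_option linter.unusedVariables false

namespace Vale.Agent.Lib.P368

open Matrix
open scoped Matrix.Norms.L2Operator ComplexConjugate ComplexOrder

section RowB

variable {Q : Type*} [Fintype Q] [DecidableEq Q]

theorem ketOp_unit {S : Finset Q} {X : MM Q} (hX : IsKet S X) (hn : ‖X‖ = 1) : Xᴴ * X = kb S eK eK := by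
  rw [hX.star_mul, hn]
  simp

/-- A row from product data. -/
noncomputable def mkRow (φ r : Q → Bool → ℂ) (hφ : ∀ q, ip (φ q) (φ q) = 1) (hr : ∀ q, ip (r q) (r q) = 1)
    (S U : Finset Q) (hd : Disjoint S U) (f : ℂ) (hf : f = 0 ∨ f = 1) : Row Q where
  S := S
  U := U
  N0 := kb S φ eK
  N1 := GK S f φ r
  hN0 := Kt_ket S φ
  hN1 := GK_ket S f φ r
  unit0 := Kt_star_mul (fun q _ => hφ q)
  unit1 := ketOp_unit (GK_ket S f φ r) (GK_norm (fun q _ => hφ q) (fun q _ => hr q) hf)
  disj := hd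

/-- Dropping the decision part of a row. -/
noncomputable def Row.dropU (g : Row Q) : Row Q where
  S := g.S
  U := ∅
  N0 := g.N0
  N1 := g.N0
  hN0 := g.hN0
  hN1 := g.hN0
  unit0 := g.unit0
  unit1 := g.unit0
  disj := by simp

theorem Row.dropU_W (g : Row Q) (r : Q → Bool → ℂ) : g.dropU.W r = g.E0 := by
  unfold Row.W Row.mix Row.E0 Row.E1
  show g.N0 * g.N0ᴴ * (1 - kb ∅ r r) + g.N0 * g.N0ᴴ * kb ∅ r r = _
  rw [kb_empty]
  simp

theorem Row.mix_proj (g : Row Q) {P : MM Q} {T : Finset Q} (hP : P ∈ SpanOn T) (hT : T ⊆ g.U)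
    (hP1 : Pᴴ = P) (hP2 : P * P = P) : (g.mix P)ᴴ = g.mix P ∧ g.mix P * g.mix P = g.mix P := by
  have hd : Disjoint g.S T := Finset.disjoint_of_subset_right hT g.disj
  have c0 : g.E0 * P = P * g.E0 := commute_spanOn hd g.E0_mem hP
  have c1 : g.E1 * P = P * g.E1 := commute_spanOn hd g.E1_mem hP
  obtain ⟨h5, h6⟩ := g.E0_proj
  obtain ⟨h7, h8⟩ := g.E1_proj
  constructor
  · unfold Row.mix
    rw [conjTranspose_add, conjTranspose_mul, conjTranspose_mul, conjTranspose_sub, conjTranspose_one, h5, h7, hP1]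
    simp only [Matrix.mul_sub, Matrix.sub_mul, Matrix.mul_one, Matrix.one_mul, c0, c1]
  · unfold Row.mix
    have a1 : (g.E0 * (1 - P)) * (g.E0 * (1 - P)) = g.E0 * (1 - P) := by
      have : (1 - P) * g.E0 = g.E0 * (1 - P) := by
        simp only [Matrix.mul_sub, Matrix.sub_mul, Matrix.mul_one, Matrix.one_mul, c0]
      calc (g.E0 * (1 - P)) * (g.E0 * (1 - P)) = g.E0 * ((1 - P) * g.E0) * (1 - P) := by
            simp only [Matrix.mul_assoc]
        _ = (g.E0 * g.E0) * ((1 - P) * (1 - P)) := by rw [this]; simp only [Matrix.mul_assoc]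
        _ = _ := by rw [h6, (one_sub_projector hP1 hP2).2]
    have a2 : (g.E1 * P) * (g.E1 * P) = g.E1 * P := by
      calc (g.E1 * P) * (g.E1 * P) = g.E1 * (P * g.E1) * P := by simp only [Matrix.mul_assoc]
        _ = (g.E1 * g.E1) * (P * P) := by rw [← c1]; simp only [Matrix.mul_assoc]
        _ = _ := by rw [h8, hP2]
    have a3 : (g.E0 * (1 - P)) * (g.E1 * P) = 0 := by
      have : (1 - P) * g.E1 = g.E1 * (1 - P) := by
        simp only [Matrix.mul_sub, Matrix.sub_mul, Matrix.mul_one, Matrix.one_mul, c1]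
      calc (g.E0 * (1 - P)) * (g.E1 * P) = g.E0 * ((1 - P) * g.E1) * P := by simp only [Matrix.mul_assoc]
        _ = g.E0 * g.E1 * ((1 - P) * P) := by rw [this]; simp only [Matrix.mul_assoc]
        _ = 0 := by
          have : (1 - P) * P = 0 := by
            rw [Matrix.sub_mul, Matrix.one_mul, hP2, sub_self]
          rw [this, Matrix.mul_zero]
    have a4 : (g.E1 * P) * (g.E0 * (1 - P)) = 0 := by
      calc (g.E1 * P) * (g.E0 * (1 - P)) = g.E1 * (P * g.E0) * (1 - P) := by simp only [Matrix.mul_assoc]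
        _ = g.E1 * g.E0 * (P * (1 - P)) := by rw [← c0]; simp only [Matrix.mul_assoc]
        _ = 0 := by
          have : P * (1 - P) = 0 := by
            rw [Matrix.mul_sub, Matrix.mul_one, hP2, sub_self]
          rw [this, Matrix.mul_zero]
    rw [Matrix.add_mul, Matrix.mul_add, Matrix.mul_add, a1, a2, a3, a4, add_zero, zero_add]

theorem Row.W_proj (g : Row Q) {r : Q → Bool → ℂ} (hr : ∀ q, ip (r q) (r q) = 1) :
    (g.W r)ᴴ = g.W r ∧ g.W r * g.W r = g.W r :=
  g.mix_proj (kb_mem_spanOn (Finset.Subset.refl _) _ _) (Finset.Subset.refl _) (kb_hermitian _ _)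
    (kb_idem (fun q _ => hr q))

theorem Row.W_mem (g : Row Q) (r : Q → Bool → ℂ) : g.W r ∈ SpanOn g.sites :=
  g.mix_mem (kb_mem_spanOn (Finset.Subset.refl _) _ _) (Finset.Subset.refl _)

/-- Products of rows are projectors. -/
theorem prodW_proj {l : List (Row Q)} (hp : l.Pairwise (fun g g' => Disjoint g.sites g'.sites))
    {r : Q → Bool → ℂ} (hr : ∀ q, ip (r q) (r q) = 1) :
    ((l.map (fun g => g.W r)).prod)ᴴ = (l.map (fun g => g.W r)).prod ∧
      (l.map (fun g => g.W r)).prod * (l.map (fun g => g.W r)).prod = (l.map (fun g => g.W r)).prod := by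
  induction l with
  | nil => simp
  | cons g l ih =>
    rw [List.pairwise_cons] at hp
    obtain ⟨i1, i2⟩ := ih hp.2
    obtain ⟨h1, h2⟩ := g.W_proj hr
    simp only [List.map_cons, List.prod_cons]
    set Y := (l.map (fun g => g.W r)).prod with hY
    have hYm : Y ∈ SpanOn (uni l Row.sites) := prod_mem_spanOn (fun a ha =>
      spanOn_mono (uni_subset ha) (a.W_mem r))
    have hc : g.W r * Y = Y * g.W r := commute_spanOn (disjoint_uni_right hp.1) (g.W_mem r) hYm
    constructor
    · rw [conjTranspose_mul, i1, h1, hc]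
    · calc g.W r * Y * (g.W r * Y) = g.W r * (Y * g.W r) * Y := by simp only [Matrix.mul_assoc]
        _ = (g.W r * g.W r) * (Y * Y) := by rw [← hc]; simp only [Matrix.mul_assoc]
        _ = _ := by rw [h2, i2]

theorem norm_prodW_le {l : List (Row Q)} (hp : l.Pairwise (fun g g' => Disjoint g.sites g'.sites))
    {r : Q → Bool → ℂ} (hr : ∀ q, ip (r q) (r q) = 1) : ‖(l.map (fun g => g.W r)).prod‖ ≤ 1 :=
  projector_norm_le (prodW_proj hp hr).1 (prodW_proj hp hr).2

/-- The sites of a row from product data. -/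
theorem mkRow_sites (φ r : Q → Bool → ℂ) (hφ : ∀ q, ip (φ q) (φ q) = 1) (hr : ∀ q, ip (r q) (r q) = 1)
    (S U : Finset Q) (hd : Disjoint S U) (f : ℂ) (hf : f = 0 ∨ f = 1) :
    (mkRow φ r hφ hr S U hd f hf).sites = S ∪ U := rfl

/-- The second operator of a row without reflection. -/
theorem mkRow_zero_E1 (φ r : Q → Bool → ℂ) (hφ : ∀ q, ip (φ q) (φ q) = 1) (hr : ∀ q, ip (r q) (r q) = 1)
    (S U : Finset Q) (hd : Disjoint S U) :
    (mkRow φ r hφ hr S U hd 0 (Or.inl rfl)).E1 = kb S φ φ := by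
  show GK S 0 φ r * (GK S 0 φ r)ᴴ = _
  rw [GK_zero, kb_conjTranspose, kb_mul, Finset.prod_congr rfl (eK_unit S)]
  simp

theorem mkRow_E0 (φ r : Q → Bool → ℂ) (hφ : ∀ q, ip (φ q) (φ q) = 1) (hr : ∀ q, ip (r q) (r q) = 1)
    (S U : Finset Q) (hd : Disjoint S U) (f : ℂ) (hf : f = 0 ∨ f = 1) :
    (mkRow φ r hφ hr S U hd f hf).E0 = kb S φ φ := by
  show kb S φ eK * (kb S φ eK)ᴴ = _
  rw [kb_conjTranspose, kb_mul, Finset.prod_congr rfl (eK_unit S)]
  simp

/-- The row of one gate. -/
theorem gate_row (g : Refl Q) (φ r : Q → Bool → ℂ) (hφ : ∀ q, ip (φ q) (φ q) = 1) (hr : ∀ q, ip (r q) (r q) = 1)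
    (hg : ∀ q ∈ g.T, r q = g.r q) (S U : Finset Q) (hS : g.T = S ∪ U) (hd : Disjoint S U) :
    g.op * kb S φ φ * g.op = (mkRow φ r hφ hr S U hd 1 (Or.inr rfl)).W r := by
  set E := kb S φ φ with hE
  set p := kb S r r with hp
  set P := kb U r r with hP
  have hpp : p * p = p := kb_idem (fun q _ => hr q)
  have hPP : P * P = P := kb_idem (fun q _ => hr q)
  have hcPE : P * E = E * P := kb_comm_disjoint hd.symm _ _ _ _
  have hcPp : P * p = p * P := kb_comm_disjoint hd.symm _ _ _ _
  have hop : g.op = 1 - (2 : ℂ) • (p * P) := by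
    unfold Refl.op
    congr 2
    rw [hp, hP, ← kb_union_same hd, ← hS]
    exact kb_congr (fun q hq => (hg q hq).symm) (fun q hq => (hg q hq).symm)
  -- the row
  set N0 := kb S φ eK with hN0
  set N1 := GK S 1 φ r with hN1
  have hE0 : N0 * N0ᴴ = E := by
    rw [hN0, kb_conjTranspose, kb_mul, Finset.prod_congr rfl (eK_unit S)]
    simp [hE]
  have hN1e : N1 = (1 - (2 : ℂ) • p) * N0 := by
    have h1 : p * N0 = prodIp S r φ • kb S r eK := by
      rw [hp, hN0, kb_mul]
      rfl
    rw [Matrix.sub_mul, Matrix.one_mul, Matrix.smul_mul, h1, hN1, hN0]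
    unfold GK TK
    simp only [one_smul, mul_one, neg_smul, smul_smul, sub_eq_add_neg]
  have hph : (1 - (2 : ℂ) • p)ᴴ = 1 - (2 : ℂ) • p := by
    rw [conjTranspose_sub, conjTranspose_one, conjTranspose_smul, hp, kb_hermitian]
    simp
  have hE1 : N1 * N1ᴴ = (1 - (2 : ℂ) • p) * E * (1 - (2 : ℂ) • p) := by
    rw [hN1e, conjTranspose_mul, hph, ← hE0]
    simp only [Matrix.mul_assoc]
  have hW : (mkRow φ r hφ hr S U hd 1 (Or.inr rfl)).W r =
      E * (1 - P) + ((1 - (2 : ℂ) • p) * E * (1 - (2 : ℂ) • p)) * P := by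
    show (N0 * N0ᴴ) * (1 - P) + (N1 * N1ᴴ) * P = _
    rw [hE0, hE1]
  rw [hW, hop]
  have hcP2 : P * (p * E) = (p * E) * P := by
    rw [← Matrix.mul_assoc, hcPp, Matrix.mul_assoc, hcPE, Matrix.mul_assoc]
  have e1 : (p * P) * E = (p * E) * P := by
    rw [Matrix.mul_assoc, hcPE, Matrix.mul_assoc]
  have e2 : E * (p * P) = (E * p) * P := by
    rw [Matrix.mul_assoc]
  have e3 : (p * P) * E * (p * P) = (p * E * p) * P := by
    rw [e1]
    calc p * E * P * (p * P) = p * E * (P * p) * P := by simp only [Matrix.mul_assoc]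
      _ = p * E * p * (P * P) := by rw [hcPp]; simp only [Matrix.mul_assoc]
      _ = _ := by rw [hPP]
  calc (1 - (2 : ℂ) • (p * P)) * E * (1 - (2 : ℂ) • (p * P))
      = E - (2 : ℂ) • ((p * P) * E) - (2 : ℂ) • (E * (p * P)) + (4 : ℂ) • ((p * P) * E * (p * P)) := by
        simp only [Matrix.mul_sub, Matrix.sub_mul, Matrix.one_mul, Matrix.mul_one, Matrix.smul_mul,
          Matrix.mul_smul, smul_sub, smul_smul]
        norm_num
        abel
    _ = E - (2 : ℂ) • ((p * E) * P) - (2 : ℂ) • ((E * p) * P) + (4 : ℂ) • ((p * E * p) * P) := by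
        rw [e3, e1, e2]
    _ = _ := by
        simp only [Matrix.mul_sub, Matrix.sub_mul, Matrix.one_mul, Matrix.mul_one, Matrix.smul_mul,
          Matrix.mul_smul, smul_sub, smul_smul, Matrix.add_mul]
        norm_num
        abel

/-- The row of a gate against a set of sites. -/
noncomputable def rowOf (φ r : Q → Bool → ℂ) (hφ : ∀ q, ip (φ q) (φ q) = 1) (hr : ∀ q, ip (r q) (r q) = 1)
    (T : Finset Q) (g : Refl Q) : Row Q :=
  mkRow φ r hφ hr (T ∩ g.T) (g.T \ T) (by
    rw [Finset.disjoint_left]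
    intro q h1 h2
    exact (Finset.mem_sdiff.mp h2).2 (Finset.mem_inter.mp h1).1) 1 (Or.inr rfl)

theorem rowOf_sites (φ r : Q → Bool → ℂ) (hφ : ∀ q, ip (φ q) (φ q) = 1) (hr : ∀ q, ip (r q) (r q) = 1)
    (T : Finset Q) (g : Refl Q) : (rowOf φ r hφ hr T g).sites = g.T := by
  unfold rowOf
  rw [mkRow_sites]
  ext q
  simp only [Finset.mem_union, Finset.mem_inter, Finset.mem_sdiff]
  tauto

/-- Conjugating a product projector by a layer gives a product of rows. -/
theorem layer_conj (L : List (Refl Q)) (hL : L.Pairwise (fun g h => Disjoint g.T h.T))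
    (φ r : Q → Bool → ℂ) (hφ : ∀ q, ip (φ q) (φ q) = 1) (hr : ∀ q, ip (r q) (r q) = 1)
    (hg : ∀ g ∈ L, ∀ q ∈ g.T, r q = g.r q) :
    ∀ T : Finset Q, (layerOp L)ᴴ * kb T φ φ * layerOp L =
      (L.map (fun g => (rowOf φ r hφ hr T g).W r)).prod * kb (T \ uni L Refl.T) φ φ := by
  induction L with
  | nil =>
    intro T
    simp [layerOp, uni]
  | cons g L ih =>
    intro T
    rw [List.pairwise_cons] at hL
    have h1 : layerOp (g :: L) = g.op * layerOp L := by simp [layerOp]
    have hd : Disjoint (T ∩ g.T) (T \ g.T) := by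
      rw [Finset.disjoint_left]
      intro q h2 h3
      exact (Finset.mem_sdiff.mp h3).2 (Finset.mem_inter.mp h2).2
    have hsplit : kb T φ φ = kb (T ∩ g.T) φ φ * kb (T \ g.T) φ φ := by
      rw [← kb_union_same hd]
      congr 1
      ext q
      simp only [Finset.mem_union, Finset.mem_inter, Finset.mem_sdiff]
      tauto
    have hdg : Disjoint g.T (T \ g.T) := Finset.disjoint_sdiff
    have hc1 : kb (T \ g.T) φ φ * g.op = g.op * kb (T \ g.T) φ φ :=
      (commute_spanOn hdg g.op_mem (kb_mem_spanOn (Finset.Subset.refl _) _ _)).symm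
    have hgr := gate_row g φ r hφ hr (hg g (by simp)) (T ∩ g.T) (g.T \ T) (by
      ext q
      simp only [Finset.mem_union, Finset.mem_inter, Finset.mem_sdiff]
      tauto) (by
      rw [Finset.disjoint_left]
      intro q h2 h3
      exact (Finset.mem_sdiff.mp h3).2 (Finset.mem_inter.mp h2).1)
    have hW : g.op * kb (T ∩ g.T) φ φ * g.op = (rowOf φ r hφ hr T g).W r := hgr
    have hWm : (rowOf φ r hφ hr T g).W r ∈ SpanOn g.T := by
      have := (rowOf φ r hφ hr T g).W_mem r
      rwa [rowOf_sites] at this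
    have hLm : layerOp L ∈ SpanOn (uni L Refl.T) := layerOp_mem (fun g' hg' => uni_subset hg')
    have hdL : Disjoint g.T (uni L Refl.T) := disjoint_uni_right hL.1
    have hc2 : (rowOf φ r hφ hr T g).W r * layerOp L = layerOp L * (rowOf φ r hφ hr T g).W r :=
      commute_spanOn hdL hWm hLm
    have hc3 : (layerOp L)ᴴ * (rowOf φ r hφ hr T g).W r = (rowOf φ r hφ hr T g).W r * (layerOp L)ᴴ :=
      (commute_spanOn hdL hWm (conjTranspose_mem_spanOn hLm)).symm
    have hih := ih hL.2 (fun g' hg' => hg g' (by simp [hg'])) (T \ g.T)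
    have hrows : L.map (fun g' => (rowOf φ r hφ hr (T \ g.T) g').W r) =
        L.map (fun g' => (rowOf φ r hφ hr T g').W r) := by
      refine List.map_congr_left (fun g' hg' => ?_)
      have hdg' := hL.1 g' hg'
      have e1 : (T \ g.T) ∩ g'.T = T ∩ g'.T := by
        ext q
        simp only [Finset.mem_inter, Finset.mem_sdiff]
        constructor
        · rintro ⟨⟨h2, _⟩, h3⟩
          exact ⟨h2, h3⟩
        · rintro ⟨h2, h3⟩
          exact ⟨⟨h2, fun h4 => Finset.disjoint_left.mp hdg' h4 h3⟩, h3⟩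
      have e2 : g'.T \ (T \ g.T) = g'.T \ T := by
        ext q
        simp only [Finset.mem_sdiff, not_and, not_not]
        constructor
        · rintro ⟨h2, h3⟩
          exact ⟨h2, fun h4 => Finset.disjoint_left.mp hdg' (h3 h4) h2⟩
        · rintro ⟨h2, h3⟩
          exact ⟨h2, fun h4 => absurd h4 h3⟩
      unfold rowOf
      congr 1
      · simp only [e1, e2]
    rw [h1, conjTranspose_mul, g.op_conj]
    have e3 : (T \ g.T) \ uni L Refl.T = T \ uni (g :: L) Refl.T := by
      rw [uni_cons]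
      ext q
      simp only [Finset.mem_sdiff, Finset.mem_union]
      tauto
    calc (layerOp L)ᴴ * g.op * kb T φ φ * (g.op * layerOp L)
        = (layerOp L)ᴴ * (g.op * kb (T ∩ g.T) φ φ * (kb (T \ g.T) φ φ * g.op)) * layerOp L := by
          rw [hsplit]
          simp only [Matrix.mul_assoc]
      _ = (layerOp L)ᴴ * ((g.op * kb (T ∩ g.T) φ φ * g.op) * kb (T \ g.T) φ φ) * layerOp L := by
          rw [hc1]
          simp only [Matrix.mul_assoc]
      _ = (rowOf φ r hφ hr T g).W r * ((layerOp L)ᴴ * kb (T \ g.T) φ φ * layerOp L) := by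
          rw [hW, ← Matrix.mul_assoc, hc3]
          simp only [Matrix.mul_assoc]
      _ = _ := by
          rw [hih, hrows, e3]
          simp only [List.map_cons, List.prod_cons, Matrix.mul_assoc]

end RowB

end Vale.Agent.Lib.P368

/-!
Lists of rows: the row system, and removing rows with many input sites.
-/

set_option linter.unusedSectionVars false
set_option linter.unusedSimpArgs false
set_option linter.unusedVariables false

namespace Vale.Agent.Lib.P368

open Matrix
open scoped Matrix.Norms.L2Operator ComplexConjugate ComplexOrder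

section RowL

variable {Q : Type*} [Fintype Q] [DecidableEq Q]

/-- The global ket of a layer of reflections. -/
noncomputable def globR : List (Refl Q) → Q → Bool → ℂ
  | [] => eK
  | g :: L => merge g.T g.r (globR L)

theorem globR_unit (L : List (Refl Q)) : ∀ q, ip (globR L q) (globR L q) = 1 := by
  induction L with
  | nil => exact fun q => ip_ketZero
  | cons g L ih =>
    intro q
    unfold globR merge
    by_cases hq : q ∈ g.T
    · simp only [hq, if_true]
      exact g.unit q hq
    · simp only [hq, if_false]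
      exact ih q

theorem globR_val {L : List (Refl Q)} (hL : L.Pairwise (fun g h => Disjoint g.T h.T)) :
    ∀ g ∈ L, ∀ q ∈ g.T, globR L q = g.r q := by
  induction L with
  | nil => simp
  | cons g L ih =>
    rw [List.pairwise_cons] at hL
    intro h hh q hq
    unfold globR merge
    rcases List.mem_cons.mp hh with rfl | hh'
    · simp [hq]
    · have : q ∉ g.T := fun h2 => Finset.disjoint_left.mp (hL.1 h hh') h2 hq
      simp only [this, if_false]
      exact ih hL.2 h hh' q hq

/-- The row of a site outside the reflections. -/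
noncomputable def siteRow (φ r : Q → Bool → ℂ) (hφ : ∀ q, ip (φ q) (φ q) = 1) (hr : ∀ q, ip (r q) (r q) = 1)
    (q : Q) : Row Q :=
  mkRow φ r hφ hr {q} ∅ (by simp) 0 (Or.inl rfl)

theorem siteRow_W (φ r : Q → Bool → ℂ) (hφ : ∀ q, ip (φ q) (φ q) = 1) (hr : ∀ q, ip (r q) (r q) = 1)
    (q : Q) : (siteRow φ r hφ hr q).W r = kb {q} φ φ := by
  have h1 := mkRow_zero_E1 φ r hφ hr {q} ∅ (by simp)
  unfold siteRow Row.W Row.mix
  rw [h1]
  show _ * (1 - kb ∅ r r) + kb {q} φ φ * kb ∅ r r = _
  rw [kb_empty]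
  simp

/-- The rows of a layer and a product projector. -/
noncomputable def rowList (φ r : Q → Bool → ℂ) (hφ : ∀ q, ip (φ q) (φ q) = 1) (hr : ∀ q, ip (r q) (r q) = 1)
    (T : Finset Q) (L : List (Refl Q)) : List (Row Q) :=
  L.map (rowOf φ r hφ hr T) ++ (T \ uni L Refl.T).toList.map (siteRow φ r hφ hr)

theorem uni_singletons (S : Finset Q) : uni S.toList (fun q => ({q} : Finset Q)) = S := by
  ext q
  simp [mem_uni]

theorem rowList_prod (φ r : Q → Bool → ℂ) (hφ : ∀ q, ip (φ q) (φ q) = 1) (hr : ∀ q, ip (r q) (r q) = 1)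
    (T : Finset Q) (L : List (Refl Q)) (hL : L.Pairwise (fun g h => Disjoint g.T h.T))
    (hg : ∀ g ∈ L, ∀ q ∈ g.T, r q = g.r q) :
    ((rowList φ r hφ hr T L).map (fun g => g.W r)).prod = (layerOp L)ᴴ * kb T φ φ * layerOp L := by
  rw [layer_conj L hL φ r hφ hr hg T]
  unfold rowList
  rw [List.map_append, List.prod_append, List.map_map, List.map_map]
  congr 1
  have e : (T \ uni L Refl.T).toList.map ((fun g : Row Q => g.W r) ∘ siteRow φ r hφ hr) =
      (T \ uni L Refl.T).toList.map (fun q => kb {q} φ φ) :=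
    List.map_congr_left (fun q _ => siteRow_W φ r hφ hr q)
  rw [e]
  have hp : (T \ uni L Refl.T).toList.Pairwise (fun a b => Disjoint ({a} : Finset Q) {b}) := by
    refine (Finset.nodup_toList _).imp ?_
    intro a b hab
    simpa using hab
  rw [prod_kb_union (f := fun q => ({q} : Finset Q)) φ hp, uni_singletons]

theorem rowList_pairwise (φ r : Q → Bool → ℂ) (hφ : ∀ q, ip (φ q) (φ q) = 1) (hr : ∀ q, ip (r q) (r q) = 1)
    (T : Finset Q) (L : List (Refl Q)) (hL : L.Pairwise (fun g h => Disjoint g.T h.T)) :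
    (rowList φ r hφ hr T L).Pairwise (fun g g' => Disjoint g.sites g'.sites) := by
  unfold rowList
  rw [List.pairwise_append]
  refine ⟨?_, ?_, ?_⟩
  · rw [List.pairwise_map]
    refine hL.imp ?_
    intro a b hab
    rw [rowOf_sites, rowOf_sites]
    exact hab
  · rw [List.pairwise_map]
    refine (Finset.nodup_toList _).imp ?_
    intro a b hab
    show Disjoint (({a} : Finset Q) ∪ ∅) (({b} : Finset Q) ∪ ∅)
    simpa using hab
  · intro g hg g' hg'
    obtain ⟨a, ha, rfl⟩ := List.mem_map.mp hg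
    obtain ⟨b, hb, rfl⟩ := List.mem_map.mp hg'
    rw [rowOf_sites]
    show Disjoint a.T (({b} : Finset Q) ∪ ∅)
    have hb' := Finset.mem_toList.mp hb
    simp only [Finset.union_empty, Finset.disjoint_singleton_right]
    intro h
    exact (Finset.mem_sdiff.mp hb').2 (uni_subset ha h)

/-- The rows of the list have product form. -/
def Row.Good (g : Row Q) (φ r : Q → Bool → ℂ) : Prop :=
  g.N0 = kb g.S φ eK ∧ ∃ f : ℂ, (f = 0 ∨ f = 1) ∧ g.N1 = GK g.S f φ r

theorem rowList_good (φ r : Q → Bool → ℂ) (hφ : ∀ q, ip (φ q) (φ q) = 1) (hr : ∀ q, ip (r q) (r q) = 1)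
    (T : Finset Q) (L : List (Refl Q)) : ∀ g ∈ rowList φ r hφ hr T L, g.Good φ r := by
  intro g hg
  unfold rowList at hg
  rcases List.mem_append.mp hg with h | h
  · obtain ⟨a, _, rfl⟩ := List.mem_map.mp h
    exact ⟨rfl, 1, Or.inr rfl, rfl⟩
  · obtain ⟨a, _, rfl⟩ := List.mem_map.mp h
    exact ⟨rfl, 0, Or.inl rfl, rfl⟩

/-- The row with no effect. -/
noncomputable def dRow (U : Finset Q) : Row Q where
  S := ∅
  U := U
  N0 := 1
  N1 := 1
  hN0 := ⟨one_mem_spanOn _, by simp [kb_empty]⟩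
  hN1 := ⟨one_mem_spanOn _, by simp [kb_empty]⟩
  unit0 := by simp [kb_empty]
  unit1 := by simp [kb_empty]
  disj := by simp

theorem dRow_W (U : Finset Q) (r : Q → Bool → ℂ) : (dRow U).W r = 1 := by
  unfold Row.W Row.mix Row.E0 Row.E1
  show (1 : MM Q) * (1 : MM Q)ᴴ * (1 - kb U r r) + (1 : MM Q) * (1 : MM Q)ᴴ * kb U r r = 1
  simp

/-- The row system of a list of rows. -/
theorem toRowSys (Rws : List (Row Q)) (hp : Rws.Pairwise (fun g g' => Disjoint g.sites g'.sites))
    (r : Q → Bool → ℂ) (hr : ∀ q, ip (r q) (r q) = 1) :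
    ∃ R : RowSys Q (Fin Rws.length ⊕ Q), R.r = r ∧ R.Pi = (Rws.map (fun g => g.W r)).prod ∧
      ∀ a, (∃ g ∈ Rws, R.rows a = g) ∨ (R.rows a).sites.card ≤ 1 := by
  classical
  set cov := uni Rws Row.sites with hcov
  set rows : Fin Rws.length ⊕ Q → Row Q :=
    Sum.elim (fun j => Rws.get j) (fun q => dRow (if q ∈ cov then ∅ else {q})) with hrows
  set L : List (Fin Rws.length ⊕ Q) :=
    (List.finRange Rws.length).map Sum.inl ++ (Finset.univ.toList : List Q).map Sum.inr with hL
  have hsites : ∀ q, (rows (Sum.inr q)).sites = if q ∈ cov then ∅ else {q} := by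
    intro q
    show (∅ : Finset Q) ∪ _ = _
    rw [Finset.empty_union]
    rfl
  have hgetp : ∀ i j : Fin Rws.length, i ≠ j → Disjoint (Rws.get i).sites (Rws.get j).sites := by
    intro i j hij
    have h1 := List.pairwise_iff_get.mp hp
    rcases lt_or_gt_of_ne hij with h2 | h2
    · exact h1 i j h2
    · exact (h1 j i h2).symm
  have hex : ∀ q, ∃ a : Fin Rws.length ⊕ Q, q ∈ (rows a).sites := by
    intro q
    by_cases hq : q ∈ cov
    · obtain ⟨g, hg, hqg⟩ := mem_uni.mp hq
      obtain ⟨j, rfl⟩ := List.mem_iff_get.mp hg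
      exact ⟨Sum.inl j, hqg⟩
    · refine ⟨Sum.inr q, ?_⟩
      rw [hsites, if_neg hq]
      simp
  choose ro hro using hex
  have hdisj : L.Pairwise (fun a b => Disjoint (rows a).sites (rows b).sites) := by
    rw [hL, List.pairwise_append]
    refine ⟨?_, ?_, ?_⟩
    · rw [List.pairwise_map]
      refine (List.nodup_finRange _).imp ?_
      intro i j hij
      exact hgetp i j hij
    · rw [List.pairwise_map]
      refine (Finset.nodup_toList _).imp ?_
      intro a b hab
      rw [hsites, hsites]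
      by_cases h1 : a ∈ cov
      · simp [h1]
      · by_cases h2 : b ∈ cov
        · simp [h2]
        · simp [h1, h2, hab]
    · intro a ha b hb
      obtain ⟨i, _, rfl⟩ := List.mem_map.mp ha
      obtain ⟨q, _, rfl⟩ := List.mem_map.mp hb
      rw [hsites]
      by_cases h1 : q ∈ cov
      · simp [h1]
      · simp only [h1, if_false, Finset.disjoint_singleton_right]
        intro h2
        exact h1 (mem_uni.mpr ⟨Rws.get i, List.get_mem _ _, h2⟩)
  have hLnd : L.Nodup := by
    rw [hL, List.nodup_append]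
    refine ⟨(List.nodup_finRange _).map Sum.inl_injective, (Finset.nodup_toList _).map Sum.inr_injective, ?_⟩
    intro a ha b hb
    obtain ⟨i, _, rfl⟩ := List.mem_map.mp ha
    obtain ⟨q, _, rfl⟩ := List.mem_map.mp hb
    simp
  have hmemL : ∀ a, a ∈ L := by
    intro a
    rw [hL, List.mem_append]
    cases a with
    | inl i => exact Or.inl (List.mem_map.mpr ⟨i, List.mem_finRange i, rfl⟩)
    | inr q => exact Or.inr (List.mem_map.mpr ⟨q, Finset.mem_toList.mpr (Finset.mem_univ q), rfl⟩)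
  refine ⟨⟨r, hr, rows, L, hLnd, hdisj, ro, fun q => hmemL _, hro⟩, rfl, ?_, ?_⟩
  · show (L.map (fun a => (rows a).W r)).prod = _
    rw [hL, List.map_append, List.prod_append, List.map_map, List.map_map]
    have e1 : (List.finRange Rws.length).map ((fun a => (rows a).W r) ∘ Sum.inl) =
        Rws.map (fun g => g.W r) := by
      conv_rhs => rw [← List.map_get_finRange Rws, List.map_map]
      rfl
    have e2 : (Finset.univ.toList : List Q).map ((fun a => (rows a).W r) ∘ Sum.inr) =
        (Finset.univ.toList : List Q).map (fun _ => (1 : MM Q)) :=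
      List.map_congr_left (fun q _ => dRow_W _ r)
    rw [e1, e2]
    have e3 : ((Finset.univ.toList : List Q).map (fun _ => (1 : MM Q))).prod = 1 := by
      rw [List.map_const', List.prod_replicate, one_pow]
    rw [e3, Matrix.mul_one]
  · intro a
    cases a with
    | inl j => exact Or.inl ⟨Rws.get j, List.get_mem _ _, rfl⟩
    | inr q =>
      right
      show (rows (Sum.inr q)).sites.card ≤ 1
      rw [hsites]
      by_cases h1 : q ∈ cov <;> simp [h1]

/-- The sign of an assignment on a set. -/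
noncomputable def chiS (S : Finset Q) (y : Q → Bool) : ℝ := ∏ q ∈ S, if y q then (1 : ℝ) else -1

theorem abs_chiS (S : Finset Q) (y : Q → Bool) : |chiS S y| = 1 := by
  unfold chiS
  rw [Finset.abs_prod]
  refine Finset.prod_eq_one (fun q _ => ?_)
  split_ifs <;> simp

theorem norm_chiS (S : Finset Q) (y : Q → Bool) : ‖((chiS S y : ℝ) : ℂ)‖ = 1 := by
  rw [Complex.norm_real, Real.norm_eq_abs, abs_chiS]

variable (I : Finset Q) (u : Q → Bool → ℂ)

/-- The value of the row product for a list of rows. -/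
noncomputable def Bv (Y : MM Q) (Rws : List (Row Q)) (r : Q → Bool → ℂ) (l : List (CSpec Q)) : ℂ :=
  Av (fun y => ((chiS I y : ℝ) : ℂ) * (Y * (Rws.map (fun g => g.W r)).prod * rhoL I u l y).trace)

theorem norm_Av_le (F : (Q → Bool) → ℂ) : ‖Av F‖ ≤ Av (fun y => ‖F y‖) := norm_WS_le _ _

theorem Av_le {F G : (Q → Bool) → ℝ} (h : ∀ y, F y ≤ G y) : Av F ≤ Av G := WS_real_le _ h

/-- The trace of a row against a positive operator is largest for a single row. -/
theorem trace_prodW_le {l : List (Row Q)} (hp : l.Pairwise (fun g g' => Disjoint g.sites g'.sites))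
    {r : Q → Bool → ℂ} (hr : ∀ q, ip (r q) (r q) = 1) {ρ : MM Q} (hρ : ρ.PosSemidef) {g : Row Q} (hg : g ∈ l) :
    ((l.map (fun g => g.W r)).prod * ρ).trace.re ≤ (g.W r * ρ).trace.re := by
  induction l with
  | nil => simp at hg
  | cons a l ih =>
    rw [List.pairwise_cons] at hp
    simp only [List.map_cons, List.prod_cons]
    set Y := (l.map (fun g => g.W r)).prod with hY
    have hYm : Y ∈ SpanOn (uni l Row.sites) := prod_mem_spanOn (fun b hb =>
      spanOn_mono (uni_subset hb) (b.W_mem r))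
    have hc : a.W r * Y = Y * a.W r := commute_spanOn (disjoint_uni_right hp.1) (a.W_mem r) hYm
    rcases List.mem_cons.mp hg with rfl | hg'
    · exact trace_proj_mono (g.W_proj hr) (prodW_proj hp.2 hr) hc hρ
    · have h1 := trace_proj_mono (prodW_proj hp.2 hr) (a.W_proj hr) hc.symm hρ
      rw [← hY, ← hc] at h1
      exact h1.trans (ih hp.2 hg')

/-- The bound for a good row. -/
theorem good_row_le {g : Row Q} {φ r : Q → Bool → ℂ} (hgood : g.Good φ r) (hφ : ∀ q, ip (φ q) (φ q) = 1)
    (hr : ∀ q, ip (r q) (r q) = 1) {ρ : MM Q} (hρ : ρ.PosSemidef) :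
    (g.W r * ρ).trace.re ≤ 3 * (kb g.S φ φ * ρ).trace.re + 8 * (kb g.S r r * ρ).trace.re := by
  obtain ⟨h0, f, hf, h1⟩ := hgood
  set P := kb g.U r r with hP
  have hPm : P ∈ SpanOn g.U := kb_mem_spanOn (Finset.Subset.refl _) _ _
  have hPh : Pᴴ = P := kb_hermitian _ _
  have hPi : P * P = P := kb_idem (fun q _ => hr q)
  have hpP := projector_psd hPh hPi
  have hpP' := projector_psd (one_sub_projector hPh hPi).1 (one_sub_projector hPh hPi).2
  have c0 : g.E0 * P = P * g.E0 := commute_spanOn g.disj g.E0_mem hPm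
  have c1 : g.E1 * P = P * g.E1 := commute_spanOn g.disj g.E1_mem hPm
  have hE0p := projector_psd g.E0_proj.1 g.E0_proj.2
  have hE1p := projector_psd g.E1_proj.1 g.E1_proj.2
  -- the row is below the sum of the two projectors
  have h2 : (g.W r * ρ).trace.re ≤ (g.E0 * ρ).trace.re + (g.E1 * ρ).trace.re := by
    have h3 : (g.E0 * P).PosSemidef := psd_mul_of_commute hE0p hpP c0
    have h4 : (g.E1 * (1 - P)).PosSemidef := psd_mul_of_commute hE1p hpP' (by
      simp only [Matrix.mul_sub, Matrix.sub_mul, Matrix.mul_one, Matrix.one_mul, c1])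
    have h5 := trace_psd_mul_re h3 hρ
    have h6 := trace_psd_mul_re h4 hρ
    have e : g.W r * ρ = g.E0 * ρ + g.E1 * ρ - g.E0 * P * ρ - g.E1 * (1 - P) * ρ := by
      unfold Row.W Row.mix
      simp only [Matrix.mul_sub, Matrix.sub_mul, Matrix.add_mul, Matrix.mul_one]
      abel
    rw [e]
    simp only [Matrix.trace_sub, Matrix.trace_add, Complex.sub_re, Complex.add_re]
    linarith
  have hE0 : g.E0 = kb g.S φ φ := by
    unfold Row.E0
    rw [h0, kb_conjTranspose, kb_mul, Finset.prod_congr rfl (eK_unit _)]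
    simp
  -- the second projector
  set a := kb g.S φ eK with ha
  set c : ℂ := -((2 : ℂ) * f * prodIp g.S r φ) with hc
  set b := c • kb g.S r eK with hb
  have hN1 : g.N1 = a + b := by
    rw [h1]
    unfold GK TK
    simp [ha, hb, hc]
  have hbb : b * bᴴ = ((‖c‖ ^ 2 : ℝ) : ℂ) • kb g.S r r := by
    rw [hb, conjTranspose_smul, kb_conjTranspose, Matrix.smul_mul, Matrix.mul_smul, kb_mul,
      Finset.prod_congr rfl (eK_unit _)]
    simp only [Finset.prod_const_one, one_smul, smul_smul]
    congr 1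
    rw [Complex.star_def, Complex.mul_conj']
    push_cast
    rfl
  have hcn : ‖c‖ ≤ 2 := by
    rw [hc, norm_neg, norm_mul, norm_mul]
    have e1 : ‖(2 : ℂ)‖ = 2 := by simp
    have e2 : ‖f‖ ≤ 1 := by
      rcases hf with rfl | rfl <;> simp
    have e3 : ‖prodIp g.S r φ‖ ≤ 1 := norm_prodIp_le (fun q _ => hr q) (fun q _ => hφ q)
    rw [e1]
    have e4 := norm_nonneg f
    have e5 := norm_nonneg (prodIp g.S r φ)
    nlinarith
  have haa : a * aᴴ = kb g.S φ φ := by
    rw [ha, kb_conjTranspose, kb_mul, Finset.prod_congr rfl (eK_unit _)]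
    simp
  have hE1 : (g.E1 * ρ).trace.re ≤ 2 * (kb g.S φ φ * ρ).trace.re + 8 * (kb g.S r r * ρ).trace.re := by
    have h7 : ((a - b) * (a - b)ᴴ).PosSemidef := by
      have := posSemidef_conjTranspose_mul_self (a - b)ᴴ
      rwa [conjTranspose_conjTranspose] at this
    have h8 := trace_psd_mul_re h7 hρ
    have e : g.E1 = (2 : ℂ) • (a * aᴴ) + (2 : ℂ) • (b * bᴴ) - (a - b) * (a - b)ᴴ := by
      unfold Row.E1
      rw [hN1]
      simp only [conjTranspose_add, conjTranspose_sub, Matrix.add_mul, Matrix.mul_add, Matrix.sub_mul,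
        Matrix.mul_sub]
      module
    rw [e, haa, hbb, Matrix.sub_mul _ ((a - b) * (a - b)ᴴ) ρ, Matrix.trace_sub, Complex.sub_re]
    simp only [Matrix.add_mul, Matrix.smul_mul, Matrix.trace_add,
      Matrix.trace_smul, Complex.add_re, smul_eq_mul]
    have e2 : (((2 : ℂ) * (((‖c‖ ^ 2 : ℝ) : ℂ) * (kb g.S r r * ρ).trace))).re =
        2 * (‖c‖ ^ 2 * (kb g.S r r * ρ).trace.re) := by
      rw [← mul_assoc, show ((2 : ℂ) * ((‖c‖ ^ 2 : ℝ) : ℂ)) = ((2 * ‖c‖ ^ 2 : ℝ) : ℂ) by push_cast; ring,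
        Complex.re_ofReal_mul]
      ring
    have e3 : ((2 : ℂ) * (kb g.S φ φ * ρ).trace).re = 2 * (kb g.S φ φ * ρ).trace.re := by
      rw [show (2 : ℂ) = ((2 : ℝ) : ℂ) by norm_num, Complex.re_ofReal_mul]
    rw [e2, e3]
    have h9 : 0 ≤ (kb g.S r r * ρ).trace.re := trace_psd_mul_re (kb_psd (fun q _ => hr q)) hρ
    have h10 : ‖c‖ ^ 2 ≤ 4 := by nlinarith [norm_nonneg c]
    have h11 : ‖c‖ ^ 2 * (kb g.S r r * ρ).trace.re ≤ 4 * (kb g.S r r * ρ).trace.re :=
      mul_le_mul_of_nonneg_right h10 h9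
    linarith
  rw [hE0] at h2
  linarith

/-- Rows with many inputs in the first part: the value is small. -/
theorem r3_bound (hu : ∀ q, ip (u q) (u q) = 1) {Rws : List (Row Q)}
    (hp : Rws.Pairwise (fun g g' => Disjoint g.sites g'.sites)) {φ r : Q → Bool → ℂ}
    (hφ : ∀ q, ip (φ q) (φ q) = 1) (hr : ∀ q, ip (r q) (r q) = 1) {g : Row Q} (hg : g ∈ Rws) (hgood : g.Good φ r)
    {l : List (CSpec Q)} (hl : l.Pairwise (fun a b => Disjoint a.T b.T)) (hcov : uni l CSpec.T = Finset.univ) :
    ‖Bv I u 1 Rws r l‖ ≤ 11 * (1 / 2 : ℝ) ^ (g.S ∩ I).card := by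
  unfold Bv
  refine (norm_Av_le _).trans ?_
  have hpt : ∀ y, ‖((chiS I y : ℝ) : ℂ) * (1 * (Rws.map (fun g => g.W r)).prod * rhoL I u l y).trace‖ ≤
      3 * (kb g.S φ φ * rhoL I u l y).trace.re + 8 * (kb g.S r r * rhoL I u l y).trace.re := by
    intro y
    have hρ := rhoL_psd I u l hl y
    rw [norm_mul, norm_chiS, one_mul, Matrix.one_mul]
    have hY := projector_psd (prodW_proj hp hr).1 (prodW_proj hp hr).2
    rw [norm_trace_psd_mul hY hρ]
    exact (trace_prodW_le hp hr hρ hg).trans (good_row_le hgood hφ hr hρ)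
  refine (Av_le hpt).trans ?_
  rw [Av_add]
  have e1 : Av (fun y => 3 * (kb g.S φ φ * rhoL I u l y).trace.re) =
      3 * Av (fun y => (kb g.S φ φ * rhoL I u l y).trace.re) := WS_real_mul_left _ _ _
  have e2 : Av (fun y => 8 * (kb g.S r r * rhoL I u l y).trace.re) =
      8 * Av (fun y => (kb g.S r r * rhoL I u l y).trace.re) := WS_real_mul_left _ _ _
  rw [e1, e2]
  have h1 := mixing I u hu l hl hcov g.S (φ := φ) (fun q _ => hφ q)
  have h2 := mixing I u hu l hl hcov g.S (φ := r) (fun q _ => hr q)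
  linarith

/-- The bound on the effect of one row. -/
theorem row_diff_le (g : Row Q) {r : Q → Bool → ℂ} (hr : ∀ q, ip (r q) (r q) = 1) {Y ψ ρ : MM Q} {TY Tψ : Finset Q}
    (hY : Y ∈ SpanOn TY) (hψ : ψ ∈ SpanOn Tψ) (hdY : Disjoint TY g.sites) (hdψ : Disjoint Tψ g.sites)
    (hnY : ‖Y‖ ≤ 1) (hnψ : ‖ψ‖ ≤ 1) (hρ : ρ.PosSemidef) :
    ‖(Y * ((g.W r - g.E0) * ψ) * ρ).trace‖ ≤ 2 * (kb g.U r r * ρ).trace.re := by
  set P := kb g.U r r with hP
  have hPm : P ∈ SpanOn g.U := kb_mem_spanOn (Finset.Subset.refl _) _ _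
  have hPh : Pᴴ = P := kb_hermitian _ _
  have hPi : P * P = P := kb_idem (fun q _ => hr q)
  have hdU : ∀ T, Disjoint T g.sites → Disjoint T g.U := fun T h =>
    Finset.disjoint_of_subset_right Finset.subset_union_right h
  have c1 : P * Y = Y * P := commute_spanOn (hdU TY hdY).symm hPm hY
  have c2 : P * ψ = ψ * P := commute_spanOn (hdU Tψ hdψ).symm hPm hψ
  have hΔm : g.E1 - g.E0 ∈ SpanOn g.S := Submodule.sub_mem _ g.E1_mem g.E0_mem
  have c3 : P * (g.E1 - g.E0) = (g.E1 - g.E0) * P := commute_spanOn g.disj.symm hPm hΔm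
  have e1 : g.W r - g.E0 = (g.E1 - g.E0) * P := by
    unfold Row.W Row.mix
    simp only [Matrix.mul_sub, Matrix.sub_mul, Matrix.mul_one]
    abel
  set O := Y * (g.E1 - g.E0) * ψ with hO
  have hOn : ‖O‖ ≤ 2 := by
    have h1 : ‖g.E1 - g.E0‖ ≤ 2 := by
      refine (norm_sub_le _ _).trans ?_
      have h2 : ‖g.E1‖ ≤ 1 := projector_norm_le g.E1_proj.1 g.E1_proj.2
      have h3 : ‖g.E0‖ ≤ 1 := projector_norm_le g.E0_proj.1 g.E0_proj.2
      linarith
    calc ‖O‖ ≤ ‖Y * (g.E1 - g.E0)‖ * ‖ψ‖ := Matrix.l2_opNorm_mul _ _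
      _ ≤ (‖Y‖ * ‖g.E1 - g.E0‖) * ‖ψ‖ := by
          gcongr
          exact Matrix.l2_opNorm_mul _ _
      _ ≤ (1 * 2) * 1 := by gcongr
      _ = 2 := by norm_num
  have cO : P * O = O * P := by
    rw [hO]
    calc P * (Y * (g.E1 - g.E0) * ψ) = (P * Y) * (g.E1 - g.E0) * ψ := by simp only [Matrix.mul_assoc]
      _ = Y * (P * (g.E1 - g.E0)) * ψ := by rw [c1]; simp only [Matrix.mul_assoc]
      _ = Y * (g.E1 - g.E0) * (P * ψ) := by rw [c3]; simp only [Matrix.mul_assoc]
      _ = _ := by rw [c2]; simp only [Matrix.mul_assoc]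
  have e2 : (Y * ((g.W r - g.E0) * ψ) * ρ).trace = (O * (P * ρ * P)).trace := by
    rw [e1]
    calc (Y * ((g.E1 - g.E0) * P * ψ) * ρ).trace = (Y * ((g.E1 - g.E0) * (P * ψ)) * ρ).trace := by
          simp only [Matrix.mul_assoc]
      _ = (O * P * ρ).trace := by
          rw [c2]
          simp only [hO, Matrix.mul_assoc]
      _ = (O * (P * P) * ρ).trace := by rw [hPi]
      _ = (P * O * P * ρ).trace := by rw [← Matrix.mul_assoc, ← cO]
      _ = (P * (O * P * ρ)).trace := by simp only [Matrix.mul_assoc]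
      _ = ((O * P * ρ) * P).trace := Matrix.trace_mul_comm _ _
      _ = _ := by simp only [Matrix.mul_assoc]
  have hZ : (P * ρ * P).PosSemidef := by
    have := hρ.mul_mul_conjTranspose_same P
    rwa [hPh] at this
  rw [e2]
  refine (norm_trace_mul_le hZ).trans ?_
  have e3 : (P * ρ * P).trace = (P * ρ).trace := by
    calc (P * ρ * P).trace = (P * (P * ρ)).trace := Matrix.trace_mul_comm _ _
      _ = _ := by rw [← Matrix.mul_assoc, hPi]
  rw [e3]
  have h5 := trace_psd_mul_re (projector_psd hPh hPi) hρ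
  exact mul_le_mul_of_nonneg_right hOn h5

end RowL

end Vale.Agent.Lib.P368

/-!
Averaging a sign against a function: the discrete derivative.
-/

set_option linter.unusedSectionVars false
set_option linter.unusedSimpArgs false
set_option linter.unusedVariables false

namespace Vale.Agent.Lib.P368

open Matrix
open scoped Matrix.Norms.L2Operator ComplexConjugate ComplexOrder

section Deriv

variable {Q : Type*} [Fintype Q] [DecidableEq Q]

/-- The sign of one coordinate. -/
def sgn (i : Q) (y : Q → Bool) : ℝ := if y i then 1 else -1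

/-- The flip of one coordinate. -/
def flipY (i : Q) (y : Q → Bool) : Q → Bool := Function.update y i (!y i)

theorem flipY_flipY (i : Q) (y : Q → Bool) : flipY i (flipY i y) = y := by
  unfold flipY
  funext q
  by_cases h : q = i
  · subst h
    simp
  · simp [Function.update_of_ne h]

/-- The flip as a bijection. -/
def flipEquiv (i : Q) : (Q → Bool) ≃ (Q → Bool) where
  toFun := flipY i
  invFun := flipY i
  left_inv := flipY_flipY i
  right_inv := flipY_flipY i

theorem Av_flip {E : Type*} [AddCommMonoid E] [Module ℝ E] (i : Q) (G : (Q → Bool) → E) :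
    Av (fun y => G (flipY i y)) = Av G := by
  show WS (∅ : Finset Q) (fun y => G (flipY i y)) = WS (∅ : Finset Q) G
  unfold WS
  congr 1
  exact Equiv.sum_comp (flipEquiv i) G

theorem Av_smul_left {E : Type*} [AddCommGroup E] [Module ℝ E] (c : ℝ) (G : (Q → Bool) → E) :
    Av (fun y => c • G y) = c • Av G := by
  show WS (∅ : Finset Q) (fun y => c • G y) = c • WS (∅ : Finset Q) G
  unfold WS
  rw [← Finset.smul_sum, smul_comm]

/-- Averaging against a sign. -/
theorem Av_sgn {E : Type*} [AddCommGroup E] [Module ℝ E] (i : Q) (H : (Q → Bool) → E) :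
    Av (fun y => sgn i y • H y) =
      Av (fun y => (1 / 2 : ℝ) • (H (Function.update y i true) - H (Function.update y i false))) := by
  set G : (Q → Bool) → E := fun y => sgn i y • H y with hG
  have h1 : ∀ y, G y + G (flipY i y) = H (Function.update y i true) - H (Function.update y i false) := by
    intro y
    simp only [hG]
    unfold sgn flipY
    cases hy : y i
    · have e : Function.update y i false = y := by
        rw [← hy, Function.update_eq_self]
      simp [e, hy]
      abel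
    · have e : Function.update y i true = y := by
        rw [← hy, Function.update_eq_self]
      simp [e, hy]
      abel
  have h2 : Av G = (1 / 2 : ℝ) • (Av G + Av (fun y => G (flipY i y))) := by
    rw [Av_flip, ← two_smul ℝ, smul_smul]
    norm_num
  show Av G = _
  rw [h2, ← Av_add, ← Av_smul_left]
  congr 1
  funext y
  rw [h1]

/-- The discrete derivative of an operator valued function. -/
noncomputable def dRho (ρ : (Q → Bool) → MM Q) (i : Q) (y : Q → Bool) : MM Q :=
  (1 / 2 : ℂ) • (ρ (Function.update y i true) - ρ (Function.update y i false))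

theorem sgn_update {i i' : Q} (h : i' ≠ i) (y : Q → Bool) (b : Bool) :
    sgn i' (Function.update y i b) = sgn i' y := by
  unfold sgn
  rw [Function.update_of_ne h]

theorem dRho_update {ρ : (Q → Bool) → MM Q} {i i' : Q} (h : i' ≠ i)
    (hρ : ∀ y b, ρ (Function.update y i' b) = ρ y) (y : Q → Bool) (b : Bool) :
    dRho ρ i (Function.update y i' b) = dRho ρ i y := by
  unfold dRho
  rw [Function.update_comm h, Function.update_comm h, hρ, hρ]

/-- Averaging a product of signs against a product of operators. -/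
theorem Av_prod_sgn {ι : Type*} (ρ : ι → (Q → Bool) → MM Q) (lit : ι → Q) :
    ∀ (L : List ι), (L.map lit).Nodup →
      (∀ j ∈ L, ∀ j' ∈ L, lit j' ≠ lit j → ∀ y b, ρ j (Function.update y (lit j') b) = ρ j y) →
      ∀ (Y K : (Q → Bool) → MM Q), (∀ j ∈ L, ∀ y b, Y (Function.update y (lit j) b) = Y y) →
        (∀ j ∈ L, ∀ y b, K (Function.update y (lit j) b) = K y) →
        Av (fun y => (((L.map (fun j => sgn (lit j) y)).prod : ℝ) : ℂ) *
            (Y y * (L.map (fun j => ρ j y)).prod * K y).trace) =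
          Av (fun y => (Y y * (L.map (fun j => dRho (ρ j) (lit j) y)).prod * K y).trace) := by
  intro L
  induction L with
  | nil =>
    intro _ _ Y K _ _
    simp
  | cons j L ih =>
    intro hnd hinv Y K hY hK
    rw [List.map_cons, List.nodup_cons] at hnd
    set i := lit j with hi
    have hne : ∀ j' ∈ L, lit j' ≠ i := by
      intro j' hj' e
      exact hnd.1 (List.mem_map.mpr ⟨j', hj', e⟩)
    set H : (Q → Bool) → ℂ := fun y => (((L.map (fun j => sgn (lit j) y)).prod : ℝ) : ℂ) *
        (Y y * (ρ j y * (L.map (fun j => ρ j y)).prod) * K y).trace with hH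
    have e1 : (fun y => ((((j :: L).map (fun j => sgn (lit j) y)).prod : ℝ) : ℂ) *
        (Y y * ((j :: L).map (fun j => ρ j y)).prod * K y).trace) = fun y => sgn i y • H y := by
      funext y
      simp only [List.map_cons, List.prod_cons, hH, Complex.real_smul]
      push_cast
      ring
    rw [e1, Av_sgn]
    have hS : ∀ y b, (L.map (fun j => sgn (lit j) (Function.update y i b))).prod =
        (L.map (fun j => sgn (lit j) y)).prod := by
      intro y b
      congr 1
      exact List.map_congr_left (fun j' hj' => sgn_update (hne j' hj') y b)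
    have hP : ∀ y b, (L.map (fun j => ρ j (Function.update y i b))).prod =
        (L.map (fun j => ρ j y)).prod := by
      intro y b
      congr 1
      refine List.map_congr_left (fun j' hj' => ?_)
      exact hinv j' (by simp [hj']) j (by simp) (hne j' hj').symm y b
    have e2 : (fun y => (1 / 2 : ℝ) • (H (Function.update y i true) - H (Function.update y i false))) =
        fun y => (((L.map (fun j => sgn (lit j) y)).prod : ℝ) : ℂ) *
          ((Y y * dRho (ρ j) i y) * (L.map (fun j => ρ j y)).prod * K y).trace := by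
      funext y
      simp only [hH, hS, hP]
      have hYj := hY j (by simp)
      have hKj := hK j (by simp)
      rw [← hi] at hYj hKj
      simp only [hYj, hKj]
      unfold dRho
      simp only [Complex.real_smul]
      rw [← mul_sub, ← Matrix.trace_sub]
      have e3 : Y y * (ρ j (Function.update y i true) * (L.map (fun j => ρ j y)).prod) * K y -
          Y y * (ρ j (Function.update y i false) * (L.map (fun j => ρ j y)).prod) * K y =
          (2 : ℂ) • (Y y * ((1 / 2 : ℂ) • (ρ j (Function.update y i true) - ρ j (Function.update y i false))) *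
            (L.map (fun j => ρ j y)).prod * K y) := by
        simp only [Matrix.mul_smul, Matrix.smul_mul, smul_smul]
        norm_num
        simp only [Matrix.mul_sub, Matrix.sub_mul, Matrix.mul_assoc]
      rw [e3, Matrix.trace_smul]
      simp only [smul_eq_mul]
      push_cast
      ring
    rw [e2]
    have hIH := ih hnd.2 (fun j1 hj1 j2 hj2 h => hinv j1 (by simp [hj1]) j2 (by simp [hj2]) h)
      (fun y => Y y * dRho (ρ j) i y) K
      (by
        intro j' hj' y b
        rw [hY j' (by simp [hj']) y b]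
        congr 1
        refine dRho_update (hne j' hj') (fun y b => ?_) y b
        exact hinv j (by simp) j' (by simp [hj']) (hne j' hj') y b)
      (fun j' hj' => hK j' (by simp [hj']))
    rw [hIH]
    congr 1
    funext y
    simp only [List.map_cons, List.prod_cons, Matrix.mul_assoc, hi]

end Deriv

section ToG

variable {Q : Type*} [Fintype Q] [DecidableEq Q]
variable (I : Finset Q) (u : Q → Bool → ℂ)

/-- The general column of a specification at a literal. -/
noncomputable def CSpec.toG (c : CSpec Q) (hu : ∀ q, ip (u q) (u q) = 1) (i : Q) (y : Q → Bool) : GCol Q where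
  i := i
  A := c.T.erase i
  hi := Finset.notMem_erase i _
  u := u i
  hu := hu i
  si := c.s i
  hsi := c.hs i
  psi := vk I u y
  s := c.s
  hpsi := fun q _ => vk_unit I u hu y q
  hs := fun q _ => c.hs q
  f := c.f
  hf := c.hf

variable {I u}

theorem toG_C (c : CSpec Q) (hu : ∀ q, ip (u q) (u q) = 1) {i : Q} (hi : i ∈ c.T) (y : Q → Bool) :
    (c.toG I u hu i y).C = c.T := Finset.insert_erase hi

theorem toG_vb (c : CSpec Q) (hu : ∀ q, ip (u q) (u q) = 1) {i : Q} (hiI : i ∈ I) (y : Q → Bool) (b : Bool) :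
    (c.toG I u hu i y).vb b = vk I u (Function.update y i (!b)) := by
  funext q
  show (if q ∈ ({i} : Finset Q) then (c.toG I u hu i y).lit b else vk I u y q) = _
  by_cases hq : q = i
  · subst hq
    simp only [Finset.mem_singleton, if_true]
    show (if b then perp (u q) else u q) = _
    unfold vk pinKet
    simp only [hiI, if_true, Function.update_self]
    cases b <;> simp
  · have hq' : q ∉ ({i} : Finset Q) := by simpa using hq
    rw [if_neg hq']
    unfold vk pinKet
    rw [Function.update_of_ne hq]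

theorem toG_wv (c : CSpec Q) (hu : ∀ q, ip (u q) (u q) = 1) (i : Q) (y : Q → Bool) :
    (c.toG I u hu i y).wv = c.s := by
  funext q
  show (if q ∈ ({i} : Finset Q) then c.s i else c.s q) = _
  by_cases hq : q = i
  · subst hq
    simp
  · have hq' : q ∉ ({i} : Finset Q) := by simpa using hq
    rw [if_neg hq']

theorem toG_Ket (c : CSpec Q) (hu : ∀ q, ip (u q) (u q) = 1) {i : Q} (hi : i ∈ c.T) (hiI : i ∈ I)
    (y : Q → Bool) (b : Bool) :
    (c.toG I u hu i y).Ket b = c.A I u (Function.update y i (!b)) := by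
  unfold GCol.Ket CSpec.A
  rw [toG_C c hu hi, toG_vb c hu hiI, toG_wv]
  rfl

theorem toG_tau (c : CSpec Q) (hu : ∀ q, ip (u q) (u q) = 1) {i : Q} (hi : i ∈ c.T) (hiI : i ∈ I)
    (y : Q → Bool) :
    (c.toG I u hu i y).tau = dRho (c.rho I u) i y := by
  unfold GCol.tau dRho CSpec.rho
  rw [toG_Ket c hu hi hiI, toG_Ket c hu hi hiI]
  rfl

end ToG

end Vale.Agent.Lib.P368

/-!
The main estimate for columns with literals in distinct rows and columns.
-/

set_option linter.unusedSectionVars false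
set_option linter.unusedSimpArgs false
set_option linter.unusedVariables false

namespace Vale.Agent.Lib.P368

open Matrix
open scoped Matrix.Norms.L2Operator ComplexConjugate ComplexOrder

section Stage4

variable {Q : Type*} [Fintype Q] [DecidableEq Q]
variable {I : Finset Q} {u : Q → Bool → ℂ}

/-- Splitting a product of columns. -/
theorem rhoL_filter (p : CSpec Q → Prop) [DecidablePred p] (l : List (CSpec Q))
    (hp : l.Pairwise (fun a b => Disjoint a.T b.T)) (y : Q → Bool) :
    rhoL I u l y = rhoL I u (l.filter p) y * rhoL I u (l.filter (fun c => ¬ p c)) y := by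
  induction l with
  | nil => simp [rhoL]
  | cons c l ih =>
    rw [List.pairwise_cons] at hp
    have hcons : ∀ l' : List (CSpec Q), rhoL I u (c :: l') y = c.rho I u y * rhoL I u l' y := fun _ => rfl
    by_cases hc : p c
    · rw [List.filter_cons_of_pos (by simpa using hc), List.filter_cons_of_neg (by simpa using hc),
        hcons, hcons, ih hp.2, Matrix.mul_assoc]
    · rw [List.filter_cons_of_neg (by simpa using hc), List.filter_cons_of_pos (by simpa using hc),
        hcons, hcons, ih hp.2]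
      set A := rhoL I u (l.filter p) y with hA
      have hAm : A ∈ SpanOn (uni (l.filter p) CSpec.T) := rhoL_mem I u _ y
      have hd : Disjoint c.T (uni (l.filter p) CSpec.T) :=
        disjoint_uni_right (fun b hb => hp.1 b (List.mem_of_mem_filter hb))
      have hcm := commute_spanOn hd (c.rho_mem I u y) hAm
      calc c.rho I u y * (A * rhoL I u (l.filter (fun c => ¬ p c)) y)
          = (c.rho I u y * A) * rhoL I u (l.filter (fun c => ¬ p c)) y := by rw [Matrix.mul_assoc]
        _ = _ := by rw [hcm, Matrix.mul_assoc]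

theorem rhoL_congr {l : List (CSpec Q)} {y y' : Q → Bool} (h : ∀ c ∈ l, ∀ q ∈ c.T, y q = y' q) :
    rhoL I u l y = rhoL I u l y' := by
  unfold rhoL
  congr 1
  exact List.map_congr_left (fun c hc => c.rho_congr I u (h c hc))

theorem update_agree {T : Finset Q} {i : Q} (hi : i ∉ T) (y : Q → Bool) (b : Bool) :
    ∀ q ∈ T, Function.update y i b q = y q := by
  intro q hq
  refine Function.update_of_ne ?_ _ _
  rintro rfl
  exact hi hq

theorem chiS_update {S : Finset Q} {i : Q} (hi : i ∉ S) (y : Q → Bool) (b : Bool) :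
    chiS S (Function.update y i b) = chiS S y := by
  unfold chiS
  refine Finset.prod_congr rfl (fun q hq => ?_)
  rw [update_agree hi y b q hq]

theorem chiS_split {J I : Finset Q} (h : J ⊆ I) (y : Q → Bool) :
    chiS I y = chiS J y * chiS (I \ J) y := by
  unfold chiS
  rw [mul_comm, Finset.prod_sdiff h]

/-- The main estimate. -/
theorem stage4 [Nonempty Q] {γ : Type*} [DecidableEq γ] (hu : ∀ q, ip (u q) (u q) = 1) (R : RowSys Q γ)
    (Cols : List (CSpec Q)) (hp : Cols.Pairwise (fun a b => Disjoint a.T b.T))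
    (hcov : uni Cols CSpec.T = Finset.univ) {J : Finset Q} (hJI : J ⊆ I)
    (hJc : ∀ c ∈ Cols, ∀ q ∈ J, ∀ q' ∈ J, q ∈ c.T → q' ∈ c.T → q = q')
    (hJr : ∀ q ∈ J, ∀ q' ∈ J, R.ro q = R.ro q' → q = q') :
    ‖Av (fun y => ((chiS I y : ℝ) : ℂ) * (R.Pi * rhoL I u Cols y).trace)‖ ≤ theta0 ^ (J.card / (4 * Qn)) := by
  classical
  set hit : CSpec Q → Prop := fun c => (J ∩ c.T).Nonempty with hhit
  set X₀ := Cols.filter hit with hX₀
  set X₁ := Cols.filter (fun c => ¬ hit c) with hX₁
  have hex : ∀ c : CSpec Q, ∃ q : Q, hit c → q ∈ J ∧ q ∈ c.T := by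
    intro c
    by_cases hc : hit c
    · obtain ⟨q, hq⟩ := hc
      exact ⟨q, fun _ => Finset.mem_inter.mp hq⟩
    · exact ⟨Classical.arbitrary Q, fun h => absurd h hc⟩
  choose lit hlit using hex
  have hX₀hit : ∀ c ∈ X₀, hit c := fun c hc => by simpa using (List.mem_filter.mp hc).2
  have hX₀C : ∀ c ∈ X₀, c ∈ Cols := fun c hc => (List.mem_filter.mp hc).1
  have hX₁C : ∀ c ∈ X₁, c ∈ Cols := fun c hc => (List.mem_filter.mp hc).1
  have hX₁nh : ∀ c ∈ X₁, ¬ hit c := fun c hc => by simpa using (List.mem_filter.mp hc).2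
  have hlJ : ∀ c ∈ X₀, lit c ∈ J := fun c hc => (hlit c (hX₀hit c hc)).1
  have hlT : ∀ c ∈ X₀, lit c ∈ c.T := fun c hc => (hlit c (hX₀hit c hc)).2
  have hlI : ∀ c ∈ X₀, lit c ∈ I := fun c hc => hJI (hlJ c hc)
  have hpX₀ : X₀.Pairwise (fun a b => Disjoint a.T b.T) := hp.filter _
  have hpX₁ : X₁.Pairwise (fun a b => Disjoint a.T b.T) := hp.filter _
  have hne_of : ∀ a ∈ X₀, ∀ b ∈ X₀, Disjoint a.T b.T → lit a ≠ lit b := by
    intro a ha b hb hab e
    exact Finset.disjoint_left.mp hab (hlT a ha) (e ▸ hlT b hb)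
  have hnd : X₀.Nodup := by
    refine List.Pairwise.imp_of_mem ?_ hpX₀
    intro a b ha hb hab e
    subst e
    exact hne_of a ha a ha hab rfl
  have hlnd : (X₀.map lit).Nodup := by
    rw [List.Nodup, List.pairwise_map]
    refine List.Pairwise.imp_of_mem ?_ hpX₀
    intro a b ha hb hab
    exact hne_of a ha b hb hab
  have hlit_eq : (X₀.map lit).toFinset = J := by
    ext q
    simp only [List.mem_toFinset, List.mem_map]
    constructor
    · rintro ⟨c, hc, rfl⟩
      exact hlJ c hc
    · intro hq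
      have hq' : q ∈ uni Cols CSpec.T := by
        rw [hcov]
        exact Finset.mem_univ q
      obtain ⟨c, hc, hqc⟩ := mem_uni.mp hq'
      have hch : hit c := ⟨q, Finset.mem_inter.mpr ⟨hq, hqc⟩⟩
      have hcX : c ∈ X₀ := List.mem_filter.mpr ⟨hc, by simpa using hch⟩
      exact ⟨c, hcX, hJc c hc _ (hlJ c hcX) q hq (hlT c hcX) hqc⟩
  have hcard : X₀.length = J.card := by
    rw [← hlit_eq, List.toFinset_card_of_nodup hlnd, List.length_map]
  -- the row system condition
  have hℓnd : (X₀.map (fun c => R.ro (lit c))).Nodup := by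
    rw [List.Nodup, List.pairwise_map]
    refine List.Pairwise.imp_of_mem ?_ hpX₀
    intro a b ha hb hab e
    exact hne_of a ha b hb hab (hJr _ (hlJ a ha) _ (hlJ b hb) e)
  -- the sign
  have hsign : ∀ y, chiS J y = (X₀.map (fun c => sgn (lit c) y)).prod := by
    intro y
    have h1 := List.prod_toFinset (fun q => sgn q y) hlnd
    rw [hlit_eq] at h1
    rw [List.map_map] at h1
    exact h1
  -- the split of the state
  have hsplit : ∀ y, rhoL I u Cols y = rhoL I u X₀ y * rhoL I u X₁ y := fun y => rhoL_filter hit Cols hp y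
  -- the form of the average
  have hform : (fun y => ((chiS I y : ℝ) : ℂ) * (R.Pi * rhoL I u Cols y).trace) =
      fun y => (((X₀.map (fun c => sgn (lit c) y)).prod : ℝ) : ℂ) *
        ((((chiS (I \ J) y : ℝ) : ℂ) • R.Pi) * (X₀.map (fun c => c.rho I u y)).prod * rhoL I u X₁ y).trace := by
    funext y
    rw [chiS_split hJI y, hsign y, hsplit y]
    show _ = _ * (((chiS (I \ J) y : ℝ) : ℂ) • R.Pi * rhoL I u X₀ y * rhoL I u X₁ y).trace
    rw [Matrix.smul_mul, Matrix.smul_mul, Matrix.trace_smul, smul_eq_mul, Matrix.mul_assoc]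
    push_cast
    ring
  rw [hform]
  have hD := Av_prod_sgn (fun c : CSpec Q => c.rho I u) lit X₀ hlnd
    (by
      intro c hc c' hc' hne y b
      refine c.rho_congr I u (fun q hq => ?_)
      refine update_agree ?_ y b q hq
      intro h
      have h1 : lit c' = lit c := hJc c (hX₀C c hc) _ (hlJ c' hc') _ (hlJ c hc) h (hlT c hc)
      exact hne h1)
    (fun y => ((chiS (I \ J) y : ℝ) : ℂ) • R.Pi) (fun y => rhoL I u X₁ y)
    (by
      intro c hc y b
      rw [chiS_update]
      intro h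
      exact (Finset.mem_sdiff.mp h).2 (hlJ c hc))
    (by
      intro c hc y b
      refine rhoL_congr (fun c' hc' q hq => ?_)
      refine update_agree ?_ y b q hq
      intro h
      exact hX₁nh c' hc' ⟨lit c, Finset.mem_inter.mpr ⟨hlJ c hc, h⟩⟩)
  rw [hD]
  refine (norm_Av_le _).trans ?_
  have hbound : ∀ y, ‖((((chiS (I \ J) y : ℝ) : ℂ) • R.Pi) * (X₀.map (fun c => dRho (c.rho I u) (lit c) y)).prod *
      rhoL I u X₁ y).trace‖ ≤ theta0 ^ (J.card / (4 * Qn)) := by
    intro y
    rw [Matrix.smul_mul, Matrix.smul_mul, Matrix.trace_smul, norm_smul, norm_chiS, one_mul]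
    set col : CSpec Q → GCol Q := fun c => c.toG I u hu (lit c) y with hcol
    have hCeq : ∀ c ∈ X₀, (col c).C = c.T := fun c hc => toG_C c hu (hlT c hc) y
    have htau : X₀.map (fun c => dRho (c.rho I u) (lit c) y) = X₀.map (fun c => (col c).tau) :=
      List.map_congr_left (fun c hc => (toG_tau c hu (hlT c hc) (hlI c hc) y).symm)
    rw [htau]
    have hC : X₀.Pairwise (fun a b => Disjoint (col a).C (col b).C) := by
      refine List.Pairwise.imp_of_mem ?_ hpX₀
      intro a b ha hb hab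
      rw [hCeq a ha, hCeq b hb]
      exact hab
    have hℓ : (X₀.map (fun h => R.ro (col h).i)).Nodup := hℓnd
    obtain ⟨e, he, hcore⟩ := core R col X₀ hnd hC hℓ
    have huniC : uni X₀ (fun h => (col h).C) = uni X₀ CSpec.T := uni_congr hCeq
    have hdisj : Disjoint (uni X₁ CSpec.T) (uni X₀ CSpec.T) := by
      refine disjoint_uni_right (fun b hb => ?_)
      rw [disjoint_comm]
      refine disjoint_uni_right (fun a ha => ?_)
      have hb' := List.mem_filter.mp hb
      rcases pairwise_or_eq (R := fun a b : CSpec Q => Disjoint a.T b.T) (fun _ _ h => h.symm) hp b (hX₀C b hb)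
        a (hX₁C a ha) with e1 | e1
      · subst e1
        exact absurd (hX₀hit b hb) (hX₁nh b ha)
      · exact e1
    have h1 := hcore (rhoL I u X₁ y) (uni X₁ CSpec.T) (rhoL_mem I u _ y) (rhoL_psd I u _ hpX₁ y)
      (by rw [huniC]; exact hdisj)
    refine h1.trans ?_
    have htr : (kb (uni X₀ (fun h => (col h).C)) eK eK * rhoL I u X₁ y).trace.re = 1 := by
      rw [huniC, trace_rhoL I u hu X₁ hpX₁ y _ hdisj.symm]
      have hun : uni X₀ CSpec.T ∪ uni X₁ CSpec.T = Finset.univ := by
        rw [Finset.eq_univ_iff_forall]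
        intro q
        have hq' : q ∈ uni Cols CSpec.T := by
          rw [hcov]
          exact Finset.mem_univ q
        obtain ⟨c, hc, hqc⟩ := mem_uni.mp hq'
        rw [Finset.mem_union]
        by_cases hch : hit c
        · exact Or.inl (mem_uni.mpr ⟨c, List.mem_filter.mpr ⟨hc, by simpa using hch⟩, hqc⟩)
        · exact Or.inr (mem_uni.mpr ⟨c, List.mem_filter.mpr ⟨hc, by simpa using hch⟩, hqc⟩)
      rw [hun, trace_kb_eK_univ]
      simp
    rw [htr, mul_one]
    -- the exponent
    refine pow_le_pow_of_le_one theta0_pos.le theta0_lt.le ?_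
    rw [← hcard]
    exact Nat.div_le_of_le_mul he
  refine (Av_le hbound).trans ?_
  rw [Av_const]

end Stage4

end Vale.Agent.Lib.P368

/-!
Removing big rows and big columns one at a time.
-/

set_option linter.unusedSectionVars false
set_option linter.unusedSimpArgs false
set_option linter.unusedVariables false

namespace Vale.Agent.Lib.P368

open Matrix
open scoped Matrix.Norms.L2Operator ComplexConjugate ComplexOrder

section HybridRows

variable {Q : Type*} [Fintype Q] [DecidableEq Q]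
variable {I : Finset Q} {u : Q → Bool → ℂ}

/-- Removing the decision part of selected rows. -/
noncomputable def dropIf (big : Row Q → Prop) [DecidablePred big] (g : Row Q) : Row Q :=
  if big g then g.dropU else g

theorem Bv_cons (Y : MM Q) (g : Row Q) (Rws : List (Row Q)) (r : Q → Bool → ℂ) (l : List (CSpec Q)) :
    Bv I u Y (g :: Rws) r l = Bv I u (Y * g.W r) Rws r l := by
  unfold Bv
  simp only [List.map_cons, List.prod_cons, Matrix.mul_assoc]

theorem Av_sub {E : Type*} [AddCommGroup E] [Module ℝ E] (F G : (Q → Bool) → E) :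
    Av (fun y => F y - G y) = Av F - Av G := WS_sub _ _ _

theorem norm_mul_le_one {A B : MM Q} (hA : ‖A‖ ≤ 1) (hB : ‖B‖ ≤ 1) : ‖A * B‖ ≤ 1 := by
  calc ‖A * B‖ ≤ ‖A‖ * ‖B‖ := Matrix.l2_opNorm_mul _ _
    _ ≤ 1 * 1 := by gcongr
    _ = 1 := by norm_num

theorem hybrid_rows (big : Row Q → Prop) [DecidablePred big] {r : Q → Bool → ℂ} (hr : ∀ q, ip (r q) (r q) = 1)
    {l0 : List (CSpec Q)} (hl0 : l0.Pairwise (fun a b => Disjoint a.T b.T)) {ε : ℝ}
    (hε : ∀ g, big g → Av (fun y => (kb g.U r r * rhoL I u l0 y).trace.re) ≤ ε) :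
    ∀ (Rws : List (Row Q)), Rws.Pairwise (fun g g' => Disjoint g.sites g'.sites) →
      ∀ (Y : MM Q) (TY : Finset Q), Y ∈ SpanOn TY → ‖Y‖ ≤ 1 → Disjoint TY (uni Rws Row.sites) →
        ‖Bv I u Y Rws r l0 - Bv I u Y (Rws.map (dropIf big)) r l0‖ ≤
          ((Rws.filter big).length : ℝ) * (2 * ε) := by
  intro Rws
  induction Rws with
  | nil =>
    intro _ Y TY _ _ _
    simp
  | cons g Rws ih =>
    intro hp Y TY hY hnY hd
    rw [List.pairwise_cons] at hp
    rw [uni_cons, Finset.disjoint_union_right] at hd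
    have hgW : ‖g.W r‖ ≤ 1 := projector_norm_le (g.W_proj hr).1 (g.W_proj hr).2
    have hgE : ‖g.E0‖ ≤ 1 := projector_norm_le g.E0_proj.1 g.E0_proj.2
    by_cases hb : big g
    · have hdrop : dropIf big g = g.dropU := if_pos hb
      rw [List.map_cons, hdrop, Bv_cons, Bv_cons, g.dropU_W]
      rw [List.filter_cons_of_pos (by simpa using hb)]
      have hdg : Disjoint g.sites (uni Rws Row.sites) := disjoint_uni_right hp.1
      have hYE : Y * g.E0 ∈ SpanOn (TY ∪ g.S) :=
        mul_mem_spanOn (spanOn_mono Finset.subset_union_left hY)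
          (spanOn_mono Finset.subset_union_right g.E0_mem)
      have hdY' : Disjoint (TY ∪ g.S) (uni Rws Row.sites) := by
        rw [Finset.disjoint_union_left]
        exact ⟨hd.2, Finset.disjoint_of_subset_left Finset.subset_union_left hdg⟩
      have h1 := ih hp.2 (Y * g.E0) (TY ∪ g.S) hYE (norm_mul_le_one hnY hgE) hdY'
      set ψ := (Rws.map (fun g => g.W r)).prod with hψ
      have hψm : ψ ∈ SpanOn (uni Rws Row.sites) := prod_mem_spanOn (fun b hb =>
        spanOn_mono (uni_subset hb) (b.W_mem r))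
      have hψn : ‖ψ‖ ≤ 1 := norm_prodW_le hp.2 hr
      have h2 : ‖Bv I u (Y * g.W r) Rws r l0 - Bv I u (Y * g.E0) Rws r l0‖ ≤ 2 * ε := by
        unfold Bv
        rw [← Av_sub]
        refine (norm_Av_le _).trans ?_
        have hpt : ∀ y, ‖((chiS I y : ℝ) : ℂ) * (Y * g.W r * ψ * rhoL I u l0 y).trace -
            ((chiS I y : ℝ) : ℂ) * (Y * g.E0 * ψ * rhoL I u l0 y).trace‖ ≤
            2 * (kb g.U r r * rhoL I u l0 y).trace.re := by
          intro y
          rw [← mul_sub, norm_mul, norm_chiS, one_mul, ← Matrix.trace_sub]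
          have e : Y * g.W r * ψ * rhoL I u l0 y - Y * g.E0 * ψ * rhoL I u l0 y =
              Y * ((g.W r - g.E0) * ψ) * rhoL I u l0 y := by
            simp only [Matrix.mul_sub, Matrix.sub_mul, Matrix.mul_assoc]
          rw [e]
          exact row_diff_le g hr hY hψm hd.1 hdg.symm hnY hψn (rhoL_psd I u l0 hl0 y)
        refine (Av_le hpt).trans ?_
        have e2 : Av (fun y => 2 * (kb g.U r r * rhoL I u l0 y).trace.re) =
            2 * Av (fun y => (kb g.U r r * rhoL I u l0 y).trace.re) := WS_real_mul_left _ _ _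
        rw [e2]
        have := hε g hb
        linarith
      calc _ = ‖(Bv I u (Y * g.W r) Rws r l0 - Bv I u (Y * g.E0) Rws r l0) +
            (Bv I u (Y * g.E0) Rws r l0 - Bv I u (Y * g.E0) (Rws.map (dropIf big)) r l0)‖ := by
            congr 1
            abel
        _ ≤ 2 * ε + ((Rws.filter big).length : ℝ) * (2 * ε) := (norm_add_le _ _).trans (add_le_add h2 h1)
        _ = _ := by
            simp only [List.length_cons]
            push_cast
            ring
    · have hdrop : dropIf big g = g := if_neg hb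
      rw [List.map_cons, hdrop, Bv_cons, Bv_cons]
      rw [List.filter_cons_of_neg (by simpa using hb)]
      refine ih hp.2 (Y * g.W r) (TY ∪ g.sites) ?_ (norm_mul_le_one hnY hgW) ?_
      · exact mul_mem_spanOn (spanOn_mono Finset.subset_union_left hY)
          (spanOn_mono Finset.subset_union_right (g.W_mem r))
      · rw [Finset.disjoint_union_left]
        exact ⟨hd.2, disjoint_uni_right hp.1⟩

/-- Counting the big members of a disjoint family. -/
theorem count_big {α : Type*} (f : α → Finset Q) (J : Finset Q) (t : ℕ) :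
    ∀ (l : List α), l.Pairwise (fun a b => Disjoint (f a) (f b)) →
      (l.filter (fun a => t ≤ (f a ∩ J).card)).length * t ≤ (uni l f ∩ J).card := by
  intro l
  induction l with
  | nil => simp
  | cons a l ih =>
    intro hp
    rw [List.pairwise_cons] at hp
    have h1 := ih hp.2
    have hd : Disjoint (f a) (uni l f) := disjoint_uni_right hp.1
    have hcard : (uni (a :: l) f ∩ J).card = (f a ∩ J).card + (uni l f ∩ J).card := by
      rw [uni_cons, Finset.union_inter_distrib_right, Finset.card_union_of_disjoint]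
      exact Finset.disjoint_of_subset_left Finset.inter_subset_left
        (Finset.disjoint_of_subset_right Finset.inter_subset_left hd)
    rw [hcard]
    by_cases hb : t ≤ (f a ∩ J).card
    · rw [List.filter_cons_of_pos (by simpa using hb), List.length_cons, add_mul, one_mul]
      omega
    · rw [List.filter_cons_of_neg (by simpa using hb)]
      omega

/-- The difference of two states is small if the two kets are close. -/
theorem trace_ket_diff {T T' : Finset Q} {A B Y K : MM Q} (hA : IsKet T A) (hB : IsKet T B) (hK : K ∈ SpanOn T')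
    (hKp : K.PosSemidef) (hd : Disjoint T T') :
    ‖(Y * ((A * Aᴴ - B * Bᴴ) * K)).trace‖ ≤ ‖Y‖ * (‖A‖ + ‖B‖) * ‖A - B‖ * (kb T eK eK * K).trace.re := by
  set P := kb T eK eK with hP
  set Z := P * K with hZ
  have hPm : P ∈ SpanOn T := kb_mem_spanOn (Finset.Subset.refl _) _ _
  have hZp : Z.PosSemidef := psd_mul_of_commute (kb_psd (eK_unit T)) hKp (commute_spanOn hd hPm hK)
  set D := A - B with hD
  have hDk : IsKet T D := hA.sub hB
  have hct : ∀ X : MM Q, IsKet T X → K * Xᴴ = Xᴴ * K := fun X hX =>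
    (commute_spanOn hd (conjTranspose_mem_spanOn hX.1) hK).symm
  have e0 : A * Aᴴ - B * Bᴴ = A * Dᴴ + D * Bᴴ := by
    rw [hD, conjTranspose_sub]
    simp only [Matrix.mul_sub, Matrix.sub_mul]
    abel
  have e1 : (Y * (A * Dᴴ * K)).trace = (Dᴴ * Y * A * Z).trace := by
    calc (Y * (A * Dᴴ * K)).trace = (Y * ((A * P) * (K * Dᴴ))).trace := by
          rw [hA.2, hct D hDk]
          simp only [Matrix.mul_assoc]
      _ = (Y * A * Z * Dᴴ).trace := by
          simp only [hZ, Matrix.mul_assoc]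
      _ = (Dᴴ * (Y * A * Z)).trace := Matrix.trace_mul_comm _ _
      _ = _ := by simp only [Matrix.mul_assoc]
  have e2 : (Y * (D * Bᴴ * K)).trace = (Bᴴ * Y * D * Z).trace := by
    calc (Y * (D * Bᴴ * K)).trace = (Y * ((D * P) * (K * Bᴴ))).trace := by
          rw [hDk.2, hct B hB]
          simp only [Matrix.mul_assoc]
      _ = (Y * D * Z * Bᴴ).trace := by
          simp only [hZ, Matrix.mul_assoc]
      _ = (Bᴴ * (Y * D * Z)).trace := Matrix.trace_mul_comm _ _
      _ = _ := by simp only [Matrix.mul_assoc]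
  have h0 : 0 ≤ Z.trace.re := by
    have := (Complex.le_def.mp hZp.trace_nonneg).1
    simpa using this
  have hb1 : ‖Dᴴ * Y * A‖ ≤ ‖D‖ * ‖Y‖ * ‖A‖ := by
    calc ‖Dᴴ * Y * A‖ ≤ ‖Dᴴ * Y‖ * ‖A‖ := Matrix.l2_opNorm_mul _ _
      _ ≤ (‖Dᴴ‖ * ‖Y‖) * ‖A‖ := by
          gcongr
          exact Matrix.l2_opNorm_mul _ _
      _ = _ := by rw [Matrix.l2_opNorm_conjTranspose]
  have hb2 : ‖Bᴴ * Y * D‖ ≤ ‖B‖ * ‖Y‖ * ‖D‖ := by
    calc ‖Bᴴ * Y * D‖ ≤ ‖Bᴴ * Y‖ * ‖D‖ := Matrix.l2_opNorm_mul _ _
      _ ≤ (‖Bᴴ‖ * ‖Y‖) * ‖D‖ := by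
          gcongr
          exact Matrix.l2_opNorm_mul _ _
      _ = _ := by rw [Matrix.l2_opNorm_conjTranspose]
  have e3 : (Y * ((A * Aᴴ - B * Bᴴ) * K)).trace = (Y * (A * Dᴴ * K)).trace + (Y * (D * Bᴴ * K)).trace := by
    rw [e0, Matrix.add_mul, Matrix.mul_add, Matrix.trace_add]
  rw [e3, e1, e2]
  refine (norm_add_le _ _).trans ?_
  have h1 := norm_trace_mul_le (O := Dᴴ * Y * A) hZp
  have h2 := norm_trace_mul_le (O := Bᴴ * Y * D) hZp
  have h3 : ‖Dᴴ * Y * A‖ * Z.trace.re ≤ (‖D‖ * ‖Y‖ * ‖A‖) * Z.trace.re :=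
    mul_le_mul_of_nonneg_right hb1 h0
  have h4 : ‖Bᴴ * Y * D‖ * Z.trace.re ≤ (‖B‖ * ‖Y‖ * ‖D‖) * Z.trace.re :=
    mul_le_mul_of_nonneg_right hb2 h0
  calc _ ≤ (‖D‖ * ‖Y‖ * ‖A‖) * Z.trace.re + (‖B‖ * ‖Y‖ * ‖D‖) * Z.trace.re := by linarith
    _ = _ := by ring

/-- The average overlap of a ket with the input. -/
theorem Av_prodIp_le (hu : ∀ q, ip (u q) (u q) = 1) (T : Finset Q) {s : Q → Bool → ℂ}
    (hs : ∀ q, ip (s q) (s q) = 1) :
    Av (fun y => ‖prodIp T s (vk I u y)‖) ≤ (3 / 4 : ℝ) ^ (T ∩ I).card := by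
  set J := T ∩ I with hJ
  set f : Q → Bool → ℝ := fun q b => al u s q b with hf
  have hpt : ∀ y, ‖prodIp T s (vk I u y)‖ ≤ ∏ q ∈ J, f q (y q) := by
    intro y
    have hsplit : T = J ∪ (T \ I) := by
      ext q
      simp only [hJ, Finset.mem_union, Finset.mem_inter, Finset.mem_sdiff]
      tauto
    have hd : Disjoint J (T \ I) := by
      rw [Finset.disjoint_left]
      intro q h2 h3
      exact (Finset.mem_sdiff.mp h3).2 (Finset.mem_inter.mp h2).2
    conv_lhs => rw [hsplit]
    rw [prodIp_union hd, norm_mul]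
    have h1 : ‖prodIp (T \ I) s (vk I u y)‖ ≤ 1 :=
      norm_prodIp_le (fun q _ => hs q) (fun q _ => vk_unit I u hu y q)
    have h2 : ‖prodIp J s (vk I u y)‖ = ∏ q ∈ J, f q (y q) := by
      unfold prodIp
      rw [norm_prod]
      refine Finset.prod_congr rfl (fun q hq => ?_)
      have hqI : q ∈ I := (Finset.mem_inter.mp hq).2
      simp only [hf]
      unfold al
      rw [norm_ip_swap]
      unfold vk
      rw [if_pos hqI, pinKet_eq]
    rw [h2]
    have h3 : 0 ≤ ∏ q ∈ J, f q (y q) := Finset.prod_nonneg (fun q _ => al_nonneg _ _ _ _)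
    nlinarith [norm_nonneg (prodIp (T \ I) s (vk I u y))]
  refine (Av_le hpt).trans ?_
  rw [Av_eq_half_pow J, WS_prod_real, smul_eq_mul]
  have hsum : ∀ q ∈ J, f q false + f q true ≤ 3 / 2 := by
    intro q _
    have h1 := al_sum u s q (hu q) (hs q)
    simp only [hf]
    nlinarith [sq_nonneg (al u s q false - al u s q true), al_nonneg u s q false, al_nonneg u s q true]
  have h0 : ∀ q ∈ J, 0 ≤ f q false + f q true := fun q _ =>
    add_nonneg (al_nonneg _ _ _ _) (al_nonneg _ _ _ _)
  have h2 : ∏ q ∈ J, (f q false + f q true) ≤ (3 / 2 : ℝ) ^ J.card := by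
    calc _ ≤ ∏ _q ∈ J, (3 / 2 : ℝ) := Finset.prod_le_prod h0 hsum
      _ = _ := Finset.prod_const _
  calc (1 / 2 : ℝ) ^ J.card * ∏ q ∈ J, (f q false + f q true)
      ≤ (1 / 2 : ℝ) ^ J.card * (3 / 2 : ℝ) ^ J.card := by gcongr
    _ = (3 / 4 : ℝ) ^ J.card := by
        rw [← mul_pow]
        norm_num

end HybridRows

section HybridCols

variable {Q : Type*} [Fintype Q] [DecidableEq Q]
variable {I : Finset Q} {u : Q → Bool → ℂ}

/-- The specification of a single site. -/
noncomputable def singleSpec (q : Q) : CSpec Q where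
  T := {q}
  s := eK
  hs := fun _ => ip_ketZero
  f := 0
  hf := Or.inl rfl

theorem rho_singleSpec (q : Q) (y : Q → Bool) :
    (singleSpec q).rho I u y = kb {q} (vk I u y) (vk I u y) := by
  unfold CSpec.rho CSpec.A
  show GK {q} 0 (vk I u y) eK * (GK {q} 0 (vk I u y) eK)ᴴ = _
  rw [GK_zero, kb_conjTranspose, kb_mul', prodIp_self (eK_unit _), one_smul]

theorem rhoL_append (l l' : List (CSpec Q)) (y : Q → Bool) :
    rhoL I u (l ++ l') y = rhoL I u l y * rhoL I u l' y := by
  unfold rhoL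
  rw [List.map_append, List.prod_append]

theorem rhoL_singles (S : Finset Q) (y : Q → Bool) :
    rhoL I u (S.toList.map singleSpec) y = kb S (vk I u y) (vk I u y) := by
  unfold rhoL
  rw [List.map_map]
  have e : S.toList.map ((fun c : CSpec Q => c.rho I u y) ∘ singleSpec) =
      S.toList.map (fun q => kb {q} (vk I u y) (vk I u y)) :=
    List.map_congr_left (fun q _ => rho_singleSpec q y)
  rw [e]
  have hp : S.toList.Pairwise (fun a b => Disjoint ({a} : Finset Q) {b}) := by
    refine (Finset.nodup_toList _).imp ?_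
    intro a b hab
    simpa using hab
  rw [prod_kb_union (f := fun q => ({q} : Finset Q)) _ hp, uni_singletons]

/-- Replace a big column by single sites. -/
noncomputable def splitSpec (big : CSpec Q → Prop) [DecidablePred big] (c : CSpec Q) : List (CSpec Q) :=
  if big c then c.T.toList.map singleSpec else [c]

theorem uni_singleSpecs (S : Finset Q) : uni (S.toList.map singleSpec) CSpec.T = S := by
  ext q
  simp only [mem_uni, List.mem_map, Finset.mem_toList]
  constructor
  · rintro ⟨_, ⟨a, ha, rfl⟩, hq⟩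
    have : q = a := by simpa [singleSpec] using hq
    exact this ▸ ha
  · intro hq
    exact ⟨singleSpec q, ⟨q, hq, rfl⟩, by simp [singleSpec]⟩

theorem singles_pairwise (S : Finset Q) :
    (S.toList.map singleSpec).Pairwise (fun a b : CSpec Q => Disjoint a.T b.T) := by
  rw [List.pairwise_map]
  refine (Finset.nodup_toList _).imp ?_
  intro a b hab
  show Disjoint ({a} : Finset Q) {b}
  simpa using hab

theorem uni_splitSpec (big : CSpec Q → Prop) [DecidablePred big] (c : CSpec Q) :
    uni (splitSpec big c) CSpec.T = c.T := by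
  unfold splitSpec
  by_cases h : big c
  · rw [if_pos h, uni_singleSpecs]
  · rw [if_neg h]
    simp [uni]

theorem splitSpec_pairwise (big : CSpec Q → Prop) [DecidablePred big] (c : CSpec Q) :
    (splitSpec big c).Pairwise (fun a b : CSpec Q => Disjoint a.T b.T) := by
  unfold splitSpec
  by_cases h : big c
  · rw [if_pos h]
    exact singles_pairwise _
  · rw [if_neg h]
    simp

theorem splitSpec_T_subset (big : CSpec Q → Prop) [DecidablePred big] (c : CSpec Q) :
    ∀ d ∈ splitSpec big c, d.T ⊆ c.T := by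
  intro d hd
  have := uni_subset (f := CSpec.T) hd
  rwa [uni_splitSpec] at this

theorem uni_flatMap_split (big : CSpec Q → Prop) [DecidablePred big] (l : List (CSpec Q)) :
    uni (l.flatMap (splitSpec big)) CSpec.T = uni l CSpec.T := by
  induction l with
  | nil => simp [uni]
  | cons c l ih =>
    rw [List.flatMap_cons, uni_append, uni_cons, uni_splitSpec, ih]

theorem flatMap_split_pairwise (big : CSpec Q → Prop) [DecidablePred big] :
    ∀ (l : List (CSpec Q)), l.Pairwise (fun a b => Disjoint a.T b.T) →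
      (l.flatMap (splitSpec big)).Pairwise (fun a b : CSpec Q => Disjoint a.T b.T) := by
  intro l hl
  rw [List.pairwise_flatMap]
  refine ⟨fun c _ => splitSpec_pairwise big c, ?_⟩
  refine hl.imp ?_
  intro a b hab x hx z hz
  exact Finset.disjoint_of_subset_left (splitSpec_T_subset big a x hx)
    (Finset.disjoint_of_subset_right (splitSpec_T_subset big b z hz) hab)

theorem rho_big_norm (hu : ∀ q, ip (u q) (u q) = 1) (c : CSpec Q) (y : Q → Bool) :
    ‖c.A I u y - kb c.T (vk I u y) eK‖ ≤ 2 * ‖prodIp c.T c.s (vk I u y)‖ := by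
  unfold CSpec.A
  rcases c.hf with h | h
  · rw [h, GK_zero, sub_self, norm_zero]
    positivity
  · rw [h]
    exact GK_one_sub_zero (fun q _ => c.hs q)

theorem hybrid_cols (hu : ∀ q, ip (u q) (u q) = 1) (big : CSpec Q → Prop) [DecidablePred big] {Y : MM Q}
    (hY : ‖Y‖ ≤ 1) {ε : ℝ} (hε : ∀ c, big c → Av (fun y => ‖prodIp c.T c.s (vk I u y)‖) ≤ ε) :
    ∀ (l pre : List (CSpec Q)), (pre ++ l).Pairwise (fun a b => Disjoint a.T b.T) →
      uni (pre ++ l) CSpec.T = Finset.univ →
      ‖Av (fun y => ((chiS I y : ℝ) : ℂ) * (Y * (rhoL I u pre y * rhoL I u l y)).trace) -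
        Av (fun y => ((chiS I y : ℝ) : ℂ) * (Y * (rhoL I u pre y * rhoL I u (l.flatMap (splitSpec big)) y)).trace)‖ ≤
        ((l.filter big).length : ℝ) * (4 * ε) := by
  intro l
  induction l with
  | nil =>
    intro pre _ _
    simp
  | cons c l ih =>
    intro pre hp hcov
    have hcons : ∀ l' : List (CSpec Q), ∀ y, rhoL I u (c :: l') y = c.rho I u y * rhoL I u l' y := fun _ _ => rfl
    by_cases hb : big c
    · rw [List.filter_cons_of_pos (by simpa using hb), List.flatMap_cons]
      have hsp : splitSpec big c = c.T.toList.map singleSpec := if_pos hb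
      rw [hsp]
      -- the pieces of the list
      have hp1 := List.pairwise_append.mp hp
      have hp2 := List.pairwise_cons.mp hp1.2.1
      have hcpre : ∀ d ∈ pre, Disjoint d.T c.T := fun d hd => hp1.2.2 d hd c (by simp)
      have hcl : ∀ d ∈ l, Disjoint c.T d.T := hp2.1
      have hpre' : ((pre ++ c.T.toList.map singleSpec) ++ l).Pairwise (fun a b : CSpec Q => Disjoint a.T b.T) := by
        have hsub : ∀ d ∈ c.T.toList.map singleSpec, d.T ⊆ c.T := by
          intro d hd
          have := uni_subset (f := CSpec.T) hd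
          rwa [uni_singleSpecs] at this
        rw [List.pairwise_append, List.pairwise_append]
        refine ⟨⟨hp1.1, singles_pairwise _, ?_⟩, hp2.2, ?_⟩
        · intro a ha b hb'
          exact Finset.disjoint_of_subset_right (hsub b hb') (hcpre a ha)
        · intro a ha b hb'
          rcases List.mem_append.mp ha with h | h
          · exact hp1.2.2 a h b (by simp [hb'])
          · exact Finset.disjoint_of_subset_left (hsub a h) (hcl b hb')
      have hcov' : uni ((pre ++ c.T.toList.map singleSpec) ++ l) CSpec.T = Finset.univ := by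
        rw [← hcov]
        simp only [uni_append, uni_cons, uni_singleSpecs, Finset.union_assoc]
      have hih := ih (pre ++ c.T.toList.map singleSpec) hpre' hcov'
      -- the comparison
      have hpreL : (pre ++ l).Pairwise (fun a b : CSpec Q => Disjoint a.T b.T) := by
        rw [List.pairwise_append]
        exact ⟨hp1.1, hp2.2, fun a ha b hb' => hp1.2.2 a ha b (by simp [hb'])⟩
      have hdc : Disjoint c.T (uni (pre ++ l) CSpec.T) := by
        refine disjoint_uni_right (fun d hd => ?_)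
        rcases List.mem_append.mp hd with h | h
        · exact (hcpre d h).symm
        · exact hcl d h
      have hstep : ∀ y, ‖(Y * (rhoL I u pre y * rhoL I u (c :: l) y)).trace -
          (Y * (rhoL I u (pre ++ c.T.toList.map singleSpec) y * rhoL I u l y)).trace‖ ≤
          4 * ‖prodIp c.T c.s (vk I u y)‖ := by
        intro y
        set A := c.A I u y with hA
        set B := kb c.T (vk I u y) eK with hB
        have hAk : IsKet c.T A := c.A_ket I u y
        have hBk : IsKet c.T B := Kt_ket _ _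
        have hAn : ‖A‖ = 1 := c.A_norm I u hu y
        have hBn : ‖B‖ = 1 := Kt_norm (fun q _ => vk_unit I u hu y q)
        have hBB : B * Bᴴ = kb c.T (vk I u y) (vk I u y) := by
          rw [hB, kb_conjTranspose, kb_mul', prodIp_self (eK_unit _), one_smul]
        set K := rhoL I u (pre ++ l) y with hK
        have hKe : K = rhoL I u pre y * rhoL I u l y := rhoL_append _ _ _
        have hKm : K ∈ SpanOn (uni (pre ++ l) CSpec.T) := rhoL_mem I u _ y
        have hKp : K.PosSemidef := rhoL_psd I u _ hpreL y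
        have h1 := trace_ket_diff (Y := Y) hAk hBk hKm hKp hdc
        have htr : (kb c.T eK eK * K).trace.re = 1 := by
          rw [hK, trace_rhoL I u hu _ hpreL y _ hdc]
          have hun : c.T ∪ uni (pre ++ l) CSpec.T = Finset.univ := by
            rw [← hcov]
            simp only [uni_append, uni_cons]
            ext q
            simp only [Finset.mem_union]
            tauto
          rw [hun, trace_kb_eK_univ]
          simp
        have hpreC : ∀ X : MM Q, X ∈ SpanOn c.T → rhoL I u pre y * X = X * rhoL I u pre y := by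
          intro X hX
          refine (commute_spanOn (T := c.T) (T' := uni pre CSpec.T) ?_ hX (rhoL_mem I u _ y)).symm
          exact disjoint_uni_right (fun d hd => (hcpre d hd).symm)
        have hAA : A * Aᴴ ∈ SpanOn c.T := mul_mem_spanOn hAk.1 (conjTranspose_mem_spanOn hAk.1)
        have hBBm : B * Bᴴ ∈ SpanOn c.T := mul_mem_spanOn hBk.1 (conjTranspose_mem_spanOn hBk.1)
        have e : (Y * (rhoL I u pre y * rhoL I u (c :: l) y)).trace -
            (Y * (rhoL I u (pre ++ c.T.toList.map singleSpec) y * rhoL I u l y)).trace =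
            (Y * ((A * Aᴴ - B * Bᴴ) * K)).trace := by
          rw [hcons, rhoL_append, rhoL_singles, ← Matrix.trace_sub, hKe, ← hBB]
          show (Y * (rhoL I u pre y * ((A * Aᴴ) * rhoL I u l y)) -
            Y * (rhoL I u pre y * (B * Bᴴ) * rhoL I u l y)).trace = _
          have e1 : rhoL I u pre y * ((A * Aᴴ) * rhoL I u l y) = (A * Aᴴ) * (rhoL I u pre y * rhoL I u l y) := by
            rw [← Matrix.mul_assoc, hpreC _ hAA, Matrix.mul_assoc]
          have e2 : rhoL I u pre y * (B * Bᴴ) * rhoL I u l y = (B * Bᴴ) * (rhoL I u pre y * rhoL I u l y) := by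
            rw [hpreC _ hBBm, Matrix.mul_assoc]
          rw [e1, e2, ← Matrix.mul_sub, ← Matrix.sub_mul]
        rw [e]
        refine h1.trans ?_
        rw [htr, mul_one, hAn, hBn]
        have h2 : ‖A - B‖ ≤ 2 * ‖prodIp c.T c.s (vk I u y)‖ := rho_big_norm hu c y
        have h3 : ‖Y‖ * (1 + 1) * ‖A - B‖ ≤ 1 * (1 + 1) * (2 * ‖prodIp c.T c.s (vk I u y)‖) := by
          gcongr
        linarith
      have hfirst : ‖Av (fun y => ((chiS I y : ℝ) : ℂ) * (Y * (rhoL I u pre y * rhoL I u (c :: l) y)).trace) -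
          Av (fun y => ((chiS I y : ℝ) : ℂ) *
            (Y * (rhoL I u (pre ++ c.T.toList.map singleSpec) y * rhoL I u l y)).trace)‖ ≤ 4 * ε := by
        rw [← Av_sub]
        refine (norm_Av_le _).trans ?_
        have hpt : ∀ y, ‖((chiS I y : ℝ) : ℂ) * (Y * (rhoL I u pre y * rhoL I u (c :: l) y)).trace -
            ((chiS I y : ℝ) : ℂ) * (Y * (rhoL I u (pre ++ c.T.toList.map singleSpec) y * rhoL I u l y)).trace‖ ≤
            4 * ‖prodIp c.T c.s (vk I u y)‖ := by
          intro y
          rw [← mul_sub, norm_mul, norm_chiS, one_mul]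
          exact hstep y
        refine (Av_le hpt).trans ?_
        have e2 : Av (fun y => 4 * ‖prodIp c.T c.s (vk I u y)‖) =
            4 * Av (fun y => ‖prodIp c.T c.s (vk I u y)‖) := WS_real_mul_left _ _ _
        rw [e2]
        have := hε c hb
        linarith
      have hlast : (fun y => ((chiS I y : ℝ) : ℂ) *
            (Y * (rhoL I u pre y * rhoL I u (c.T.toList.map singleSpec ++ l.flatMap (splitSpec big)) y)).trace) =
          fun y => ((chiS I y : ℝ) : ℂ) *
            (Y * (rhoL I u (pre ++ c.T.toList.map singleSpec) y * rhoL I u (l.flatMap (splitSpec big)) y)).trace := by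
        funext y
        rw [rhoL_append, rhoL_append, Matrix.mul_assoc]
      rw [hlast]
      calc _ ≤ ‖Av (fun y => ((chiS I y : ℝ) : ℂ) * (Y * (rhoL I u pre y * rhoL I u (c :: l) y)).trace) -
            Av (fun y => ((chiS I y : ℝ) : ℂ) *
              (Y * (rhoL I u (pre ++ c.T.toList.map singleSpec) y * rhoL I u l y)).trace)‖ +
            ‖Av (fun y => ((chiS I y : ℝ) : ℂ) *
              (Y * (rhoL I u (pre ++ c.T.toList.map singleSpec) y * rhoL I u l y)).trace) -
            Av (fun y => ((chiS I y : ℝ) : ℂ) *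
              (Y * (rhoL I u (pre ++ c.T.toList.map singleSpec) y * rhoL I u (l.flatMap (splitSpec big)) y)).trace)‖ :=
            norm_sub_le_norm_sub_add_norm_sub _ _ _
        _ ≤ 4 * ε + ((l.filter big).length : ℝ) * (4 * ε) := add_le_add hfirst hih
        _ = _ := by
            simp only [List.length_cons]
            push_cast
            ring
    · rw [List.filter_cons_of_neg (by simpa using hb), List.flatMap_cons]
      have hsp : splitSpec big c = [c] := if_neg hb
      rw [hsp]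
      have hl : pre ++ c :: l = (pre ++ [c]) ++ l := by simp
      rw [hl] at hp hcov
      have hih := ih (pre ++ [c]) hp hcov
      have e1 : ∀ y, rhoL I u pre y * rhoL I u (c :: l) y = rhoL I u (pre ++ [c]) y * rhoL I u l y := by
        intro y
        rw [rhoL_append, hcons]
        have : rhoL I u [c] y = c.rho I u y := by simp [rhoL]
        rw [this, Matrix.mul_assoc]
      have e2 : ∀ y, rhoL I u pre y * rhoL I u ([c] ++ l.flatMap (splitSpec big)) y =
          rhoL I u (pre ++ [c]) y * rhoL I u (l.flatMap (splitSpec big)) y := by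
        intro y
        rw [rhoL_append, rhoL_append, Matrix.mul_assoc]
      simp only [e1, e2]
      exact hih

end HybridCols

end Vale.Agent.Lib.P368

/-!
The estimate for two layers of reflections on a product of inputs with a product projector.
-/

set_option linter.unusedSectionVars false
set_option linter.unusedSimpArgs false
set_option linter.unusedVariables false

namespace Vale.Agent.Lib.P368

open Matrix
open scoped Matrix.Norms.L2Operator ComplexConjugate ComplexOrder

section Indep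

/-- A large independent set in a graph of small degree. -/
theorem exists_indep {α : Type*} [DecidableEq α] (conf : α → α → Prop) [DecidableRel conf]
    (hrefl : ∀ a, conf a a) (hsymm : ∀ a b, conf a b → conf b a) (d : ℕ) (I : Finset α)
    (hdeg : ∀ i ∈ I, (I.filter (conf i)).card ≤ d) :
    ∃ J ⊆ I, (∀ a ∈ J, ∀ b ∈ J, a ≠ b → ¬ conf a b) ∧ I.card ≤ d * J.card := by
  induction I using Finset.strongInduction with
  | H I ih =>
    by_cases hI : I.Nonempty
    · obtain ⟨i, hi⟩ := hI
      set I' := I.filter (fun q => ¬ conf i q) with hI'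
      have hsub : I' ⊂ I := by
        refine Finset.filter_ssubset.mpr ⟨i, hi, ?_⟩
        simpa using hrefl i
      have hdeg' : ∀ j ∈ I', (I'.filter (conf j)).card ≤ d := by
        intro j hj
        refine le_trans (Finset.card_le_card ?_) (hdeg j (hsub.1 hj))
        exact Finset.filter_subset_filter _ hsub.1
      obtain ⟨J', hJ', hind, hcard⟩ := ih I' hsub hdeg'
      have hiJ : i ∉ J' := by
        intro h
        have := hJ' h
        rw [hI', Finset.mem_filter] at this
        exact this.2 (hrefl i)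
      refine ⟨insert i J', ?_, ?_, ?_⟩
      · intro q hq
        rcases Finset.mem_insert.mp hq with rfl | hq
        · exact hi
        · exact hsub.1 (hJ' hq)
      · have hni : ∀ b ∈ J', ¬ conf i b := by
          intro b hb
          have := hJ' hb
          rw [hI', Finset.mem_filter] at this
          exact this.2
        intro a ha b hb hab
        rcases Finset.mem_insert.mp ha with ha' | ha'
        · rcases Finset.mem_insert.mp hb with hb' | hb'
          · exact absurd (ha'.trans hb'.symm) hab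
          · rw [ha']
            exact hni b hb'
        · rcases Finset.mem_insert.mp hb with hb' | hb'
          · rw [hb']
            exact fun h => hni a ha' (hsymm _ _ h)
          · exact hind a ha' b hb' hab
      · rw [Finset.card_insert_of_notMem hiJ]
        have h1 : (I.filter (conf i)).card + I'.card = I.card := by
          rw [hI']
          convert Finset.card_filter_add_card_filter_not (s := I) (conf i)
        have h2 := hdeg i hi
        rw [mul_add, mul_one]
        omega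
    · rw [Finset.not_nonempty_iff_eq_empty] at hI
      subst hI
      exact ⟨∅, Finset.Subset.refl _, by simp, by simp⟩

end Indep

section Gates

variable {Q : Type*} [Fintype Q] [DecidableEq Q]
variable {I : Finset Q} {u : Q → Bool → ℂ}

/-- The specification of a gate. -/
noncomputable def gateSpec (g : Refl Q) : CSpec Q where
  T := g.T
  s := merge g.T g.r eK
  hs := by
    intro q
    unfold merge
    by_cases h : q ∈ g.T
    · simp only [h, if_true]
      exact g.unit q h
    · simp only [h, if_false]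
      exact ip_ketZero
  f := 1
  hf := Or.inr rfl

theorem A_gateSpec (g : Refl Q) (y : Q → Bool) :
    (gateSpec g).A I u y = g.op * kb g.T (vk I u y) eK := by
  show GK g.T 1 (vk I u y) (merge g.T g.r eK) = _
  unfold GK TK Refl.op
  have h1 : prodIp g.T (merge g.T g.r eK) (vk I u y) = prodIp g.T g.r (vk I u y) :=
    prodIp_congr (fun q hq => by simp [merge, hq]) (fun _ _ => rfl)
  have h2 : kb g.T (merge g.T g.r eK) eK = kb g.T g.r eK :=
    kb_congr (fun q hq => by simp [merge, hq]) (fun _ _ => rfl)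
  rw [h1, h2, Matrix.sub_mul, Matrix.one_mul, Matrix.smul_mul, kb_mul']
  simp only [one_smul, mul_one, neg_smul, smul_smul, sub_eq_add_neg]

theorem rho_gateSpec (g : Refl Q) (y : Q → Bool) :
    (gateSpec g).rho I u y = g.op * kb g.T (vk I u y) (vk I u y) * g.op := by
  unfold CSpec.rho
  rw [A_gateSpec, conjTranspose_mul, g.op_conj, kb_conjTranspose]
  calc g.op * kb g.T (vk I u y) eK * (kb g.T eK (vk I u y) * g.op)
      = g.op * (kb g.T (vk I u y) eK * kb g.T eK (vk I u y)) * g.op := by simp only [Matrix.mul_assoc]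
    _ = _ := by rw [kb_mul', prodIp_self (eK_unit _), one_smul]

theorem uni_gateSpec (R : List (Refl Q)) : uni (R.map gateSpec) CSpec.T = uni R Refl.T := by
  ext q
  simp only [mem_uni, List.mem_map]
  constructor
  · rintro ⟨_, ⟨g, hg, rfl⟩, hq⟩
    exact ⟨g, hg, hq⟩
  · rintro ⟨g, hg, hq⟩
    exact ⟨gateSpec g, ⟨g, hg, rfl⟩, hq⟩

/-- The state after a layer of reflections. -/
theorem layer_state (y : Q → Bool) :
    ∀ (R : List (Refl Q)), R.Pairwise (fun g h => Disjoint g.T h.T) → ∀ S : Finset Q,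
      Disjoint S (uni R Refl.T) →
      rhoL I u (R.map gateSpec) y * kb S (vk I u y) (vk I u y) =
        layerOp R * kb (uni R Refl.T ∪ S) (vk I u y) (vk I u y) * (layerOp R)ᴴ := by
  intro R
  induction R with
  | nil =>
    intro _ S _
    simp [rhoL, uni, layerOp]
  | cons g R ih =>
    intro hp S hS
    rw [List.pairwise_cons] at hp
    rw [uni_cons, Finset.disjoint_union_right] at hS
    have hih := ih hp.2 S hS.2
    set v := vk I u y with hv
    set L := layerOp R with hL
    set X := uni R Refl.T ∪ S with hX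
    have hLm : L ∈ SpanOn (uni R Refl.T) := layerOp_mem (fun g' hg' => uni_subset hg')
    have hdR : Disjoint g.T (uni R Refl.T) := disjoint_uni_right hp.1
    have hdX : Disjoint g.T X := by
      rw [hX, Finset.disjoint_union_right]
      exact ⟨hdR, hS.1.symm⟩
    have hZm : L * kb X v v * Lᴴ ∈ SpanOn X :=
      mul_mem_spanOn (mul_mem_spanOn (spanOn_mono Finset.subset_union_left hLm)
        (kb_mem_spanOn (Finset.Subset.refl _) _ _))
        (spanOn_mono Finset.subset_union_left (conjTranspose_mem_spanOn hLm))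
    have hc1 : g.op * (L * kb X v v * Lᴴ) = (L * kb X v v * Lᴴ) * g.op := commute_spanOn hdX g.op_mem hZm
    have hc2 : L * kb g.T v v = kb g.T v v * L :=
      (commute_spanOn hdR (kb_mem_spanOn (Finset.Subset.refl _) _ _) hLm).symm
    have e1 : layerOp (g :: R) = g.op * L := by simp [layerOp, hL]
    have e2 : rhoL I u ((g :: R).map gateSpec) y * kb S v v =
        (g.op * kb g.T v v * g.op) * (rhoL I u (R.map gateSpec) y * kb S v v) := by
      show ((gateSpec g).rho I u y * rhoL I u (R.map gateSpec) y) * kb S v v = _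
      rw [rho_gateSpec, Matrix.mul_assoc]
    rw [e2, hih, e1, conjTranspose_mul, g.op_conj, uni_cons, Finset.union_assoc, ← hX, kb_union_same hdX]
    calc g.op * kb g.T v v * g.op * (L * kb X v v * Lᴴ)
        = g.op * kb g.T v v * (g.op * (L * kb X v v * Lᴴ)) := by simp only [Matrix.mul_assoc]
      _ = g.op * (kb g.T v v * L) * kb X v v * Lᴴ * g.op := by
          rw [hc1]
          simp only [Matrix.mul_assoc]
      _ = _ := by
          rw [← hc2]
          simp only [Matrix.mul_assoc]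

/-- The columns of a layer. -/
noncomputable def colsOf (R : List (Refl Q)) : List (CSpec Q) :=
  R.map gateSpec ++ (Finset.univ \ uni R Refl.T).toList.map singleSpec

theorem rhoL_colsOf (R : List (Refl Q)) (hp : R.Pairwise (fun g h => Disjoint g.T h.T)) (y : Q → Bool) :
    rhoL I u (colsOf R) y =
      layerOp R * kb Finset.univ (vk I u y) (vk I u y) * (layerOp R)ᴴ := by
  unfold colsOf
  rw [rhoL_append, rhoL_singles, layer_state y R hp _ Finset.sdiff_disjoint]
  congr 3
  ext q
  simp only [Finset.mem_union, Finset.mem_sdiff, Finset.mem_univ, true_and]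
  simp only [iff_true]
  tauto

theorem colsOf_pairwise (R : List (Refl Q)) (hp : R.Pairwise (fun g h => Disjoint g.T h.T)) :
    (colsOf R).Pairwise (fun a b : CSpec Q => Disjoint a.T b.T) := by
  unfold colsOf
  rw [List.pairwise_append]
  refine ⟨?_, singles_pairwise _, ?_⟩
  · rw [List.pairwise_map]
    exact hp
  · intro a ha b hb
    have h1 : a.T ⊆ uni R Refl.T := by
      rw [← uni_gateSpec]
      exact uni_subset ha
    have h2 : b.T ⊆ Finset.univ \ uni R Refl.T := by
      have := uni_subset (f := CSpec.T) hb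
      rwa [uni_singleSpecs] at this
    exact Finset.disjoint_of_subset_left h1 (Finset.disjoint_of_subset_right h2 Finset.disjoint_sdiff)

theorem colsOf_cover (R : List (Refl Q)) : uni (colsOf R) CSpec.T = Finset.univ := by
  unfold colsOf
  rw [uni_append, uni_gateSpec, uni_singleSpecs]
  ext q
  simp only [Finset.mem_union, Finset.mem_sdiff, Finset.mem_univ, true_and, iff_true]
  tauto

end Gates

section Abstract

variable {Q : Type*} [Fintype Q] [DecidableEq Q]
variable {I : Finset Q} {u : Q → Bool → ℂ}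

theorem half_pow_le (t : ℕ) : (1 / 2 : ℝ) ^ t ≤ (3 / 4 : ℝ) ^ t :=
  pow_le_pow_left₀ (by norm_num) (by norm_num) t

theorem Qn_pos : 1 ≤ Qn := by
  unfold Qn
  norm_num

theorem dropIf_sites_subset (big : Row Q → Prop) [DecidablePred big] (g : Row Q) :
    (dropIf big g).sites ⊆ g.sites := by
  unfold dropIf
  by_cases h : big g
  · rw [if_pos h]
    show g.S ∪ ∅ ⊆ g.S ∪ g.U
    simp
  · rw [if_neg h]

/-- The choice of the literals. -/
theorem exists_J {γ : Type*} [DecidableEq γ] (R : RowSys Q γ) (Cols : List (CSpec Q))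
    (hCp : Cols.Pairwise (fun a b : CSpec Q => Disjoint a.T b.T)) (hCc : uni Cols CSpec.T = Finset.univ) {t : ℕ}
    (hrow : ∀ a, ((R.rows a).sites ∩ I).card ≤ 2 * t) (hcol : ∀ c ∈ Cols, (c.T ∩ I).card ≤ t) :
    ∃ J ⊆ I, (∀ c ∈ Cols, ∀ q ∈ J, ∀ q' ∈ J, q ∈ c.T → q' ∈ c.T → q = q') ∧
      (∀ q ∈ J, ∀ q' ∈ J, R.ro q = R.ro q' → q = q') ∧ I.card ≤ 3 * t * J.card := by
  classical
  have hcolex : ∀ q, ∃ c ∈ Cols, q ∈ c.T := by
    intro q
    have : q ∈ uni Cols CSpec.T := by
      rw [hCc]
      exact Finset.mem_univ q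
    exact mem_uni.mp this
  choose colOf hcolOf hqcol using hcolex
  have hcol_uniq : ∀ c ∈ Cols, ∀ q, q ∈ c.T → colOf q = c := by
    intro c hc q hq
    rcases pairwise_or_eq (R := fun a b : CSpec Q => Disjoint a.T b.T) (fun _ _ h => h.symm) hCp
      (colOf q) (hcolOf q) c hc with e | e
    · exact e
    · exact absurd hq (Finset.disjoint_left.mp e (hqcol q))
  set conf : Q → Q → Prop := fun a b => R.ro a = R.ro b ∨ colOf a = colOf b with hconf
  have hdeg : ∀ i ∈ I, (I.filter (conf i)).card ≤ 3 * t := by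
    intro i _
    have hsub : I.filter (conf i) ⊆ ((R.rows (R.ro i)).sites ∩ I) ∪ ((colOf i).T ∩ I) := by
      intro q hq
      obtain ⟨hqI, hq2⟩ := Finset.mem_filter.mp hq
      rcases hq2 with e | e
      · refine Finset.mem_union_left _ (Finset.mem_inter.mpr ⟨?_, hqI⟩)
        rw [e]
        exact R.hsite q
      · refine Finset.mem_union_right _ (Finset.mem_inter.mpr ⟨?_, hqI⟩)
        rw [e]
        exact hqcol q
    have h1 := Finset.card_le_card hsub
    have h5 := Finset.card_union_le ((R.rows (R.ro i)).sites ∩ I) ((colOf i).T ∩ I)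
    have h6 := hrow (R.ro i)
    have h7 := hcol (colOf i) (hcolOf i)
    omega
  obtain ⟨J, hJI, hind, hJcard⟩ := exists_indep conf (fun a => Or.inl rfl)
    (fun a b h => h.elim (fun e => Or.inl e.symm) (fun e => Or.inr e.symm)) (3 * t) I hdeg
  refine ⟨J, hJI, ?_, ?_, hJcard⟩
  · intro c hc q hq q' hq' h1 h2
    by_contra hne
    exact hind q hq q' hq' hne (Or.inr ((hcol_uniq c hc q h1).trans (hcol_uniq c hc q' h2).symm))
  · intro q hq q' hq' e
    by_contra hne
    exact hind q hq q' hq' hne (Or.inl e)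

/-- The bound after all big rows and columns are removed. -/
theorem small_bound [Nonempty Q] (hu : ∀ q, ip (u q) (u q) = 1) {r : Q → Bool → ℂ} (hr : ∀ q, ip (r q) (r q) = 1)
    {Rws : List (Row Q)} (hRp : Rws.Pairwise (fun g g' => Disjoint g.sites g'.sites))
    {Cols : List (CSpec Q)} (hCp : Cols.Pairwise (fun a b : CSpec Q => Disjoint a.T b.T))
    (hCc : uni Cols CSpec.T = Finset.univ) {t : ℕ} (hrow : ∀ g ∈ Rws, (g.sites ∩ I).card ≤ 2 * t)
    (hcol : ∀ c ∈ Cols, (c.T ∩ I).card ≤ t) (ht : 1 ≤ t) :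
    ∃ e : ℕ, I.card ≤ 12 * Qn * t * (e + 1) ∧
      ‖Av (fun y => ((chiS I y : ℝ) : ℂ) * ((Rws.map (fun g => g.W r)).prod * rhoL I u Cols y).trace)‖ ≤ theta0 ^ e := by
  classical
  obtain ⟨R, hRr, hRPi, hRrows⟩ := toRowSys Rws hRp r hr
  have hrow' : ∀ a, ((R.rows a).sites ∩ I).card ≤ 2 * t := by
    intro a
    rcases hRrows a with ⟨g, hgm, hge⟩ | h1
    · rw [hge]
      exact hrow g hgm
    · have : ((R.rows a).sites ∩ I).card ≤ (R.rows a).sites.card :=
        Finset.card_le_card Finset.inter_subset_left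
      omega
  obtain ⟨J, hJI, hJc, hJr, hJcard⟩ := exists_J R Cols hCp hCc hrow' hcol
  have hmain := stage4 (I := I) hu R Cols hCp hCc hJI hJc hJr
  rw [hRPi] at hmain
  have hQ := Qn_pos
  refine ⟨J.card / (4 * Qn), ?_, hmain⟩
  have h1 : J.card < 4 * Qn * (J.card / (4 * Qn) + 1) := by
    have h2 : 0 < 4 * Qn := by omega
    exact Nat.lt_mul_div_succ _ h2
  calc I.card ≤ 3 * t * J.card := hJcard
    _ ≤ 3 * t * (4 * Qn * (J.card / (4 * Qn) + 1)) := Nat.mul_le_mul_left _ h1.le
    _ = _ := by ring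

/-- After removing the decision part, the rows are still small. -/
theorem dropIf_small {t : ℕ} {g0 : Row Q} (hS : (g0.S ∩ I).card < t) :
    ((dropIf (fun g : Row Q => t ≤ (g.U ∩ I).card) g0).sites ∩ I).card ≤ 2 * t := by
  unfold dropIf
  by_cases hb : t ≤ (g0.U ∩ I).card
  · rw [if_pos hb]
    have e : g0.dropU.sites = g0.S := by
      show g0.S ∪ ∅ = g0.S
      simp
    rw [e]
    omega
  · rw [if_neg hb]
    have e : g0.sites ∩ I = (g0.S ∩ I) ∪ (g0.U ∩ I) := Finset.union_inter_distrib_right _ _ _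
    rw [e]
    have := Finset.card_union_le (g0.S ∩ I) (g0.U ∩ I)
    omega

/-- After splitting, the columns are small. -/
theorem split_small {t : ℕ} (ht : 1 ≤ t) (Cols : List (CSpec Q)) :
    ∀ d ∈ Cols.flatMap (splitSpec (fun c : CSpec Q => t ≤ (c.T ∩ I).card)), (d.T ∩ I).card ≤ t := by
  intro d hd
  obtain ⟨c, hc, hdc⟩ := List.mem_flatMap.mp hd
  unfold splitSpec at hdc
  by_cases hb : t ≤ (c.T ∩ I).card
  · rw [if_pos hb] at hdc
    obtain ⟨q, _, hq⟩ := List.mem_map.mp hdc
    rw [← hq]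
    have : (singleSpec q).T = {q} := rfl
    rw [this]
    have h2 : (({q} : Finset Q) ∩ I).card ≤ ({q} : Finset Q).card :=
      Finset.card_le_card Finset.inter_subset_left
    simp only [Finset.card_singleton] at h2
    omega
  · rw [if_neg hb] at hdc
    have e := List.mem_singleton.mp hdc
    rw [e]
    omega

/-- The hybrid step for rows. -/
theorem rows_step (hu : ∀ q, ip (u q) (u q) = 1) {r : Q → Bool → ℂ} (hr : ∀ q, ip (r q) (r q) = 1)
    {Rws : List (Row Q)} (hRp : Rws.Pairwise (fun g g' => Disjoint g.sites g'.sites))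
    {Cols : List (CSpec Q)} (hCp : Cols.Pairwise (fun a b : CSpec Q => Disjoint a.T b.T))
    (hCc : uni Cols CSpec.T = Finset.univ) {t : ℕ} (ht : 1 ≤ t) :
    ‖Bv I u 1 Rws r Cols - Bv I u 1 (Rws.map (dropIf (fun g : Row Q => t ≤ (g.U ∩ I).card))) r Cols‖ ≤
      (I.card : ℝ) * (2 * (3 / 4 : ℝ) ^ t) := by
  have hone : ‖(1 : MM Q)‖ ≤ 1 := by
    have : Nonempty (Q → Bool) := ⟨fun _ => false⟩
    have : ‖(1 : MM Q)‖ = 1 := norm_one
    exact this.le
  have hmix : ∀ g : Row Q, t ≤ (g.U ∩ I).card →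
      Av (fun y => (kb g.U r r * rhoL I u Cols y).trace.re) ≤ (1 / 2 : ℝ) ^ t := by
    intro g hgb
    refine (mixing I u hu Cols hCp hCc g.U (φ := r) (fun q _ => hr q)).trans ?_
    exact pow_le_pow_of_le_one (by norm_num) (by norm_num) hgb
  have hh1 := hybrid_rows (I := I) (u := u) (fun g : Row Q => t ≤ (g.U ∩ I).card) hr hCp hmix Rws hRp 1 ∅
    (one_mem_spanOn _) hone (Finset.disjoint_empty_left _)
  refine hh1.trans ?_
  have hcount1 : ((Rws.filter (fun g : Row Q => t ≤ (g.U ∩ I).card)).length : ℝ) ≤ I.card := by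
    have hpU : Rws.Pairwise (fun a b : Row Q => Disjoint a.U b.U) := by
      refine hRp.imp ?_
      intro a b hab
      exact Finset.disjoint_of_subset_left Finset.subset_union_right
        (Finset.disjoint_of_subset_right Finset.subset_union_right hab)
    have h1 := count_big Row.U I t Rws hpU
    have h2 : (uni Rws Row.U ∩ I).card ≤ I.card := Finset.card_le_card Finset.inter_subset_right
    have h3 := Nat.le_mul_of_pos_right (Rws.filter (fun g : Row Q => t ≤ (g.U ∩ I).card)).length ht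
    exact_mod_cast h3.trans (h1.trans h2)
  have h4 := half_pow_le t
  have h0 : (0 : ℝ) ≤ ((Rws.filter (fun g : Row Q => t ≤ (g.U ∩ I).card)).length : ℝ) := Nat.cast_nonneg _
  have h8 : (0 : ℝ) ≤ (1 / 2 : ℝ) ^ t := by positivity
  calc _ ≤ (I.card : ℝ) * (2 * (1 / 2 : ℝ) ^ t) := by gcongr
    _ ≤ _ := by gcongr

/-- The hybrid step for columns. -/
theorem cols_step (hu : ∀ q, ip (u q) (u q) = 1) {Y : MM Q} (hYn : ‖Y‖ ≤ 1)
    {Cols : List (CSpec Q)} (hCp : Cols.Pairwise (fun a b : CSpec Q => Disjoint a.T b.T))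
    (hCc : uni Cols CSpec.T = Finset.univ) {t : ℕ} (ht : 1 ≤ t) :
    ‖Av (fun y => ((chiS I y : ℝ) : ℂ) * (Y * rhoL I u Cols y).trace) -
      Av (fun y => ((chiS I y : ℝ) : ℂ) *
        (Y * rhoL I u (Cols.flatMap (splitSpec (fun c : CSpec Q => t ≤ (c.T ∩ I).card))) y).trace)‖ ≤
      (I.card : ℝ) * (4 * (3 / 4 : ℝ) ^ t) := by
  have hprodε : ∀ c : CSpec Q, t ≤ (c.T ∩ I).card → Av (fun y => ‖prodIp c.T c.s (vk I u y)‖) ≤ (3 / 4 : ℝ) ^ t := by
    intro c hcb
    refine (Av_prodIp_le (I := I) hu c.T c.hs).trans ?_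
    exact pow_le_pow_of_le_one (by norm_num) (by norm_num) hcb
  have hh2 := hybrid_cols (I := I) hu (fun c : CSpec Q => t ≤ (c.T ∩ I).card) hYn hprodε Cols [] hCp hCc
  have hnil : ∀ y, rhoL I u [] y = 1 := fun y => by simp [rhoL]
  simp only [hnil, Matrix.one_mul] at hh2
  refine hh2.trans ?_
  have hcount2 : ((Cols.filter (fun c : CSpec Q => t ≤ (c.T ∩ I).card)).length : ℝ) ≤ I.card := by
    have h1 := count_big CSpec.T I t Cols hCp
    have h2 : (uni Cols CSpec.T ∩ I).card ≤ I.card := Finset.card_le_card Finset.inter_subset_right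
    have h3 := Nat.le_mul_of_pos_right (Cols.filter (fun c : CSpec Q => t ≤ (c.T ∩ I).card)).length ht
    exact_mod_cast h3.trans (h1.trans h2)
  gcongr

/-- The case of a list of rows with all first parts small. -/
theorem caseB [Nonempty Q] (hu : ∀ q, ip (u q) (u q) = 1) {r : Q → Bool → ℂ} (hr : ∀ q, ip (r q) (r q) = 1)
    {Rws : List (Row Q)} (hRp : Rws.Pairwise (fun g g' => Disjoint g.sites g'.sites))
    {Cols : List (CSpec Q)} (hCp : Cols.Pairwise (fun a b : CSpec Q => Disjoint a.T b.T))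
    (hCc : uni Cols CSpec.T = Finset.univ) {t : ℕ} (ht : 1 ≤ t) (hS : ∀ g ∈ Rws, (g.S ∩ I).card < t) :
    ∃ e : ℕ, I.card ≤ 12 * Qn * t * (e + 1) ∧
      ‖Bv I u 1 Rws r Cols‖ ≤ (6 * (I.card : ℝ)) * (3 / 4 : ℝ) ^ t + theta0 ^ e := by
  classical
  set Rws' := Rws.map (dropIf (fun g : Row Q => t ≤ (g.U ∩ I).card)) with hRws'
  have hRp' : Rws'.Pairwise (fun g g' => Disjoint g.sites g'.sites) := by
    rw [hRws', List.pairwise_map]
    refine hRp.imp ?_
    intro a b hab
    exact Finset.disjoint_of_subset_left (dropIf_sites_subset _ a)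
      (Finset.disjoint_of_subset_right (dropIf_sites_subset _ b) hab)
  set Y := (Rws'.map (fun g => g.W r)).prod with hY
  have hYn : ‖Y‖ ≤ 1 := norm_prodW_le hRp' hr
  have h1 := rows_step (I := I) hu hr hRp hCp hCc ht
  have h2 := cols_step (I := I) hu hYn hCp hCc ht
  set Cols' := Cols.flatMap (splitSpec (fun c : CSpec Q => t ≤ (c.T ∩ I).card)) with hCols'
  have hCp' : Cols'.Pairwise (fun a b : CSpec Q => Disjoint a.T b.T) := flatMap_split_pairwise _ Cols hCp
  have hCc' : uni Cols' CSpec.T = Finset.univ := by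
    rw [hCols', uni_flatMap_split, hCc]
  have hrow : ∀ g ∈ Rws', (g.sites ∩ I).card ≤ 2 * t := by
    intro g hg
    obtain ⟨g0, hg0, rfl⟩ := List.mem_map.mp hg
    exact dropIf_small (hS g0 hg0)
  have hcol : ∀ c ∈ Cols', (c.T ∩ I).card ≤ t := split_small ht Cols
  obtain ⟨e, he, h3⟩ := small_bound (I := I) hu hr hRp' hCp' hCc' hrow hcol ht
  refine ⟨e, he, ?_⟩
  rw [← hY] at h3
  have e1 : Bv I u 1 Rws' r Cols = Av (fun y => ((chiS I y : ℝ) : ℂ) * (Y * rhoL I u Cols y).trace) := by
    unfold Bv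
    simp only [Matrix.one_mul, hY]
  rw [← e1] at h2
  have e4 : Bv I u 1 Rws r Cols = (Bv I u 1 Rws r Cols - Bv I u 1 Rws' r Cols) +
      (Bv I u 1 Rws' r Cols - Av (fun y => ((chiS I y : ℝ) : ℂ) * (Y * rhoL I u Cols' y).trace)) +
      Av (fun y => ((chiS I y : ℝ) : ℂ) * (Y * rhoL I u Cols' y).trace) := by abel
  have h6 := norm_add₃_le (a := Bv I u 1 Rws r Cols - Bv I u 1 Rws' r Cols)
    (b := Bv I u 1 Rws' r Cols - Av (fun y => ((chiS I y : ℝ) : ℂ) * (Y * rhoL I u Cols' y).trace))
    (c := Av (fun y => ((chiS I y : ℝ) : ℂ) * (Y * rhoL I u Cols' y).trace))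
  rw [← e4] at h6
  have e5 : (6 * (I.card : ℝ)) * (3 / 4 : ℝ) ^ t =
      (I.card : ℝ) * (2 * (3 / 4 : ℝ) ^ t) + (I.card : ℝ) * (4 * (3 / 4 : ℝ) ^ t) := by ring
  rw [e5]
  linarith

/-- The estimate for two layers of reflections. -/
theorem abstract_bound [Nonempty Q] (hu : ∀ q, ip (u q) (u q) = 1) {R1 R2 : List (Refl Q)}
    (hR1 : R1.Pairwise (fun g h => Disjoint g.T h.T)) (hR2 : R2.Pairwise (fun g h => Disjoint g.T h.T))
    {T0 : Finset Q} {φ : Q → Bool → ℂ} (hφ : ∀ q, ip (φ q) (φ q) = 1) {t : ℕ} (ht : 1 ≤ t) :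
    ∃ e : ℕ, I.card ≤ 12 * Qn * t * (e + 1) ∧
      ‖Av (fun y => ((chiS I y : ℝ) : ℂ) * (((layerOp R2)ᴴ * kb T0 φ φ * layerOp R2) *
          (layerOp R1 * kb Finset.univ (vk I u y) (vk I u y) * (layerOp R1)ᴴ)).trace)‖ ≤
        (11 + 6 * (I.card : ℝ)) * (3 / 4 : ℝ) ^ t + theta0 ^ e := by
  classical
  set r := globR R2 with hrdef
  have hr : ∀ q, ip (r q) (r q) = 1 := globR_unit R2
  have hg : ∀ g ∈ R2, ∀ q ∈ g.T, r q = g.r q := globR_val hR2
  set Rws := rowList φ r hφ hr T0 R2 with hRws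
  have hRp : Rws.Pairwise (fun g g' => Disjoint g.sites g'.sites) := rowList_pairwise φ r hφ hr T0 R2 hR2
  have hgood : ∀ g ∈ Rws, g.Good φ r := rowList_good φ r hφ hr T0 R2
  have hprod := rowList_prod φ r hφ hr T0 R2 hR2 hg
  set Cols := colsOf R1 with hCols
  have hCp : Cols.Pairwise (fun a b : CSpec Q => Disjoint a.T b.T) := colsOf_pairwise R1 hR1
  have hCc : uni Cols CSpec.T = Finset.univ := colsOf_cover R1
  have hval : (fun y => ((chiS I y : ℝ) : ℂ) * (((layerOp R2)ᴴ * kb T0 φ φ * layerOp R2) *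
        (layerOp R1 * kb Finset.univ (vk I u y) (vk I u y) * (layerOp R1)ᴴ)).trace) =
      fun y => ((chiS I y : ℝ) : ℂ) * (1 * (Rws.map (fun g => g.W r)).prod * rhoL I u Cols y).trace := by
    funext y
    rw [rhoL_colsOf R1 hR1 y, hprod, Matrix.one_mul]
  rw [hval]
  have hpow0 : (0 : ℝ) ≤ (3 / 4 : ℝ) ^ t := by positivity
  have hthe : ∀ e : ℕ, (0 : ℝ) ≤ theta0 ^ e := fun e => pow_nonneg theta0_pos.le e
  have hIc : (0 : ℝ) ≤ (I.card : ℝ) := Nat.cast_nonneg _
  have hQ := Qn_pos
  by_cases hS : ∃ g ∈ Rws, t ≤ (g.S ∩ I).card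
  · -- a row with many inputs in its first part
    obtain ⟨g, hgm, hgt⟩ := hS
    refine ⟨I.card, ?_, ?_⟩
    · have h1 : 1 ≤ 12 * Qn * t := by
        have : 1 ≤ Qn * t := Nat.mul_pos hQ ht
        calc 1 ≤ Qn * t := this
          _ ≤ 12 * (Qn * t) := by omega
          _ = 12 * Qn * t := by ring
      calc I.card ≤ 1 * (I.card + 1) := by omega
        _ ≤ 12 * Qn * t * (I.card + 1) := Nat.mul_le_mul_right _ h1
    · have h1 := r3_bound I u hu hRp hφ hr hgm (hgood g hgm) hCp hCc
      have h2 : (1 / 2 : ℝ) ^ (g.S ∩ I).card ≤ (1 / 2 : ℝ) ^ t :=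
        pow_le_pow_of_le_one (by norm_num) (by norm_num) hgt
      have h3 := half_pow_le t
      show ‖Bv I u 1 Rws r Cols‖ ≤ _
      have h4 := hthe I.card
      have h5 : 0 ≤ (6 * (I.card : ℝ)) * (3 / 4 : ℝ) ^ t := by positivity
      have h6 : (11 + 6 * (I.card : ℝ)) * (3 / 4 : ℝ) ^ t = 11 * (3 / 4 : ℝ) ^ t + (6 * (I.card : ℝ)) * (3 / 4 : ℝ) ^ t := by
        ring
      rw [h6]
      linarith
  · -- all first parts are small
    push Not at hS
    obtain ⟨e, he, h1⟩ := caseB (I := I) hu hr hRp hCp hCc ht hS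
    refine ⟨e, he, ?_⟩
    show ‖Bv I u 1 Rws r Cols‖ ≤ _
    have h6 : (11 + 6 * (I.card : ℝ)) * (3 / 4 : ℝ) ^ t = 11 * (3 / 4 : ℝ) ^ t + (6 * (I.card : ℝ)) * (3 / 4 : ℝ) ^ t := by
      ring
    rw [h6]
    linarith

end Abstract

end Vale.Agent.Lib.P368

/-!
From circuits to the estimate for two layers of reflections.
-/

set_option linter.unusedSectionVars false
set_option linter.unusedSimpArgs false
set_option linter.unusedVariables false

namespace Vale.Agent.Lib.P368

open Matrix
open scoped Matrix.Norms.L2Operator ComplexConjugate ComplexOrder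

section Col

variable {Q : Type*} [Fintype Q] [DecidableEq Q]

/-- The ket of a column of a product of one-qubit matrices. -/
def colKet (W : Q → Matrix Bool Bool ℂ) (s : Q → Bool) : Q → Bool → ℂ := fun q b => W q b (s q)

theorem kb_univ_apply (a b : Q → Bool → ℂ) (s t : Q → Bool) :
    kb Finset.univ a b s t = (∏ q, a q (s q)) * star (∏ q, b q (t q)) := by
  show (∏ q, (if q ∈ (Finset.univ : Finset Q) then ketbra (a q) (b q) else 1) (s q) (t q)) = _
  simp only [Finset.mem_univ, if_true, ketbra]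
  rw [Finset.prod_mul_distrib, star_prod]

theorem diag_conj (W : Q → Matrix Bool Bool ℂ) (X : MM Q) (s : Q → Bool) :
    ((tensorMat W)ᴴ * X * tensorMat W) s s =
      (X * kb Finset.univ (colKet W s) (colKet W s)).trace := by
  set e : (Q → Bool) → ℂ := fun t => tensorMat W t s with he
  have hk : ∀ t' t, kb Finset.univ (colKet W s) (colKet W s) t' t = e t' * star (e t) := by
    intro t' t
    rw [kb_univ_apply]
    rfl
  simp only [Matrix.trace, Matrix.diag_apply, Matrix.mul_apply, hk, Matrix.conjTranspose_apply]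
  simp only [Finset.sum_mul, Finset.mul_sum]
  rw [Finset.sum_comm]
  refine Finset.sum_congr rfl (fun t _ => Finset.sum_congr rfl (fun t' _ => ?_))
  simp only [he]
  ring

theorem col_ketbra_sum {V : Matrix Bool Bool ℂ} (hV : V * Vᴴ = 1) :
    ketbra (fun b => V b false) (fun b => V b false) + ketbra (fun b => V b true) (fun b => V b true) = 1 := by
  rw [← hV]
  ext i j
  simp only [Matrix.add_apply, ketbra, Matrix.mul_apply, Matrix.conjTranspose_apply, Fintype.sum_bool]
  ring

theorem col_unit {V : Matrix Bool Bool ℂ} (hV : Vᴴ * V = 1) (c : Bool) : ip (fun b => V b c) (fun b => V b c) = 1 := by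
  have h := congrFun (congrFun hV c) c
  simp only [Matrix.mul_apply, Matrix.conjTranspose_apply, Matrix.one_apply_eq] at h
  exact h

theorem ketbra_col_true {V : Matrix Bool Bool ℂ} (hV : V * Vᴴ = 1) (hV' : Vᴴ * V = 1) :
    ketbra (fun b => V b true) (fun b => V b true) =
      ketbra (perp (fun b => V b false)) (perp (fun b => V b false)) := by
  have h1 := col_ketbra_sum hV
  have h2 := ketbra_add_perp (col_unit hV' false)
  have h3 := h1.trans h2.symm
  exact add_left_cancel h3

end Col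

section Inputs

variable {n a : ℕ}

/-- The input sites. -/
def inputs (n a : ℕ) : Finset (Fin n ⊕ Fin a) := Finset.univ.image Sum.inl

theorem mem_inputs {q : Fin n ⊕ Fin a} : q ∈ inputs n a ↔ ∃ i, q = Sum.inl i := by
  simp [inputs, eq_comm]

theorem inl_mem_inputs (i : Fin n) : (Sum.inl i : Fin n ⊕ Fin a) ∈ inputs n a := mem_inputs.mpr ⟨i, rfl⟩

theorem inr_not_mem_inputs (j : Fin a) : (Sum.inr j : Fin n ⊕ Fin a) ∉ inputs n a := by
  rw [mem_inputs]
  simp

theorem inputs_card : (inputs n a).card = n := by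
  unfold inputs
  rw [Finset.card_image_of_injective _ Sum.inl_injective]
  simp

/-- The pattern of an input. -/
def yOf (x : Fin n → Bool) : Fin n ⊕ Fin a → Bool := Sum.elim (fun i => !x i) (fun _ => true)

/-- The bitwise negation. -/
def notEquiv (n : ℕ) : (Fin n → Bool) ≃ (Fin n → Bool) where
  toFun := fun x i => !x i
  invFun := fun x i => !x i
  left_inv := fun x => by funext i; simp
  right_inv := fun x => by funext i; simp

theorem Av_inputs (G : (Fin n ⊕ Fin a → Bool) → ℂ)
    (hG : ∀ y y', (∀ i, y (Sum.inl i) = y' (Sum.inl i)) → G y = G y') :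
    Av G = ((1 : ℂ) / 2 ^ n) * ∑ x : Fin n → Bool, G (yOf x) := by
  show WS (∅ : Finset (Fin n ⊕ Fin a)) G = _
  unfold WS
  have h1 : (∅ : Finset (Fin n ⊕ Fin a))ᶜ = Finset.univ := by simp
  rw [h1, Finset.card_univ]
  have hsum : ∑ y, G y = (2 : ℂ) ^ a * ∑ x : Fin n → Bool, G (yOf x) := by
    have e1 : ∑ y, G y = ∑ p : (Fin n → Bool) × (Fin a → Bool), G (Sum.elim p.1 p.2) := by
      refine (Equiv.sum_comp (Equiv.sumArrowEquivProdArrow (Fin n) (Fin a) Bool).symm G).symm.trans ?_
      rfl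
    rw [e1, Fintype.sum_prod_type]
    have e2 : ∀ f : Fin n → Bool, ∑ g : Fin a → Bool, G (Sum.elim f g) = (2 : ℂ) ^ a * G (Sum.elim f (fun _ => true)) := by
      intro f
      have : ∀ g : Fin a → Bool, G (Sum.elim f g) = G (Sum.elim f (fun _ => true)) := fun g =>
        hG _ _ (fun i => rfl)
      simp only [this]
      rw [Finset.sum_const, Finset.card_univ]
      simp
    simp only [e2]
    rw [← Finset.mul_sum]
    congr 1
    exact (Equiv.sum_comp (notEquiv n) (fun f => G (Sum.elim f (fun _ => true)))).symm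
  rw [hsum, Complex.real_smul, ← mul_assoc]
  congr 1
  simp only [Fintype.card_sum, Fintype.card_fin]
  push_cast
  rw [pow_add]
  have h2 : (2 : ℂ) ^ a ≠ 0 := by positivity
  have h3 : (2 : ℂ) ^ n ≠ 0 := by positivity
  field_simp

theorem chi_yOf (x : Fin n → Bool) :
    chi Finset.univ x = ((chiS (inputs n a) (yOf x) : ℝ) : ℂ) := by
  unfold chi chiS inputs
  rw [Finset.prod_image (fun i _ j _ h => Sum.inl_injective h)]
  push_cast
  refine Finset.prod_congr rfl (fun i _ => ?_)
  show _ = ((if (!x i) = true then (1 : ℝ) else -1 : ℝ) : ℂ)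
  cases x i <;> simp

/-- The zero ancilla state and the diagonal entry. -/
theorem form_zero_apply (M : Matrix (Fin a → Bool) (Fin a → Bool) ℂ) :
    star zeroAncilla ⬝ᵥ (M *ᵥ zeroAncilla) = M (fun _ => false) (fun _ => false) := by
  have h : (zeroAncilla : (Fin a → Bool) → ℂ) = Pi.single (fun _ => false) 1 := by
    funext y
    simp [zeroAncilla, Pi.single_apply]
  rw [h]
  simp only [Matrix.mulVec_single_one, dotProduct, Pi.star_apply, Pi.single_apply]
  rw [Finset.sum_eq_single (fun _ => false)]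
  · simp
  · intro y _ hy
    simp [hy]
  · simp

/-- The quadratic form of the zero ancilla state. -/
noncomputable def formZ (X : MM (Fin n ⊕ Fin a)) : ℂ :=
  star zeroAncilla ⬝ᵥ (FT Finset.univ X *ᵥ zeroAncilla)

theorem formZ_eq (X : MM (Fin n ⊕ Fin a)) :
    formZ X = ((1 : ℂ) / 2 ^ n) * ∑ x : Fin n → Bool, chi Finset.univ x *
      X (join x (fun _ => false)) (join x (fun _ => false)) := by
  unfold formZ
  rw [form_zero_apply]
  unfold FT
  rw [Matrix.smul_apply, smul_eq_mul, Matrix.sum_apply]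
  rfl

theorem formZ_add (X Y : MM (Fin n ⊕ Fin a)) : formZ (X + Y) = formZ X + formZ Y := by
  unfold formZ
  rw [FT_add, Matrix.add_mulVec, dotProduct_add]

theorem formZ_sub (X Y : MM (Fin n ⊕ Fin a)) : formZ (X - Y) = formZ X - formZ Y := by
  unfold formZ
  rw [FT_sub, Matrix.sub_mulVec, dotProduct_sub]

theorem formZ_smul (c : ℂ) (X : MM (Fin n ⊕ Fin a)) : formZ (c • X) = c • formZ X := by
  unfold formZ
  rw [FT_smul, Matrix.smul_mulVec, dotProduct_smul]

/-- The state of the first layer of one-qubit unitaries on the zero ket. -/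
def u0 (W : Fin n ⊕ Fin a → Matrix Bool Bool ℂ) : Fin n ⊕ Fin a → Bool → ℂ := fun q b => W q b false

theorem vk_yOf_inl (W : Fin n ⊕ Fin a → Matrix Bool Bool ℂ) (x : Fin n → Bool) (i : Fin n) :
    vk (inputs n a) (u0 W) (yOf x) (Sum.inl i) = if x i then perp (u0 W (Sum.inl i)) else u0 W (Sum.inl i) := by
  unfold vk pinKet
  rw [if_pos (inl_mem_inputs i)]
  show (if (!x i) = true then _ else _) = _
  cases x i <;> simp

theorem vk_inr (W : Fin n ⊕ Fin a → Matrix Bool Bool ℂ) (y : Fin n ⊕ Fin a → Bool) (j : Fin a) :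
    vk (inputs n a) (u0 W) y (Sum.inr j) = u0 W (Sum.inr j) := by
  unfold vk
  rw [if_neg (inr_not_mem_inputs j)]

theorem kb_colKet {W : Fin n ⊕ Fin a → Matrix Bool Bool ℂ} (hW : ∀ q, W q * (W q)ᴴ = 1)
    (hW' : ∀ q, (W q)ᴴ * W q = 1) (x : Fin n → Bool) :
    kb Finset.univ (colKet W (join x (fun _ => false))) (colKet W (join x (fun _ => false))) =
      kb Finset.univ (vk (inputs n a) (u0 W) (yOf x)) (vk (inputs n a) (u0 W) (yOf x)) := by
  unfold kb
  refine tensorMat_congr (fun q => ?_)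
  simp only [Finset.mem_univ, if_true]
  cases q with
  | inl i =>
    rw [vk_yOf_inl]
    cases hx : x i
    · simp only [Bool.false_eq_true, if_false]
      have : colKet W (join x (fun _ => false)) (Sum.inl i) = u0 W (Sum.inl i) := by
        funext b
        show W (Sum.inl i) b (x i) = _
        rw [hx]
        rfl
      rw [this]
    · simp only [if_true]
      have : colKet W (join x (fun _ => false)) (Sum.inl i) = fun b => W (Sum.inl i) b true := by
        funext b
        show W (Sum.inl i) b (x i) = _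
        rw [hx]
      rw [this]
      exact ketbra_col_true (hW _) (hW' _)
  | inr j =>
    rw [vk_inr]
    rfl

theorem vk_dep (W : Fin n ⊕ Fin a → Matrix Bool Bool ℂ) {y y' : Fin n ⊕ Fin a → Bool}
    (h : ∀ i, y (Sum.inl i) = y' (Sum.inl i)) : vk (inputs n a) (u0 W) y = vk (inputs n a) (u0 W) y' := by
  funext q
  cases q with
  | inl i =>
    unfold vk pinKet
    rw [h i]
  | inr j => rw [vk_inr, vk_inr]

theorem chiS_dep {y y' : Fin n ⊕ Fin a → Bool} (h : ∀ i, y (Sum.inl i) = y' (Sum.inl i)) :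
    chiS (inputs n a) y = chiS (inputs n a) y' := by
  unfold chiS
  refine Finset.prod_congr rfl (fun q hq => ?_)
  obtain ⟨i, rfl⟩ := mem_inputs.mp hq
  rw [h i]

/-- The quadratic form as an average over patterns. -/
theorem form_eq_Av {W : Fin n ⊕ Fin a → Matrix Bool Bool ℂ} (hW : ∀ q, W q * (W q)ᴴ = 1)
    (hW' : ∀ q, (W q)ᴴ * W q = 1) (X : MM (Fin n ⊕ Fin a)) :
    formZ ((tensorMat W)ᴴ * X * tensorMat W) =
      Av (fun y => ((chiS (inputs n a) y : ℝ) : ℂ) *
        (X * kb Finset.univ (vk (inputs n a) (u0 W) y) (vk (inputs n a) (u0 W) y)).trace) := by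
  rw [Av_inputs _ (fun y y' h => by rw [vk_dep W h, chiS_dep h]), formZ_eq]
  congr 1
  refine Finset.sum_congr rfl (fun x _ => ?_)
  rw [diag_conj, kb_colKet hW hW', chi_yOf]

/-- The error term. -/
noncomputable def Ebd (n t : ℕ) : ℝ :=
  (11 + 6 * (n : ℝ)) * (3 / 4 : ℝ) ^ t + theta0 ^ (n / (12 * Qn * t) - 1)

theorem u0_unit {W : Fin n ⊕ Fin a → Matrix Bool Bool ℂ} (hW' : ∀ q, (W q)ᴴ * W q = 1) (q : Fin n ⊕ Fin a) :
    ip (u0 W q) (u0 W q) = 1 := col_unit (hW' q) false

theorem merge_eK_unit {T : Finset (Fin n ⊕ Fin a)} {φ : Fin n ⊕ Fin a → Bool → ℂ} (hφ : UnitOn T φ) (q : Fin n ⊕ Fin a) :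
    ip (merge T φ eK q) (merge T φ eK q) = 1 := by
  unfold merge
  by_cases h : q ∈ T
  · simp only [h, if_true]
    exact hφ q h
  · simp only [h, if_false]
    exact ip_ketZero

theorem trace_cyc {P : Type*} [Fintype P] [DecidableEq P] (A B K : Matrix P P ℂ) :
    (Aᴴ * B * A * K).trace = (B * (A * K * Aᴴ)).trace := by
  calc (Aᴴ * B * A * K).trace = (Aᴴ * (B * (A * K))).trace := by
        simp only [Matrix.mul_assoc]
    _ = ((B * (A * K)) * Aᴴ).trace := Matrix.trace_mul_comm _ _
    _ = _ := by simp only [Matrix.mul_assoc]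

/-- The bound for one product projector. -/
theorem term_bound (hn : 0 < n) {W2 W1 : Fin n ⊕ Fin a → Matrix Bool Bool ℂ}
    (h2 : ∀ q, W2 q * (W2 q)ᴴ = 1) (h2' : ∀ q, (W2 q)ᴴ * W2 q = 1)
    (h1 : ∀ q, W1 q * (W1 q)ᴴ = 1) (h1' : ∀ q, (W1 q)ᴴ * W1 q = 1)
    {L2 L1 : List (Refl (Fin n ⊕ Fin a))}
    (hL2 : L2.Pairwise (fun g h => Disjoint g.T h.T)) (hL1 : L1.Pairwise (fun g h => Disjoint g.T h.T))
    {T0 : Finset (Fin n ⊕ Fin a)} {φ : Fin n ⊕ Fin a → Bool → ℂ} (hφ : UnitOn T0 φ) {t : ℕ} (ht : 1 ≤ t) :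
    ‖formZ ((layerOp L2 * tensorMat W2 * (layerOp L1 * tensorMat W1))ᴴ * kb T0 φ φ *
        (layerOp L2 * tensorMat W2 * (layerOp L1 * tensorMat W1)))‖ ≤ Ebd n t := by
  have : Nonempty (Fin n ⊕ Fin a) := ⟨Sum.inl ⟨0, hn⟩⟩
  set T2 := tensorMat W2 with hT2
  set T1 := tensorMat W1 with hT1
  set L2' := L2.map (Refl.conj W2 h2) with hL2'
  have hL2p : L2'.Pairwise (fun g h => Disjoint g.T h.T) := by
    rw [hL2', List.pairwise_map]
    exact hL2
  set ψ := merge T0 (conjKets W2 φ) eK with hψ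
  have hψu : ∀ q, ip (ψ q) (ψ q) = 1 := merge_eK_unit (conjKets_unit h2 hφ)
  have hconj : T2ᴴ * (layerOp L2)ᴴ * kb T0 φ φ * layerOp L2 * T2 = (layerOp L2')ᴴ * kb T0 ψ ψ * layerOp L2' := by
    have e1 : layerOp L2' = T2ᴴ * layerOp L2 * T2 := (conj_layerOp h2 h2' L2).symm
    have e2 : kb T0 ψ ψ = T2ᴴ * kb T0 φ φ * T2 := by
      rw [hT2, tensor_conj_kb h2']
      exact kb_congr (fun q hq => by simp [hψ, merge, hq]) (fun q hq => by simp [hψ, merge, hq])
    have e3 : T2 * T2ᴴ = 1 := tensor_unitary' h2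
    rw [e1, e2]
    simp only [conjTranspose_mul, conjTranspose_conjTranspose]
    calc T2ᴴ * (layerOp L2)ᴴ * kb T0 φ φ * layerOp L2 * T2
        = T2ᴴ * (layerOp L2)ᴴ * 1 * kb T0 φ φ * 1 * layerOp L2 * T2 := by
          simp only [Matrix.mul_one]
      _ = T2ᴴ * (layerOp L2)ᴴ * (T2 * T2ᴴ) * kb T0 φ φ * (T2 * T2ᴴ) * layerOp L2 * T2 := by rw [e3]
      _ = _ := by simp only [Matrix.mul_assoc]
  set Pi2 := (layerOp L2')ᴴ * kb T0 ψ ψ * layerOp L2' with hPi2
  have hform : (layerOp L2 * T2 * (layerOp L1 * T1))ᴴ * kb T0 φ φ * (layerOp L2 * T2 * (layerOp L1 * T1)) =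
      T1ᴴ * ((layerOp L1)ᴴ * Pi2 * layerOp L1) * T1 := by
    rw [← hconj]
    simp only [conjTranspose_mul, Matrix.mul_assoc]
  rw [hform, hT1, form_eq_Av h1 h1']
  obtain ⟨e, he, hb⟩ := abstract_bound (I := inputs n a) (u := u0 W1) (u0_unit h1') hL1 hL2p (T0 := T0) hψu ht
  have htr : (fun y => ((chiS (inputs n a) y : ℝ) : ℂ) * ((layerOp L1)ᴴ * Pi2 * layerOp L1 *
        kb Finset.univ (vk (inputs n a) (u0 W1) y) (vk (inputs n a) (u0 W1) y)).trace) =
      fun y => ((chiS (inputs n a) y : ℝ) : ℂ) * (Pi2 * (layerOp L1 *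
        kb Finset.univ (vk (inputs n a) (u0 W1) y) (vk (inputs n a) (u0 W1) y) * (layerOp L1)ᴴ)).trace := by
    funext y
    rw [trace_cyc]
  rw [htr]
  refine hb.trans ?_
  unfold Ebd
  rw [inputs_card] at he ⊢
  have hexp : n / (12 * Qn * t) - 1 ≤ e := by
    have hpos : 0 < 12 * Qn * t := by
      have := Qn_pos
      positivity
    have h3 : n / (12 * Qn * t) ≤ e + 1 := Nat.div_le_of_le_mul he
    omega
  have h4 : theta0 ^ e ≤ theta0 ^ (n / (12 * Qn * t) - 1) :=
    pow_le_pow_of_le_one theta0_pos.le theta0_lt.le hexp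
  linarith

theorem Ebd_nonneg (n t : ℕ) : 0 ≤ Ebd n t := by
  unfold Ebd
  have h1 := pow_nonneg theta0_pos.le (n / (12 * Qn * t) - 1)
  positivity

/-- Three layers with four layers of one-qubit unitaries. -/
noncomputable def threeLayer {Q : Type*} [Fintype Q] [DecidableEq Q] (W4 W3 W2 W1 : Q → Matrix Bool Bool ℂ)
    (G3 G2 G1 : List (Toffoli Q)) : MM Q :=
  tensorMat W4 * ((layerMat G3 * tensorMat W3) * ((layerMat G2 * tensorMat W2) * (layerMat G1 * tensorMat W1)))

theorem threeLayer_isom {Q : Type*} [Fintype Q] [DecidableEq Q] {W4 W3 W2 W1 : Q → Matrix Bool Bool ℂ}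
    (h4 : ∀ q, (W4 q)ᴴ * W4 q = 1) (h3 : ∀ q, (W3 q)ᴴ * W3 q = 1) (h2 : ∀ q, (W2 q)ᴴ * W2 q = 1)
    (h1 : ∀ q, (W1 q)ᴴ * W1 q = 1) (G3 G2 G1 : List (Toffoli Q)) :
    (threeLayer W4 W3 W2 W1 G3 G2 G1)ᴴ * threeLayer W4 W3 W2 W1 G3 G2 G1 = 1 := by
  unfold threeLayer
  rw [layerMat_eq, layerMat_eq, layerMat_eq]
  exact isom_mul (tensor_unitary h4) (isom_mul (isom_mul (layerOp_unitary _) (tensor_unitary h3))
    (isom_mul (isom_mul (layerOp_unitary _) (tensor_unitary h2))
    (isom_mul (layerOp_unitary _) (tensor_unitary h1))))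

/-- The bound for the projector on one qubit. -/
theorem three_kb_bound (hn : 0 < n) {W4 W3 W2 W1 : Fin n ⊕ Fin a → Matrix Bool Bool ℂ}
    (h4 : ∀ q, W4 q * (W4 q)ᴴ = 1) (h4' : ∀ q, (W4 q)ᴴ * W4 q = 1)
    (h3 : ∀ q, W3 q * (W3 q)ᴴ = 1) (h3' : ∀ q, (W3 q)ᴴ * W3 q = 1)
    (h2 : ∀ q, W2 q * (W2 q)ᴴ = 1) (h2' : ∀ q, (W2 q)ᴴ * W2 q = 1)
    (h1 : ∀ q, W1 q * (W1 q)ᴴ = 1) (h1' : ∀ q, (W1 q)ᴴ * W1 q = 1)
    {G3 G2 G1 : List (Toffoli (Fin n ⊕ Fin a))}
    (hG3 : G3.Pairwise (fun g h => Disjoint g.support h.support))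
    (hG2 : G2.Pairwise (fun g h => Disjoint g.support h.support))
    (hG1 : G1.Pairwise (fun g h => Disjoint g.support h.support))
    (m : Fin n ⊕ Fin a) {κ : Fin n ⊕ Fin a → Bool → ℂ} (hκ : UnitOn {m} κ) {t : ℕ} (ht : 1 ≤ t) :
    ‖formZ ((threeLayer W4 W3 W2 W1 G3 G2 G1)ᴴ * kb {m} κ κ * threeLayer W4 W3 W2 W1 G3 G2 G1)‖ ≤ 3 * Ebd n t := by
  set L3 := G3.map Toffoli.toRefl with hL3
  set L2 := G2.map Toffoli.toRefl with hL2
  set L1 := G1.map Toffoli.toRefl with hL1
  have hp3 : L3.Pairwise (fun g h => Disjoint g.T h.T) := by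
    rw [hL3, List.pairwise_map]
    exact hG3
  have hp2 : L2.Pairwise (fun g h => Disjoint g.T h.T) := by
    rw [hL2, List.pairwise_map]
    exact hG2
  have hp1 : L1.Pairwise (fun g h => Disjoint g.T h.T) := by
    rw [hL1, List.pairwise_map]
    exact hG1
  set V := layerOp L2 * tensorMat W2 * (layerOp L1 * tensorMat W1) with hV
  have hU : threeLayer W4 W3 W2 W1 G3 G2 G1 = tensorMat W4 * (layerOp L3 * tensorMat W3 * V) := by
    unfold threeLayer
    rw [layerMat_eq, layerMat_eq, layerMat_eq]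
  have hZ : ∀ X : MM (Fin n ⊕ Fin a), (tensorMat W4 * (layerOp L3 * tensorMat W3 * V))ᴴ * X *
      (tensorMat W4 * (layerOp L3 * tensorMat W3 * V)) =
      Vᴴ * ((tensorMat W3)ᴴ * ((layerOp L3)ᴴ * ((tensorMat W4)ᴴ * X * tensorMat W4) * layerOp L3) *
        tensorMat W3) * V := by
    intro X
    simp only [conjTranspose_mul, Matrix.mul_assoc]
  rw [hU, hZ, tensor_conj_kb h4']
  set ν := conjKets W4 κ with hν'
  have hν : UnitOn {m} ν := conjKets_unit h4 hκ
  have hE := Ebd_nonneg n t
  have hterm : ∀ (T0 : Finset (Fin n ⊕ Fin a)) (φ : Fin n ⊕ Fin a → Bool → ℂ), UnitOn T0 φ →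
      ‖formZ (Vᴴ * kb T0 φ φ * V)‖ ≤ Ebd n t := fun T0 φ hφ =>
    term_bound hn h2 h2' h1 h1' hp2 hp1 hφ ht
  rcases layer_single_site L3 hp3 m ν with h | ⟨g, hg, hmg, h⟩
  · rw [h, tensor_conj_kb h3']
    have := hterm {m} _ (conjKets_unit h3 hν)
    linarith
  · rw [h]
    obtain ⟨φ1, φ2, hφ1, hφ2, htop⟩ := top_gate g hmg hν
    rw [htop]
    have hconj : (tensorMat W3)ᴴ * (kb {m} ν ν - kb g.T φ1 φ1 + kb g.T φ2 φ2) * tensorMat W3 =
        kb {m} (conjKets W3 ν) (conjKets W3 ν) - kb g.T (conjKets W3 φ1) (conjKets W3 φ1) +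
          kb g.T (conjKets W3 φ2) (conjKets W3 φ2) := by
      rw [← tensor_conj_kb h3', ← tensor_conj_kb h3', ← tensor_conj_kb h3']
      simp only [mul_add, mul_sub, add_mul, sub_mul]
    rw [hconj]
    have e : Vᴴ * (kb {m} (conjKets W3 ν) (conjKets W3 ν) - kb g.T (conjKets W3 φ1) (conjKets W3 φ1) +
          kb g.T (conjKets W3 φ2) (conjKets W3 φ2)) * V =
        Vᴴ * kb {m} (conjKets W3 ν) (conjKets W3 ν) * V - Vᴴ * kb g.T (conjKets W3 φ1) (conjKets W3 φ1) * V +
          Vᴴ * kb g.T (conjKets W3 φ2) (conjKets W3 φ2) * V := by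
      simp only [mul_add, mul_sub, add_mul, sub_mul]
    rw [e, formZ_add, formZ_sub]
    have b1 := hterm {m} _ (conjKets_unit h3 hν)
    have b2 := hterm g.T _ (conjKets_unit h3 hφ1)
    have b3 := hterm g.T _ (conjKets_unit h3 hφ2)
    have h10 := (norm_add_le (formZ (Vᴴ * kb {m} (conjKets W3 ν) (conjKets W3 ν) * V) -
        formZ (Vᴴ * kb g.T (conjKets W3 φ1) (conjKets W3 φ1) * V))
        (formZ (Vᴴ * kb g.T (conjKets W3 φ2) (conjKets W3 φ2) * V))).trans
      (add_le_add (norm_sub_le _ _) le_rfl)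
    linarith

theorem zeroAncilla_sum : ∑ y : Fin a → Bool, ‖(zeroAncilla : (Fin a → Bool) → ℂ) y‖ ^ 2 = 1 := by
  rw [Finset.sum_eq_single (fun _ => false)]
  · simp [zeroAncilla]
  · intro y _ hy
    simp [zeroAncilla, hy]
  · simp

/-- The correlation of a circuit in normal form. -/
theorem threeLayer_corr (hn : 0 < n) {W4 W3 W2 W1 : Fin n ⊕ Fin a → Matrix Bool Bool ℂ}
    (h4 : ∀ q, W4 q * (W4 q)ᴴ = 1) (h4' : ∀ q, (W4 q)ᴴ * W4 q = 1)
    (h3 : ∀ q, W3 q * (W3 q)ᴴ = 1) (h3' : ∀ q, (W3 q)ᴴ * W3 q = 1)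
    (h2 : ∀ q, W2 q * (W2 q)ᴴ = 1) (h2' : ∀ q, (W2 q)ᴴ * W2 q = 1)
    (h1 : ∀ q, W1 q * (W1 q)ᴴ = 1) (h1' : ∀ q, (W1 q)ᴴ * W1 q = 1)
    {G3 G2 G1 : List (Toffoli (Fin n ⊕ Fin a))}
    (hG3 : G3.Pairwise (fun g h => Disjoint g.support h.support))
    (hG2 : G2.Pairwise (fun g h => Disjoint g.support h.support))
    (hG1 : G1.Pairwise (fun g h => Disjoint g.support h.support))
    (m : Fin n ⊕ Fin a) {t : ℕ} (ht : 1 ≤ t) :
    |(1 / 2 ^ n : ℝ) * ∑ x : Fin n → Bool, ∑ s : Fin n ⊕ Fin a → Bool,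
      (if s m = par x then (1 : ℝ) else -1) *
        ‖(threeLayer W4 W3 W2 W1 G3 G2 G1 *ᵥ initState x zeroAncilla) s‖ ^ 2| ≤ 6 * Ebd n t := by
  set U := threeLayer W4 W3 W2 W1 G3 G2 G1 with hU
  have hUi : Uᴴ * U = 1 := threeLayer_isom h4' h3' h2' h1' G3 G2 G1
  rw [← Real.norm_eq_abs, ← Complex.norm_real, corr_eq]
  have e : star zeroAncilla ⬝ᵥ (FT Finset.univ (Uᴴ * zObs m * U) *ᵥ zeroAncilla) =
      (-(2 : ℂ)) • formZ (Uᴴ * kb {m} (fun _ => ketOne) (fun _ => ketOne) * U) := by
    rw [FT_zObs hn hUi m, Matrix.smul_mulVec, dotProduct_smul]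
    rfl
  rw [e, norm_smul]
  have h5 := three_kb_bound hn h4 h4' h3 h3' h2 h2' h1 h1' hG3 hG2 hG1 m
    (κ := fun _ => ketOne) (fun _ _ => ip_ketOne) ht
  rw [← hU] at h5
  have h7 : ‖(-(2 : ℂ))‖ = 2 := by simp
  rw [h7]
  linarith

theorem threeLayer_corr_one {W4 W3 W2 W1 : Fin n ⊕ Fin a → Matrix Bool Bool ℂ}
    (h4' : ∀ q, (W4 q)ᴴ * W4 q = 1) (h3' : ∀ q, (W3 q)ᴴ * W3 q = 1) (h2' : ∀ q, (W2 q)ᴴ * W2 q = 1)
    (h1' : ∀ q, (W1 q)ᴴ * W1 q = 1) (G3 G2 G1 : List (Toffoli (Fin n ⊕ Fin a))) (m : Fin n ⊕ Fin a) :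
    |(1 / 2 ^ n : ℝ) * ∑ x : Fin n → Bool, ∑ s : Fin n ⊕ Fin a → Bool,
      (if s m = par x then (1 : ℝ) else -1) *
        ‖(threeLayer W4 W3 W2 W1 G3 G2 G1 *ᵥ initState x zeroAncilla) s‖ ^ 2| ≤ 1 := by
  set U := threeLayer W4 W3 W2 W1 G3 G2 G1 with hU
  have hUi : Uᴴ * U = 1 := threeLayer_isom h4' h3' h2' h1' G3 G2 G1
  have hmain := abs_corr_le U m zeroAncilla zeroAncilla_sum
  have hUn : ‖U‖ ≤ 1 := norm_le_one_of_isometry U hUi
  have hZn : ‖zObs m‖ ≤ 1 := norm_le_one_of_isometry _ (zObs_unitary m)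
  refine hmain.trans ((norm_FT_le _ _).trans ?_)
  calc ‖Uᴴ * zObs m * U‖ ≤ ‖Uᴴ * zObs m‖ * ‖U‖ := Matrix.l2_opNorm_mul _ _
    _ ≤ (‖Uᴴ‖ * ‖zObs m‖) * ‖U‖ := by
        gcongr
        exact Matrix.l2_opNorm_mul _ _
    _ = ‖U‖ * ‖zObs m‖ * ‖U‖ := by rw [Matrix.l2_opNorm_conjTranspose]
    _ ≤ 1 * 1 * 1 := by gcongr
    _ = 1 := by norm_num

/-- The normal form of a circuit with at most three layers. -/
theorem circuit_normal_form (c : Circuit (Fin n ⊕ Fin a)) (hc : c.layers.length ≤ 3) :
    ∃ (W4 W3 W2 W1 : Fin n ⊕ Fin a → Matrix Bool Bool ℂ) (G3 G2 G1 : List (Toffoli (Fin n ⊕ Fin a))),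
      (∀ q, W4 q * (W4 q)ᴴ = 1) ∧ (∀ q, (W4 q)ᴴ * W4 q = 1) ∧
      (∀ q, W3 q * (W3 q)ᴴ = 1) ∧ (∀ q, (W3 q)ᴴ * W3 q = 1) ∧
      (∀ q, W2 q * (W2 q)ᴴ = 1) ∧ (∀ q, (W2 q)ᴴ * W2 q = 1) ∧
      (∀ q, W1 q * (W1 q)ᴴ = 1) ∧ (∀ q, (W1 q)ᴴ * W1 q = 1) ∧
      G3.Pairwise (fun g h => Disjoint g.support h.support) ∧
      G2.Pairwise (fun g h => Disjoint g.support h.support) ∧
      G1.Pairwise (fun g h => Disjoint g.support h.support) ∧
      c.mat = threeLayer W4 W3 W2 W1 G3 G2 G1 := by
  have hone : ∀ q : Fin n ⊕ Fin a, ((1 : Matrix Bool Bool ℂ))ᴴ * (1 : Matrix Bool Bool ℂ) = 1 := by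
    intro q
    simp
  have hone' : ∀ q : Fin n ⊕ Fin a, (1 : Matrix Bool Bool ℂ) * ((1 : Matrix Bool Bool ℂ))ᴴ = 1 := by
    intro q
    simp
  have hF : ∀ q, ((c.final q : Matrix Bool Bool ℂ))ᴴ * (c.final q : Matrix Bool Bool ℂ) = 1 :=
    fun q => unitary_val_left
  have hF' : ∀ q, (c.final q : Matrix Bool Bool ℂ) * ((c.final q : Matrix Bool Bool ℂ))ᴴ = 1 :=
    fun q => unitary_val_right
  obtain ⟨ls, hls⟩ : ∃ ls, c.layers = ls := ⟨_, rfl⟩
  have hd := c.disjoint
  rw [hls] at hd hc
  match ls, hls, hd, hc with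
  | [], hls, hd, hc =>
    refine ⟨fun q => (c.final q : Matrix Bool Bool ℂ), fun _ => 1, fun _ => 1, fun _ => 1, [], [], [], hF', hF,
      hone', hone, hone', hone, hone', hone, List.Pairwise.nil, List.Pairwise.nil, List.Pairwise.nil, ?_⟩
    unfold Circuit.mat threeLayer
    rw [hls, layerMat_nil, tensorMat_ones]
    simp [layersMat]
  | [l1], hls, hd, hc =>
    refine ⟨fun q => (c.final q : Matrix Bool Bool ℂ), fun q => (l1.1 q : Matrix Bool Bool ℂ), fun _ => 1, fun _ => 1,
      l1.2, [], [], hF', hF, fun q => unitary_val_right, fun q => unitary_val_left, hone', hone, hone', hone,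
      hd l1 (by simp), List.Pairwise.nil, List.Pairwise.nil, ?_⟩
    unfold Circuit.mat threeLayer
    rw [hls, layerMat_nil, tensorMat_ones]
    simp [layersMat]
  | [l1, l2], hls, hd, hc =>
    refine ⟨fun q => (c.final q : Matrix Bool Bool ℂ), fun q => (l2.1 q : Matrix Bool Bool ℂ),
      fun q => (l1.1 q : Matrix Bool Bool ℂ), fun _ => 1,
      l2.2, l1.2, [], hF', hF, fun q => unitary_val_right, fun q => unitary_val_left,
      fun q => unitary_val_right, fun q => unitary_val_left, hone', hone,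
      hd l2 (by simp), hd l1 (by simp), List.Pairwise.nil, ?_⟩
    unfold Circuit.mat threeLayer
    rw [hls, layerMat_nil, tensorMat_ones]
    simp [layersMat]
  | [l1, l2, l3], hls, hd, hc =>
    refine ⟨fun q => (c.final q : Matrix Bool Bool ℂ), fun q => (l3.1 q : Matrix Bool Bool ℂ),
      fun q => (l2.1 q : Matrix Bool Bool ℂ), fun q => (l1.1 q : Matrix Bool Bool ℂ),
      l3.2, l2.2, l1.2, hF', hF, fun q => unitary_val_right, fun q => unitary_val_left,
      fun q => unitary_val_right, fun q => unitary_val_left, fun q => unitary_val_right, fun q => unitary_val_left,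
      hd l3 (by simp), hd l2 (by simp), hd l1 (by simp), ?_⟩
    unfold Circuit.mat threeLayer
    rw [hls]
    simp [layersMat, Matrix.mul_assoc]
  | _ :: _ :: _ :: _ :: _, hls, hd, hc =>
    exfalso
    simp at hc
    omega

/-- The correlation of a circuit with at most three layers. -/
theorem depth_three_bound (hn : 0 < n) (c : Circuit (Fin n ⊕ Fin a)) (hc : c.layers.length ≤ 3)
    (m : Fin n ⊕ Fin a) {t : ℕ} (ht : 1 ≤ t) :
    |parityCorrelation c m zeroAncilla| ≤ 6 * Ebd n t := by
  obtain ⟨W4, W3, W2, W1, G3, G2, G1, h4, h4', h3, h3', h2, h2', h1, h1', hG3, hG2, hG1, hmat⟩ :=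
    circuit_normal_form c hc
  unfold parityCorrelation
  rw [hmat]
  exact threeLayer_corr hn h4 h4' h3 h3' h2 h2' h1 h1' hG3 hG2 hG1 m ht

theorem depth_three_one (c : Circuit (Fin n ⊕ Fin a)) (hc : c.layers.length ≤ 3) (m : Fin n ⊕ Fin a) :
    |parityCorrelation c m zeroAncilla| ≤ 1 := by
  obtain ⟨W4, W3, W2, W1, G3, G2, G1, h4, h4', h3, h3', h2, h2', h1, h1', hG3, hG2, hG1, hmat⟩ :=
    circuit_normal_form c hc
  unfold parityCorrelation
  rw [hmat]
  exact threeLayer_corr_one h4' h3' h2' h1' G3 G2 G1 m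

end Inputs

end Vale.Agent.Lib.P368

/-!
The final numerics: the correlation bound at entangling depth three.
-/

set_option linter.unusedSectionVars false
set_option linter.unusedSimpArgs false
set_option linter.unusedVariables false

namespace Vale.Agent.Lib.P368

open Matrix

section Final

/-- The first decay rate. -/
noncomputable def rate1 : ℝ := -Real.log (3 / 4) / 2

/-- The second decay rate. -/
noncomputable def rate2 : ℝ := -Real.log theta0

theorem rate1_pos : 0 < rate1 := by
  unfold rate1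
  have : Real.log (3 / 4) < 0 := Real.log_neg (by norm_num) (by norm_num)
  linarith

theorem rate2_pos : 0 < rate2 := by
  unfold rate2
  have : Real.log theta0 < 0 := Real.log_neg theta0_pos theta0_lt
  linarith

theorem pow34_eq (t : ℕ) : (3 / 4 : ℝ) ^ t = Real.exp (-(2 * rate1 * t)) := by
  have h : (3 / 4 : ℝ) = Real.exp (-(2 * rate1)) := by
    unfold rate1
    rw [show -(2 * (-Real.log (3 / 4) / 2)) = Real.log (3 / 4) by ring, Real.exp_log (by norm_num)]
  conv_lhs => rw [h]
  rw [← Real.exp_nat_mul]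
  congr 1
  ring

theorem powTheta_eq (k : ℕ) : theta0 ^ k = Real.exp (-(rate2 * k)) := by
  have h : theta0 = Real.exp (-rate2) := by
    unfold rate2
    rw [neg_neg, Real.exp_log theta0_pos]
  conv_lhs => rw [h]
  rw [← Real.exp_nat_mul]
  congr 1
  ring

theorem n_le_exp (n : ℕ) : (n : ℝ) ≤ 2 / rate1 ^ 2 * Real.exp (rate1 * Real.sqrt n) := by
  have h0 := rate1_pos
  have hs : 0 ≤ Real.sqrt n := Real.sqrt_nonneg _
  have h1 := Real.quadratic_le_exp_of_nonneg (mul_nonneg h0.le hs)
  have h2 : Real.sqrt n ^ 2 = n := Real.sq_sqrt (Nat.cast_nonneg n)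
  have h3 : rate1 ^ 2 * n / 2 ≤ Real.exp (rate1 * Real.sqrt n) := by
    have : (rate1 * Real.sqrt n) ^ 2 = rate1 ^ 2 * n := by rw [mul_pow, h2]
    nlinarith [mul_nonneg h0.le hs]
  have h4 : 0 < rate1 ^ 2 := by positivity
  rw [div_mul_eq_mul_div, le_div_iff₀ h4]
  linarith

/-- The bound of the first term. -/
theorem first_term (n : ℕ) (hn : 1 ≤ n) {t : ℕ} (ht : Real.sqrt n ≤ t) :
    (11 + 6 * (n : ℝ)) * (3 / 4 : ℝ) ^ t ≤ (34 / rate1 ^ 2) * Real.exp (-(rate1 * Real.sqrt n)) := by
  have h0 := rate1_pos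
  have hn' : (1 : ℝ) ≤ n := by exact_mod_cast hn
  have h1 : (11 + 6 * (n : ℝ)) ≤ 17 * n := by linarith
  rw [pow34_eq]
  have h2 : Real.exp (-(2 * rate1 * t)) ≤ Real.exp (-(2 * rate1 * Real.sqrt n)) := by
    apply Real.exp_le_exp.mpr
    have : 2 * rate1 * Real.sqrt n ≤ 2 * rate1 * t := by
      apply mul_le_mul_of_nonneg_left ht (by positivity)
    linarith
  have h3 := n_le_exp n
  have h4 : Real.exp (rate1 * Real.sqrt n) * Real.exp (-(2 * rate1 * Real.sqrt n)) =
      Real.exp (-(rate1 * Real.sqrt n)) := by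
    rw [← Real.exp_add]
    congr 1
    ring
  calc (11 + 6 * (n : ℝ)) * Real.exp (-(2 * rate1 * t))
      ≤ (17 * n) * Real.exp (-(2 * rate1 * Real.sqrt n)) := by gcongr
    _ ≤ (17 * (2 / rate1 ^ 2 * Real.exp (rate1 * Real.sqrt n))) * Real.exp (-(2 * rate1 * Real.sqrt n)) := by gcongr
    _ = (34 / rate1 ^ 2) * (Real.exp (rate1 * Real.sqrt n) * Real.exp (-(2 * rate1 * Real.sqrt n))) := by ring
    _ = _ := by rw [h4]

/-- The bound of the second term. -/
theorem second_term (n : ℕ) (hn : 1 ≤ n) {t : ℕ} (ht : (t : ℝ) ≤ 2 * Real.sqrt n) (ht0 : 1 ≤ t) :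
    theta0 ^ (n / (12 * Qn * t) - 1) ≤ Real.exp (2 * rate2) * Real.exp (-(rate2 / (24 * Qn) * Real.sqrt n)) := by
  have h0 := rate2_pos
  have hQ : 1 ≤ Qn := Qn_pos
  have hQ' : (1 : ℝ) ≤ Qn := by exact_mod_cast hQ
  have hn' : (1 : ℝ) ≤ n := by exact_mod_cast hn
  set M := 12 * Qn * t with hM
  have hMpos : 0 < M := by positivity
  set k := n / M - 1 with hk
  have h1 : n < M * (k + 2) := by
    have h2 : n < M * (n / M + 1) := Nat.lt_mul_div_succ _ hMpos
    have h3 : n / M + 1 ≤ k + 2 := by omega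
    exact lt_of_lt_of_le h2 (Nat.mul_le_mul_left _ h3)
  have h1' : (n : ℝ) < (M : ℝ) * ((k : ℝ) + 2) := by exact_mod_cast h1
  have hMle : (M : ℝ) ≤ 24 * Qn * Real.sqrt n := by
    rw [hM]
    push_cast
    nlinarith
  have hs : 0 < Real.sqrt n := Real.sqrt_pos.mpr (by linarith)
  have hss : Real.sqrt n * Real.sqrt n = n := Real.mul_self_sqrt (by linarith)
  -- dividing by the square root
  have h4 : Real.sqrt n ≤ 24 * Qn * ((k : ℝ) + 2) := by
    have hk0 : (0 : ℝ) ≤ (k : ℝ) + 2 := by positivity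
    have h5 : Real.sqrt n * Real.sqrt n < (24 * Qn * Real.sqrt n) * ((k : ℝ) + 2) := by
      rw [hss]
      exact lt_of_lt_of_le h1' (mul_le_mul_of_nonneg_right hMle hk0)
    have h6 : Real.sqrt n * Real.sqrt n < Real.sqrt n * (24 * Qn * ((k : ℝ) + 2)) := by
      calc _ < _ := h5
        _ = _ := by ring
    exact le_of_lt (lt_of_mul_lt_mul_left h6 hs.le)
  rw [powTheta_eq, ← Real.exp_add]
  apply Real.exp_le_exp.mpr
  have hQpos : (0 : ℝ) < 24 * Qn := by positivity
  have h7 : rate2 / (24 * Qn) * Real.sqrt n ≤ rate2 * ((k : ℝ) + 2) := by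
    rw [div_mul_eq_mul_div, div_le_iff₀ hQpos]
    calc rate2 * Real.sqrt n ≤ rate2 * (24 * Qn * ((k : ℝ) + 2)) :=
          mul_le_mul_of_nonneg_left h4 h0.le
      _ = _ := by ring
  linarith

/-- The bound for parameters depending on `n`. -/
theorem Ebd_le (n : ℕ) (hn : 1 ≤ n) :
    Ebd n (Nat.sqrt n + 1) ≤ (34 / rate1 ^ 2 + Real.exp (2 * rate2)) *
      Real.exp (-(min rate1 (rate2 / (24 * Qn)) * Real.sqrt n)) := by
  have hn' : (1 : ℝ) ≤ n := by exact_mod_cast hn
  set t := Nat.sqrt n + 1 with ht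
  have hs0 : 0 ≤ Real.sqrt n := Real.sqrt_nonneg _
  have h1 : Real.sqrt n ≤ t := by
    rw [Real.sqrt_le_iff]
    refine ⟨by positivity, ?_⟩
    have h2 : n < t * t := by
      have := Nat.lt_succ_sqrt n
      simpa [ht, Nat.succ_eq_add_one] using this
    have h3 : (n : ℝ) < (t : ℝ) * t := by exact_mod_cast h2
    nlinarith
  have h2 : (t : ℝ) ≤ 2 * Real.sqrt n := by
    have h3 : ((Nat.sqrt n : ℕ) : ℝ) ≤ Real.sqrt n := by
      apply Real.le_sqrt_of_sq_le
      have := Nat.sqrt_le' n
      exact_mod_cast this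
    have h4 : 1 ≤ Real.sqrt n := by
      rw [Real.one_le_sqrt]
      exact hn'
    rw [ht]
    push_cast
    linarith
  have h3 := first_term n hn h1
  have h4 := second_term n hn h2 (by omega)
  set c := min rate1 (rate2 / (24 * Qn)) with hc
  have hc1 : c ≤ rate1 := min_le_left _ _
  have hc2 : c ≤ rate2 / (24 * Qn) := min_le_right _ _
  have e1 : Real.exp (-(rate1 * Real.sqrt n)) ≤ Real.exp (-(c * Real.sqrt n)) := by
    apply Real.exp_le_exp.mpr
    have := mul_le_mul_of_nonneg_right hc1 hs0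
    linarith
  have e2 : Real.exp (-(rate2 / (24 * Qn) * Real.sqrt n)) ≤ Real.exp (-(c * Real.sqrt n)) := by
    apply Real.exp_le_exp.mpr
    have := mul_le_mul_of_nonneg_right hc2 hs0
    linarith
  have h5 : 0 < rate1 ^ 2 := pow_pos rate1_pos 2
  have h6 : 0 ≤ 34 / rate1 ^ 2 := by positivity
  have h7 := Real.exp_pos (2 * rate2)
  unfold Ebd
  calc _ ≤ (34 / rate1 ^ 2) * Real.exp (-(rate1 * Real.sqrt n)) +
        Real.exp (2 * rate2) * Real.exp (-(rate2 / (24 * Qn) * Real.sqrt n)) := add_le_add h3 h4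
    _ ≤ (34 / rate1 ^ 2) * Real.exp (-(c * Real.sqrt n)) + Real.exp (2 * rate2) * Real.exp (-(c * Real.sqrt n)) := by
        gcongr
    _ = _ := by ring

/-- The main theorem. -/
theorem depth_three_main :
    ∃ c C : ℝ, 0 < c ∧ 0 < C ∧ ∀ (n a : ℕ) (circ : Circuit (Fin n ⊕ Fin a)), circ.layers.length ≤ 3 →
      ∀ m : Fin n ⊕ Fin a, |parityCorrelation circ m zeroAncilla| ≤ C * Real.exp (-(c * Real.sqrt n)) := by
  have hQpos : (0 : ℝ) < 24 * Qn := by
    have : (1 : ℝ) ≤ Qn := by exact_mod_cast Qn_pos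
    positivity
  have hr2 : 0 < rate2 / (24 * Qn) := div_pos rate2_pos hQpos
  have h5 : 0 < rate1 ^ 2 := pow_pos rate1_pos 2
  have h6 : 0 ≤ 34 / rate1 ^ 2 := by positivity
  have h7 := Real.exp_pos (2 * rate2)
  refine ⟨min rate1 (rate2 / (24 * Qn)), 6 * (34 / rate1 ^ 2 + Real.exp (2 * rate2)) + 1,
    lt_min rate1_pos hr2, by positivity, ?_⟩
  intro n a circ hc m
  rcases Nat.eq_zero_or_pos n with hn | hn
  · subst hn
    have h1 := depth_three_one circ hc m
    simp only [Nat.cast_zero, Real.sqrt_zero, mul_zero, neg_zero, Real.exp_zero, mul_one]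
    have : 0 < 6 * (34 / rate1 ^ 2 + Real.exp (2 * rate2)) := by positivity
    linarith
  · have h1 := depth_three_bound hn circ hc m (t := Nat.sqrt n + 1) (by omega)
    have h2 := Ebd_le n hn
    have h3 := Real.exp_pos (-(min rate1 (rate2 / (24 * Qn)) * Real.sqrt n))
    calc _ ≤ 6 * Ebd n (Nat.sqrt n + 1) := h1
      _ ≤ 6 * ((34 / rate1 ^ 2 + Real.exp (2 * rate2)) * Real.exp (-(min rate1 (rate2 / (24 * Qn)) * Real.sqrt n))) := by
          linarith
      _ ≤ _ := by nlinarith

end Final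

end Vale.Agent.Lib.P368

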