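import Vale.Agent.Lib.P368.Main

/-!
Positive semidefinite toolkit for matrices over `ℂ`.
-/

set_option linter.unusedSectionVars false
set_option linter.unusedSimpArgs false
set_option linter.unusedVariables false

namespace Vale.Agent.Lib.P368

open Matrix
open scoped Matrix.Norms.L2Operator ComplexConjugate ComplexOrder MatrixOrder

section Psd

variable {P : Type*} [Fintype P] [DecidableEq P]

theorem psd_mul_of_commute {A B : Matrix P P ℂ} (hA : A.PosSemidef) (hB : B.PosSemidef)
    (h : A * B = B * A) : (A * B).PosSemidef := by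
  have h1 : (0 : Matrix P P ℂ) ≤ A * B :=
    Commute.mul_nonneg (Matrix.nonneg_iff_posSemidef.mpr hA) (Matrix.nonneg_iff_posSemidef.mpr hB) h
  exact Matrix.nonneg_iff_posSemidef.mp h1

theorem psd_eq_star_mul_self {A : Matrix P P ℂ} (hA : A.PosSemidef) :
    ∃ C : Matrix P P ℂ, A = Cᴴ * C := by
  have h1 : (0 : Matrix P P ℂ) ≤ A := Matrix.nonneg_iff_posSemidef.mpr hA
  obtain ⟨C, hC⟩ := CStarAlgebra.nonneg_iff_eq_star_mul_self.mp h1
  exact ⟨C, by simpa [Matrix.star_eq_conjTranspose] using hC⟩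

/-- The trace of a product of two positive semidefinite matrices is a nonnegative real. -/
theorem trace_psd_mul {A B : Matrix P P ℂ} (hA : A.PosSemidef) (hB : B.PosSemidef) :
    0 ≤ (A * B).trace := by
  obtain ⟨C, rfl⟩ := psd_eq_star_mul_self hA
  have h1 : (C * B * Cᴴ).PosSemidef := hB.mul_mul_conjTranspose_same C
  have h2 : (Cᴴ * C * B).trace = (C * B * Cᴴ).trace := by
    rw [Matrix.mul_assoc, Matrix.trace_mul_comm, Matrix.mul_assoc]
  rw [h2]
  exact h1.trace_nonneg

theorem trace_psd_mul_re {A B : Matrix P P ℂ} (hA : A.PosSemidef) (hB : B.PosSemidef) :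
    0 ≤ (A * B).trace.re :=
  (Complex.le_def.mp (trace_psd_mul hA hB)).1

theorem norm_trace_eq_re_of_nonneg {z : ℂ} (h : 0 ≤ z) : ‖z‖ = z.re := by
  have h2 := Complex.le_def.mp h
  have him : z.im = 0 := h2.2.symm
  have hz : z = (z.re : ℂ) := by
    apply Complex.ext
    · simp
    · simp [him]
  rw [hz, Complex.norm_real, Real.norm_eq_abs, abs_of_nonneg (by simpa using h2.1)]
  simp

theorem norm_trace_psd_mul {A B : Matrix P P ℂ} (hA : A.PosSemidef) (hB : B.PosSemidef) :
    ‖(A * B).trace‖ = (A * B).trace.re :=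
  norm_trace_eq_re_of_nonneg (trace_psd_mul hA hB)

theorem trace_conj_self_re (C : Matrix P P ℂ) :
    (Cᴴ * C).trace.re = ∑ i, ∑ j, ‖C i j‖ ^ 2 := by
  simp only [Matrix.trace, Matrix.diag_apply, Matrix.mul_apply, Matrix.conjTranspose_apply,
    Complex.re_sum]
  rw [Finset.sum_comm]
  refine Finset.sum_congr rfl (fun i _ => Finset.sum_congr rfl (fun j _ => ?_))
  have h : star (C i j) * C i j = ((‖C i j‖ ^ 2 : ℝ) : ℂ) := by
    rw [Complex.star_def, Complex.conj_mul']
    push_cast
    rfl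
  rw [h, Complex.ofReal_re]

/-- Hölder for a positive semidefinite matrix. -/
theorem norm_trace_mul_le {O Z : Matrix P P ℂ} (hZ : Z.PosSemidef) :
    ‖(O * Z).trace‖ ≤ ‖O‖ * Z.trace.re := by
  obtain ⟨C, rfl⟩ := psd_eq_star_mul_self hZ
  have h1 : (O * (Cᴴ * C)).trace =
      ∑ i, star (fun j => star (C i j)) ⬝ᵥ (O *ᵥ (fun j => star (C i j))) := by
    have h2 : (O * (Cᴴ * C)).trace = (C * (O * Cᴴ)).trace := by
      rw [← Matrix.mul_assoc, Matrix.trace_mul_comm]
    rw [h2, Matrix.trace]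
    refine Finset.sum_congr rfl (fun i _ => ?_)
    simp only [Matrix.diag_apply, Matrix.mul_apply, dotProduct, Matrix.mulVec, Pi.star_apply,
      Matrix.conjTranspose_apply, star_star]
  rw [h1, trace_conj_self_re, Finset.mul_sum]
  refine (norm_sum_le _ _).trans (Finset.sum_le_sum (fun i _ => ?_))
  have h3 := norm_form_le O (fun j => star (C i j))
  simpa using h3

theorem norm_one_sub_psd [Nonempty P] {A : Matrix P P ℂ} (hA : A.IsHermitian) :
    (((‖A‖ : ℝ) : ℂ) • (1 : Matrix P P ℂ) - A).PosSemidef := by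
  have hs : IsSelfAdjoint A := by
    rw [isSelfAdjoint_iff, Matrix.star_eq_conjTranspose]
    exact hA
  have h1 := IsSelfAdjoint.le_algebraMap_norm_self hs
  have h2 : (0 : Matrix P P ℂ) ≤ algebraMap ℝ (Matrix P P ℂ) ‖A‖ - A := sub_nonneg.mpr h1
  have h3 := Matrix.nonneg_iff_posSemidef.mp h2
  have h4 : algebraMap ℝ (Matrix P P ℂ) ‖A‖ = ((‖A‖ : ℝ) : ℂ) • (1 : Matrix P P ℂ) := by
    rw [Algebra.algebraMap_eq_smul_one]
    ext i j
    simp [Matrix.smul_apply]
  rwa [h4] at h3

/-- A range condition bounds a rank one positive operator by a multiple of a projector. -/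
theorem psd_scale_sub [Nonempty P] {Y R : Matrix P P ℂ} (hRh : Rᴴ = R) (hR : R * R = R)
    (hY : R * Y = Y) :
    (((‖Y‖ ^ 2 : ℝ) : ℂ) • R - Y * Yᴴ).PosSemidef := by
  have hH : (Y * Yᴴ).IsHermitian := isHermitian_mul_conjTranspose_self Y
  have h1 := norm_one_sub_psd hH
  have h2 := h1.conjTranspose_mul_mul_same R
  have h3 : ‖Y * Yᴴ‖ = ‖Y‖ ^ 2 := by
    have h5 := Matrix.l2_opNorm_conjTranspose_mul_self Yᴴ
    rw [conjTranspose_conjTranspose, Matrix.l2_opNorm_conjTranspose] at h5
    rw [h5, sq]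
  rw [h3] at h2
  have h4 : Rᴴ * (((‖Y‖ ^ 2 : ℝ) : ℂ) • (1 : Matrix P P ℂ) - Y * Yᴴ) * R =
      ((‖Y‖ ^ 2 : ℝ) : ℂ) • R - Y * Yᴴ := by
    have hY' : Yᴴ * R = Yᴴ := by
      have := congrArg conjTranspose hY
      rwa [conjTranspose_mul, hRh] at this
    rw [hRh, Matrix.mul_sub, Matrix.sub_mul, Matrix.mul_smul, Matrix.mul_one, Matrix.smul_mul, hR,
      ← Matrix.mul_assoc, hY, Matrix.mul_assoc, hY']
  rwa [h4] at h2

end Psd

end Vale.Agent.Lib.P368

/-!
The peeling lemma: a product of difference factors is dominated by the product of positive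
factors, under positivity of each factor plus or minus its difference part.
-/

set_option linter.unusedSectionVars false
set_option linter.unusedSimpArgs false
set_option linter.unusedVariables false

namespace Vale.Agent.Lib.P368

open Matrix
open scoped Matrix.Norms.L2Operator ComplexConjugate ComplexOrder

/-- Operators on the qubits `Q`. -/
abbrev MM (Q : Type*) := Matrix (Q → Bool) (Q → Bool) ℂ

section Peel

variable {Q : Type*} [Fintype Q] [DecidableEq Q]

/-- One column for the peeling lemma: the row part `G`, the two (pinned) column operators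
`r0`, `r1`, their versions `t0`, `t1` reset on the group `Gp`, and the dominating operator `a`. -/
structure PeelCol (Q : Type*) [Fintype Q] [DecidableEq Q] where
  Gs : Finset Q
  Cs : Finset Q
  Gp : Finset Q
  G : MM Q
  r0 : MM Q
  r1 : MM Q
  t0 : MM Q
  t1 : MM Q
  a : MM Q
  hGp1 : Gp ⊆ Gs
  hGp2 : Gp ⊆ Cs
  hG : G ∈ SpanOn Gs
  hr0 : r0 ∈ SpanOn Cs
  hr1 : r1 ∈ SpanOn Cs
  ha : a ∈ SpanOn Cs
  ht0 : t0 ∈ SpanOn Cs
  ht1 : t1 ∈ SpanOn Cs
  hGpos : G.PosSemidef
  hGpos' : (1 - G).PosSemidef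
  hr0pos : r0.PosSemidef
  hr1pos : r1.PosSemidef
  ha0 : (a - (1 / 2 : ℂ) • t0).PosSemidef
  ha1 : (a - (1 / 2 : ℂ) • t1).PosSemidef
  hnull0 : ∀ Z ∈ SpanOn Gpᶜ, (Z * (t0 - r0)).trace = 0
  hnull1 : ∀ Z ∈ SpanOn Gpᶜ, (Z * (t1 - r1)).trace = 0

/-- The difference factor of a column. -/
noncomputable def PeelCol.b (c : PeelCol Q) : MM Q := c.G * ((1 / 2 : ℂ) • (c.r0 - c.r1))

/-- The sites touched by a list of columns. -/
def PeelCol.sites (l : List (PeelCol Q)) : Finset Q :=
  (l.map (fun c => c.Gs ∪ c.Cs)).foldr (· ∪ ·) ∅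

theorem mem_peel_sites {l : List (PeelCol Q)} {q : Q} :
    q ∈ PeelCol.sites l ↔ ∃ c ∈ l, q ∈ c.Gs ∪ c.Cs := by
  induction l with
  | nil => simp [PeelCol.sites]
  | cons c l ih =>
    simp only [PeelCol.sites, List.map_cons, List.foldr_cons, Finset.mem_union, List.mem_cons,
      exists_eq_or_imp] at *
    rw [ih]

theorem PeelCol.b_mem (c : PeelCol Q) : c.b ∈ SpanOn (c.Gs ∪ c.Cs) :=
  mul_mem_spanOn (spanOn_mono Finset.subset_union_left c.hG)
    (Submodule.smul_mem _ _ (Submodule.sub_mem _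
      (spanOn_mono Finset.subset_union_right c.hr0) (spanOn_mono Finset.subset_union_right c.hr1)))

theorem prod_b_mem (l : List (PeelCol Q)) : (l.map PeelCol.b).prod ∈ SpanOn (PeelCol.sites l) := by
  induction l with
  | nil => simpa using one_mem_spanOn _
  | cons c l ih =>
    rw [List.map_cons, List.prod_cons]
    refine mul_mem_spanOn (spanOn_mono ?_ c.b_mem) (spanOn_mono ?_ ih)
    · intro q hq
      exact mem_peel_sites.mpr ⟨c, by simp, hq⟩
    · intro q hq
      obtain ⟨c', hc', hq'⟩ := mem_peel_sites.mp hq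
      exact mem_peel_sites.mpr ⟨c', by simp [hc'], hq'⟩

theorem prod_a_mem (l : List (PeelCol Q)) : (l.map PeelCol.a).prod ∈ SpanOn (PeelCol.sites l) := by
  induction l with
  | nil => simpa using one_mem_spanOn _
  | cons c l ih =>
    rw [List.map_cons, List.prod_cons]
    refine mul_mem_spanOn (spanOn_mono ?_ c.ha) (spanOn_mono ?_ ih)
    · intro q hq
      exact mem_peel_sites.mpr ⟨c, by simp, Finset.mem_union_right _ hq⟩
    · intro q hq
      obtain ⟨c', hc', hq'⟩ := mem_peel_sites.mp hq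
      exact mem_peel_sites.mpr ⟨c', by simp [hc'], hq'⟩

/-- Two columns do not interact. -/
def PeelCol.Apart (c d : PeelCol Q) : Prop :=
  Disjoint c.Gs d.Gs ∧ Disjoint c.Gs d.Cs ∧ Disjoint c.Cs d.Gs ∧ Disjoint c.Cs d.Cs

theorem disjoint_sites {T : Finset Q} {l : List (PeelCol Q)}
    (h : ∀ d ∈ l, Disjoint T d.Gs ∧ Disjoint T d.Cs) : Disjoint T (PeelCol.sites l) := by
  rw [Finset.disjoint_left]
  intro q hq hq'
  obtain ⟨d, hd, hd'⟩ := mem_peel_sites.mp hq'
  rcases Finset.mem_union.mp hd' with h1 | h1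
  · exact Finset.disjoint_left.mp (h d hd).1 hq h1
  · exact Finset.disjoint_left.mp (h d hd).2 hq h1

theorem mem_spanOn_compl_of_disjoint {T T' : Finset Q} (h : Disjoint T T') {X : MM Q}
    (hX : X ∈ SpanOn T') : X ∈ SpanOn Tᶜ := by
  refine spanOn_mono ?_ hX
  intro q hq
  simp only [Finset.mem_compl]
  exact fun h2 => Finset.disjoint_left.mp h h2 hq

/-- The peeling lemma. -/
theorem peel (l : List (PeelCol Q)) (hl : l.Pairwise PeelCol.Apart) :
    ∀ (R K : MM Q) (TR TK : Finset Q), R ∈ SpanOn TR → K ∈ SpanOn TK → R.PosSemidef → K.PosSemidef →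
      (∀ c ∈ l, Disjoint TR c.Gs) → (∀ c ∈ l, Disjoint TK c.Cs) →
      ‖(R * (l.map PeelCol.b).prod * K).trace‖ ≤ (R * (l.map PeelCol.a).prod * K).trace.re := by
  induction l with
  | nil =>
    intro R K TR TK _ _ hR hK _ _
    simp only [List.map_nil, List.prod_nil, Matrix.mul_one]
    exact (norm_trace_psd_mul hR hK).le
  | cons c l ih =>
    intro R K TR TK hRm hKm hR hK hTR hTK
    rw [List.pairwise_cons] at hl
    obtain ⟨hc, hl'⟩ := hl
    have ih' := ih hl'
    set X := (l.map PeelCol.b).prod with hX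
    set A := (l.map PeelCol.a).prod with hA
    have hXm : X ∈ SpanOn (PeelCol.sites l) := prod_b_mem l
    have hAm : A ∈ SpanOn (PeelCol.sites l) := prod_a_mem l
    have hTRc : Disjoint TR c.Gs := hTR c (by simp)
    have hTKc : Disjoint TK c.Cs := hTK c (by simp)
    have hGs : Disjoint c.Gs (PeelCol.sites l) :=
      disjoint_sites (fun d hd => ⟨(hc d hd).1, (hc d hd).2.1⟩)
    have hCs : Disjoint c.Cs (PeelCol.sites l) :=
      disjoint_sites (fun d hd => ⟨(hc d hd).2.2.1, (hc d hd).2.2.2⟩)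
    -- commutation
    have hCX : ∀ Y ∈ SpanOn c.Cs, Y * X = X * Y := fun Y hY => commute_spanOn hCs hY hXm
    have hCA : ∀ Y ∈ SpanOn c.Cs, Y * A = A * Y := fun Y hY => commute_spanOn hCs hY hAm
    have hRG : ∀ Y ∈ SpanOn c.Gs, R * Y = Y * R := fun Y hY => commute_spanOn hTRc hRm hY
    have hKC : ∀ Y ∈ SpanOn c.Cs, K * Y = Y * K := fun Y hY => commute_spanOn hTKc hKm hY
    -- Induction hypothesis applied to positive pairs
    have key : ∀ (R' : MM Q) (K' : MM Q), R' ∈ SpanOn (TR ∪ c.Gs) → K' ∈ SpanOn (TK ∪ c.Cs) →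
        R'.PosSemidef → K'.PosSemidef →
        ‖(R' * X * K').trace‖ ≤ (R' * A * K').trace.re := by
      intro R' K' h1 h2 h3 h4
      refine ih' R' K' (TR ∪ c.Gs) (TK ∪ c.Cs) h1 h2 h3 h4 ?_ ?_
      · intro d hd
        rw [Finset.disjoint_union_left]
        exact ⟨hTR d (by simp [hd]), (hc d hd).1⟩
      · intro d hd
        rw [Finset.disjoint_union_left]
        exact ⟨hTK d (by simp [hd]), (hc d hd).2.2.2⟩
    have hRmem : R ∈ SpanOn (TR ∪ c.Gs) := spanOn_mono Finset.subset_union_left hRm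
    have hKmem : K ∈ SpanOn (TK ∪ c.Cs) := spanOn_mono Finset.subset_union_left hKm
    have hGmem : c.G ∈ SpanOn (TR ∪ c.Gs) := spanOn_mono Finset.subset_union_right c.hG
    have hG'm : (1 - c.G) ∈ SpanOn c.Gs := Submodule.sub_mem _ (one_mem_spanOn _) c.hG
    -- the positive pairs
    have pG : (R * c.G).PosSemidef := psd_mul_of_commute hR c.hGpos (hRG _ c.hG)
    have pG' : (R * (1 - c.G)).PosSemidef := psd_mul_of_commute hR c.hGpos' (hRG _ hG'm)
    have mG : R * c.G ∈ SpanOn (TR ∪ c.Gs) := mul_mem_spanOn hRmem hGmem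
    have mG' : R * (1 - c.G) ∈ SpanOn (TR ∪ c.Gs) :=
      mul_mem_spanOn hRmem (spanOn_mono Finset.subset_union_right hG'm)
    have posK : ∀ Y ∈ SpanOn c.Cs, Y.PosSemidef → (Y * K).PosSemidef ∧ Y * K ∈ SpanOn (TK ∪ c.Cs) := by
      intro Y hY hpY
      refine ⟨psd_mul_of_commute hpY hK (hKC Y hY).symm, mul_mem_spanOn
        (spanOn_mono Finset.subset_union_right hY) hKmem⟩
    have m0 := posK _ c.hr0 c.hr0pos
    have m1 := posK _ c.hr1 c.hr1pos
    have ma0m : c.a - (1 / 2 : ℂ) • c.t0 ∈ SpanOn c.Cs :=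
      Submodule.sub_mem _ c.ha (Submodule.smul_mem _ _ c.ht0)
    have ma1m : c.a - (1 / 2 : ℂ) • c.t1 ∈ SpanOn c.Cs :=
      Submodule.sub_mem _ c.ha (Submodule.smul_mem _ _ c.ht1)
    have ma0 := posK _ ma0m c.ha0
    have ma1 := posK _ ma1m c.ha1
    -- six inequalities
    have i1 := key _ _ mG m0.2 pG m0.1
    have i2 := key _ _ mG m1.2 pG m1.1
    have i3 := key _ _ mG' m0.2 pG' m0.1
    have i4 := key _ _ mG' m1.2 pG' m1.1
    have i5 := key _ _ hRmem ma0.2 hR ma0.1
    have i6 := key _ _ hRmem ma1.2 hR ma1.1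
    -- rewriting of the functional
    have hZs : ∀ (B : MM Q), B ∈ SpanOn (PeelCol.sites l) → K * R * B ∈ SpanOn c.Gpᶜ := by
      intro B hB
      refine mul_mem_spanOn (mul_mem_spanOn ?_ ?_) ?_
      · refine mem_spanOn_compl_of_disjoint ?_ hKm
        exact Finset.disjoint_of_subset_left c.hGp2 hTKc.symm
      · refine mem_spanOn_compl_of_disjoint ?_ hRm
        exact Finset.disjoint_of_subset_left c.hGp1 hTRc.symm
      · refine mem_spanOn_compl_of_disjoint ?_ hB
        exact Finset.disjoint_of_subset_left c.hGp1 hGs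
    -- the functionals
    let F : MM Q → MM Q → ℂ := fun B Y => (R * Y * B * K).trace
    have hF : ∀ B Y, F B Y = (R * Y * B * K).trace := fun _ _ => rfl
    have Fadd : ∀ B Y Y', F B (Y + Y') = F B Y + F B Y' := by
      intro B Y Y'
      simp only [hF, Matrix.mul_add, Matrix.add_mul, Matrix.trace_add]
    have Fsub : ∀ B Y Y', F B (Y - Y') = F B Y - F B Y' := by
      intro B Y Y'
      simp only [hF, Matrix.mul_sub, Matrix.sub_mul, Matrix.trace_sub]
    have Fsmul : ∀ B (z : ℂ) Y, F B (z • Y) = z * F B Y := by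
      intro B z Y
      simp only [hF, Matrix.mul_smul, Matrix.smul_mul, Matrix.trace_smul, smul_eq_mul]
    have tG : ∀ B Y, Y ∈ SpanOn c.Cs → Y * B = B * Y → F B (c.G * Y) = (R * c.G * B * (Y * K)).trace := by
      intro B Y hY hB
      simp only [hF, Matrix.mul_assoc]
      rw [← Matrix.mul_assoc Y B K, hB, Matrix.mul_assoc]
    have tG' : ∀ B Y, Y ∈ SpanOn c.Cs → Y * B = B * Y →
        F B ((1 - c.G) * Y) = (R * (1 - c.G) * B * (Y * K)).trace := by
      intro B Y hY hB
      simp only [hF, Matrix.mul_assoc]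
      rw [← Matrix.mul_assoc Y B K, hB, Matrix.mul_assoc]
    have t1 : ∀ B Y, Y ∈ SpanOn c.Cs → Y * B = B * Y → F B Y = (R * B * (Y * K)).trace := by
      intro B Y hY hB
      simp only [hF, Matrix.mul_assoc]
      rw [← Matrix.mul_assoc Y B K, hB, Matrix.mul_assoc]
    have tnull : ∀ B Y, B ∈ SpanOn (PeelCol.sites l) → Y * B = B * Y →
        (∀ Z ∈ SpanOn c.Gpᶜ, (Z * Y).trace = 0) → F B Y = 0 := by
      intro B Y hB hYB hY
      have h1 := hY _ (hZs B hB)
      rw [← h1, hF]
      calc (R * Y * B * K).trace = (K * (R * Y * B)).trace := Matrix.trace_mul_comm _ _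
        _ = (K * R * (Y * B)).trace := by simp only [Matrix.mul_assoc]
        _ = (K * R * (B * Y)).trace := by rw [hYB]
        _ = (K * R * B * Y).trace := by simp only [Matrix.mul_assoc]
    set W0 := c.G * c.r0 with hW0
    set W1 := c.G * c.r1 with hW1
    set V0 := (1 - c.G) * c.r0 with hV0
    set V1 := (1 - c.G) * c.r1 with hV1
    set Ma0 := c.a - (1 / 2 : ℂ) • c.t0 with hMa0
    set Ma1 := c.a - (1 / 2 : ℂ) • c.t1 with hMa1
    set N0 := c.t0 - c.r0 with hN0
    set N1 := c.t1 - c.r1 with hN1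
    have e_b : (2 : ℂ) • c.b = (1 / 2 : ℂ) • (W0 - W1 + V1 - V0) + (Ma1 - Ma0) + (1 / 2 : ℂ) • (N1 - N0) := by
      simp only [PeelCol.b, hW0, hW1, hV0, hV1, hMa0, hMa1, hN0, hN1, Matrix.mul_smul, Matrix.mul_sub,
        Matrix.sub_mul, Matrix.one_mul]
      module
    have e_a : (2 : ℂ) • c.a = (1 / 2 : ℂ) • (W0 + W1 + V1 + V0) + (Ma1 + Ma0) + (1 / 2 : ℂ) • (N1 + N0) := by
      simp only [hW0, hW1, hV0, hV1, hMa0, hMa1, hN0, hN1, Matrix.sub_mul, Matrix.one_mul]
      module
    have fb : (2 : ℂ) * F X c.b = (1 / 2 : ℂ) * (F X W0 - F X W1 + F X V1 - F X V0) + (F X Ma1 - F X Ma0) := by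
      rw [← Fsmul, e_b, Fadd, Fadd, Fsmul, Fsmul, Fsub X (W0 - W1 + V1) V0, Fadd X (W0 - W1) V1,
        Fsub X W0 W1, Fsub X Ma1 Ma0, Fsub X N1 N0,
        tnull X N1 hXm (hCX _ (Submodule.sub_mem _ c.ht1 c.hr1)) c.hnull1,
        tnull X N0 hXm (hCX _ (Submodule.sub_mem _ c.ht0 c.hr0)) c.hnull0]
      ring
    have fa : (2 : ℂ) * F A c.a = (1 / 2 : ℂ) * (F A W0 + F A W1 + F A V1 + F A V0) + (F A Ma1 + F A Ma0) := by
      rw [← Fsmul, e_a, Fadd, Fadd, Fsmul, Fsmul, Fadd A (W0 + W1 + V1) V0, Fadd A (W0 + W1) V1,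
        Fadd A W0 W1, Fadd A Ma1 Ma0, Fadd A N1 N0,
        tnull A N1 hAm (hCA _ (Submodule.sub_mem _ c.ht1 c.hr1)) c.hnull1,
        tnull A N0 hAm (hCA _ (Submodule.sub_mem _ c.ht0 c.hr0)) c.hnull0]
      ring
    have j1 : ‖F X W0‖ ≤ (F A W0).re := by
      rw [tG X _ c.hr0 (hCX _ c.hr0), tG A _ c.hr0 (hCA _ c.hr0)]; exact i1
    have j2 : ‖F X W1‖ ≤ (F A W1).re := by
      rw [tG X _ c.hr1 (hCX _ c.hr1), tG A _ c.hr1 (hCA _ c.hr1)]; exact i2
    have j3 : ‖F X V0‖ ≤ (F A V0).re := by
      rw [tG' X _ c.hr0 (hCX _ c.hr0), tG' A _ c.hr0 (hCA _ c.hr0)]; exact i3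
    have j4 : ‖F X V1‖ ≤ (F A V1).re := by
      rw [tG' X _ c.hr1 (hCX _ c.hr1), tG' A _ c.hr1 (hCA _ c.hr1)]; exact i4
    have j5 : ‖F X Ma0‖ ≤ (F A Ma0).re := by
      rw [t1 X _ ma0m (hCX _ ma0m), t1 A _ ma0m (hCA _ ma0m)]; exact i5
    have j6 : ‖F X Ma1‖ ≤ (F A Ma1).re := by
      rw [t1 X _ ma1m (hCX _ ma1m), t1 A _ ma1m (hCA _ ma1m)]; exact i6
    have goalL : (R * ((c :: l).map PeelCol.b).prod * K).trace = F X c.b := by
      simp only [List.map_cons, List.prod_cons, hF, Matrix.mul_assoc, hX]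
    have goalR : (R * ((c :: l).map PeelCol.a).prod * K).trace = F A c.a := by
      simp only [List.map_cons, List.prod_cons, hF, Matrix.mul_assoc, hA]
    rw [goalL, goalR]
    have h2b : ‖(2 : ℂ) * F X c.b‖ = 2 * ‖F X c.b‖ := by simp
    have hb2 : ‖(2 : ℂ) * F X c.b‖ ≤ (1 / 2) * (‖F X W0‖ + ‖F X W1‖ + ‖F X V1‖ + ‖F X V0‖) +
        (‖F X Ma1‖ + ‖F X Ma0‖) := by
      rw [fb]
      refine (norm_add_le _ _).trans ?_
      have h3 : ‖(1 / 2 : ℂ) * (F X W0 - F X W1 + F X V1 - F X V0)‖ ≤
          (1 / 2) * (‖F X W0‖ + ‖F X W1‖ + ‖F X V1‖ + ‖F X V0‖) := by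
        rw [norm_mul]
        have h5 : ‖(1 / 2 : ℂ)‖ = 1 / 2 := by norm_num
        rw [h5]
        gcongr
        refine (norm_sub_le _ _).trans ?_
        gcongr
        refine (norm_add_le _ _).trans ?_
        gcongr
        exact norm_sub_le _ _
      exact add_le_add h3 (norm_sub_le _ _)
    have ha2 : (2 : ℝ) * (F A c.a).re = (1 / 2) * ((F A W0).re + (F A W1).re + (F A V1).re + (F A V0).re) +
        ((F A Ma1).re + (F A Ma0).re) := by
      have h6 := congrArg Complex.re fa
      simp only [Complex.mul_re, Complex.add_re, Complex.add_im, Complex.mul_im] at h6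
      norm_num at h6
      linarith
    linarith

end Peel

end Vale.Agent.Lib.P368

/-!
Kets, pinning bases, normalized sums over assignments, ket operators and reset maps.
-/

set_option linter.unusedSectionVars false
set_option linter.unusedSimpArgs false
set_option linter.unusedVariables false

namespace Vale.Agent.Lib.P368

open Matrix
open scoped Matrix.Norms.L2Operator ComplexConjugate ComplexOrder

section Site

/-- The ket `|0⟩`. -/
def ketZero : Bool → ℂ := fun b => if b then 0 else 1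

theorem ip_ketZero : ip ketZero ketZero = 1 := by
  simp [ip, ketZero]

/-- The ket orthogonal to a given ket. -/
def perp (a : Bool → ℂ) : Bool → ℂ := fun b => if b then star (a false) else - star (a true)

theorem ip_perp_right (a : Bool → ℂ) : ip a (perp a) = 0 := by
  simp [ip, perp]
  ring

theorem ip_perp_left (a : Bool → ℂ) : ip (perp a) a = 0 := by
  simp [ip, perp]
  ring

theorem ip_perp_self (a : Bool → ℂ) : ip (perp a) (perp a) = ip a a := by
  simp [ip, perp]
  ring

theorem ketbra_add_perp {a : Bool → ℂ} (h : ip a a = 1) :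
    ketbra a a + ketbra (perp a) (perp a) = 1 := by
  have h1 : star (a false) * a false + star (a true) * a true = 1 := by
    have h3 := h
    simp only [ip, Fintype.sum_bool] at h3
    rw [add_comm]
    exact h3
  have h2 : a false * conj (a false) + a true * conj (a true) = 1 := by
    rw [mul_comm (a false), mul_comm (a true)]
    exact h1
  ext i j
  cases i <;> cases j <;>
    simp only [ketbra, perp, Matrix.add_apply, Matrix.one_apply, if_true, if_false,
      Bool.false_eq_true, Bool.true_eq_false, star_neg, star_star, Complex.star_def,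
      Complex.conj_conj, map_neg]
  · linear_combination h2
  · ring
  · ring
  · linear_combination h2

end Site

variable {Q : Type*} [Fintype Q] [DecidableEq Q]

/-- The reference kets. -/
def eK : Q → Bool → ℂ := fun _ => ketZero

theorem eK_unit (T : Finset Q) : UnitOn T (eK : Q → Bool → ℂ) := fun _ _ => ip_ketZero

/-- The basis states of a product basis given by `r` and its orthogonal complement. -/
def pinKet (r : Q → Bool → ℂ) (y : Q → Bool) : Q → Bool → ℂ :=
  fun q => if y q then r q else perp (r q)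

theorem pinKet_unit {T : Finset Q} {r : Q → Bool → ℂ} (h : UnitOn T r) (y : Q → Bool) :
    UnitOn T (pinKet r y) := by
  intro q hq
  unfold pinKet
  by_cases hy : y q
  · simp [hy, h q hq]
  · simp [hy, ip_perp_self, h q hq]

section WS

variable {E : Type*} [AddCommMonoid E] [Module ℝ E]

/-- The sum over assignments on `T`, written as a normalized sum over all assignments. This is
meaningful for functions that only depend on the assignment on `T`. -/
noncomputable def WS (T : Finset Q) (F : (Q → Bool) → E) : E :=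
  ((2 : ℝ) ^ (Tᶜ).card)⁻¹ • ∑ y, F y

end WS

theorem WS_add {E : Type*} [AddCommMonoid E] [Module ℝ E] (T : Finset Q) (F G : (Q → Bool) → E) :
    WS T (fun y => F y + G y) = WS T F + WS T G := by
  simp [WS, Finset.sum_add_distrib, smul_add]

theorem WS_sub {E : Type*} [AddCommGroup E] [Module ℝ E] (T : Finset Q) (F G : (Q → Bool) → E) :
    WS T (fun y => F y - G y) = WS T F - WS T G := by
  simp [WS, Finset.sum_sub_distrib, smul_sub]

theorem WS_real_le (T : Finset Q) {F G : (Q → Bool) → ℝ} (h : ∀ y, F y ≤ G y) :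
    WS T F ≤ WS T G := by
  unfold WS
  have h2 : (0 : ℝ) ≤ ((2 : ℝ) ^ (Tᶜ).card)⁻¹ := by positivity
  rw [smul_eq_mul, smul_eq_mul]
  exact mul_le_mul_of_nonneg_left (Finset.sum_le_sum (fun y _ => h y)) h2

theorem WS_real_nonneg (T : Finset Q) {F : (Q → Bool) → ℝ} (h : ∀ y, 0 ≤ F y) : 0 ≤ WS T F := by
  unfold WS
  have h2 : (0 : ℝ) ≤ ((2 : ℝ) ^ (Tᶜ).card)⁻¹ := by positivity
  rw [smul_eq_mul]
  exact mul_nonneg h2 (Finset.sum_nonneg (fun y _ => h y))

/-- Mixing two assignments. -/
def mixY (A : Finset Q) (y y' : Q → Bool) : Q → Bool := fun q => if q ∈ A then y q else y' q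

theorem sum_mul_of_indep (A B : Finset Q) (hAB : Disjoint A B) {f g : (Q → Bool) → ℝ}
    (hf : ∀ y y', (∀ q ∈ A, y q = y' q) → f y = f y')
    (hg : ∀ y y', (∀ q ∈ B, y q = y' q) → g y = g y') :
    (2 : ℝ) ^ Fintype.card Q * ∑ y, f y * g y = (∑ y, f y) * ∑ y, g y := by
  -- the map on pairs
  have h1 : (∑ y : Q → Bool, f y) * ∑ y : Q → Bool, g y =
      ∑ p : (Q → Bool) × (Q → Bool), f p.1 * g p.2 := by
    rw [Finset.sum_mul_sum, Fintype.sum_prod_type]
  let e : (Q → Bool) × (Q → Bool) ≃ (Q → Bool) × (Q → Bool) :=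
    { toFun := fun p => (mixY A p.1 p.2, mixY A p.2 p.1)
      invFun := fun p => (mixY A p.1 p.2, mixY A p.2 p.1)
      left_inv := by
        rintro ⟨y, y'⟩
        ext q
        · by_cases hq : q ∈ A <;> simp [mixY, hq]
        · by_cases hq : q ∈ A <;> simp [mixY, hq]
      right_inv := by
        rintro ⟨y, y'⟩
        ext q
        · by_cases hq : q ∈ A <;> simp [mixY, hq]
        · by_cases hq : q ∈ A <;> simp [mixY, hq] }
  have h2 : ∑ p : (Q → Bool) × (Q → Bool), f p.1 * g p.2 =
      ∑ p : (Q → Bool) × (Q → Bool), f (e p).1 * g (e p).1 := by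
    refine Finset.sum_congr rfl (fun p _ => ?_)
    have e1 : f (e p).1 = f p.1 := by
      apply hf
      intro q hq
      show mixY A p.1 p.2 q = p.1 q
      simp [mixY, hq]
    have e2 : g (e p).1 = g p.2 := by
      apply hg
      intro q hq
      show mixY A p.1 p.2 q = p.2 q
      have : q ∉ A := fun h => Finset.disjoint_left.mp hAB h hq
      simp [mixY, this]
    rw [e1, e2]
  have h3 : ∑ p : (Q → Bool) × (Q → Bool), f (e p).1 * g (e p).1 =
      ∑ p : (Q → Bool) × (Q → Bool), f p.1 * g p.1 :=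
    Equiv.sum_comp e (fun p => f p.1 * g p.1)
  have h4 : ∑ p : (Q → Bool) × (Q → Bool), f p.1 * g p.1 =
      (2 : ℝ) ^ Fintype.card Q * ∑ y, f y * g y := by
    rw [Fintype.sum_prod_type, Finset.mul_sum]
    refine Finset.sum_congr rfl (fun y _ => ?_)
    show ∑ _y1 : Q → Bool, f y * g y = _
    rw [Finset.sum_const, Finset.card_univ, Fintype.card_fun, nsmul_eq_mul]
    simp
  rw [h1, h2, h3, h4]

/-- Independence of functions that depend on disjoint sets of coordinates. -/
theorem WS_mul_of_indep (A B : Finset Q) (hAB : Disjoint A B) {f g : (Q → Bool) → ℝ}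
    (hf : ∀ y y', (∀ q ∈ A, y q = y' q) → f y = f y')
    (hg : ∀ y y', (∀ q ∈ B, y q = y' q) → g y = g y') :
    WS (A ∪ B) (fun y => f y * g y) = WS A f * WS B g := by
  unfold WS
  simp only [smul_eq_mul]
  have h1 := sum_mul_of_indep A B hAB hf hg
  have hc : ((A ∪ B)ᶜ).card + Fintype.card Q = (Aᶜ).card + (Bᶜ).card := by
    have h2 := Finset.card_union_of_disjoint hAB
    have h3 := Finset.card_compl A
    have h4 := Finset.card_compl B
    have h5 := Finset.card_compl (A ∪ B)
    have h6 := Finset.card_le_univ A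
    have h7 := Finset.card_le_univ B
    have h8 := Finset.card_le_univ (A ∪ B)
    omega
  have h2 : (2 : ℝ) ^ ((A ∪ B)ᶜ).card * (2 : ℝ) ^ Fintype.card Q =
      (2 : ℝ) ^ (Aᶜ).card * (2 : ℝ) ^ (Bᶜ).card := by
    rw [← pow_add, ← pow_add, hc]
  have hne1 : ((2 : ℝ) ^ ((A ∪ B)ᶜ).card) ≠ 0 := by positivity
  have hne2 : ((2 : ℝ) ^ (Aᶜ).card) ≠ 0 := by positivity
  have hne3 : ((2 : ℝ) ^ (Bᶜ).card) ≠ 0 := by positivity
  have hne4 : ((2 : ℝ) ^ Fintype.card Q) ≠ 0 := by positivity
  have h9 : ((2 : ℝ) ^ (Aᶜ).card)⁻¹ * ((2 : ℝ) ^ (Bᶜ).card)⁻¹ * (2 : ℝ) ^ Fintype.card Q =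
      ((2 : ℝ) ^ ((A ∪ B)ᶜ).card)⁻¹ := by
    field_simp
    linarith
  calc ((2 : ℝ) ^ ((A ∪ B)ᶜ).card)⁻¹ * ∑ y, f y * g y
      = ((2 : ℝ) ^ (Aᶜ).card)⁻¹ * ((2 : ℝ) ^ (Bᶜ).card)⁻¹ *
          ((2 : ℝ) ^ Fintype.card Q * ∑ y, f y * g y) := by
        rw [← h9]; ring
    _ = _ := by rw [h1]; ring

/-- `WS` on the empty set of a function that does not depend on anything. -/
theorem WS_empty_const (c : ℝ) : WS (∅ : Finset Q) (fun _ => c) = c := by
  unfold WS
  rw [Finset.sum_const, Finset.card_univ, Fintype.card_fun]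
  simp

/-- Sum of a product of one-site operators over assignments. -/
theorem sum_tensorMat (B : Q → Bool → Matrix Bool Bool ℂ) :
    ∑ y : Q → Bool, tensorMat (fun q => B q (y q)) = tensorMat (fun q => B q false + B q true) := by
  ext s t
  simp only [Matrix.sum_apply, tensorMat, Matrix.add_apply]
  have h := (Finset.prod_univ_sum (fun _ : Q => (Finset.univ : Finset Bool))
    (fun q b => B q b (s q) (t q)))
  rw [Fintype.piFinset_univ] at h
  rw [← h]
  refine Finset.prod_congr rfl (fun q _ => ?_)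
  simp [Fintype.sum_bool, add_comm]

/-- Resolution of the identity. -/
theorem WS_kb_pin {T : Finset Q} {r : Q → Bool → ℂ} (h : UnitOn T r) :
    WS T (fun y => kb T (pinKet r y) (pinKet r y)) = 1 := by
  unfold WS kb
  let B : Q → Bool → Matrix Bool Bool ℂ := fun q b => if q ∈ T then
    (if b then ketbra (r q) (r q) else ketbra (perp (r q)) (perp (r q))) else 1
  have h1 : ∀ y : Q → Bool, tensorMat (fun q => if q ∈ T then
      ketbra (pinKet r y q) (pinKet r y q) else 1) = tensorMat (fun q => B q (y q)) := by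
    intro y
    apply tensorMat_congr
    intro q
    by_cases hq : q ∈ T
    · by_cases hy : y q <;> simp [hq, hy, pinKet, B]
    · simp [hq, B]
  rw [Finset.sum_congr rfl (fun y _ => h1 y), sum_tensorMat]
  have h2 : ∀ q, B q false + B q true = (if q ∈ T then (1 : ℂ) else 2) • (1 : Matrix Bool Bool ℂ) := by
    intro q
    by_cases hq : q ∈ T
    · simp only [B, hq, if_true, Bool.false_eq_true, if_false, one_smul]
      rw [add_comm]
      exact ketbra_add_perp (h q hq)
    · simp only [B, hq, if_false]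
      rw [← two_smul ℂ]
  rw [tensorMat_congr h2, tensorMat_smul, tensorMat_one]
  have h3 : ∏ q, (if q ∈ T then (1 : ℂ) else 2) = (2 : ℂ) ^ (Tᶜ).card := by
    rw [Finset.prod_ite]
    simp only [Finset.prod_const_one, one_mul, Finset.prod_const]
    have : (Finset.univ.filter (fun x => x ∉ T)) = Tᶜ := by
      ext q; simp
    rw [this]
  rw [h3]
  ext s t
  simp only [Matrix.smul_apply, smul_eq_mul, Complex.real_smul]
  push_cast
  have hne : (2 : ℂ) ^ (Tᶜ).card ≠ 0 := by positivity
  rw [← mul_assoc, inv_mul_cancel₀ hne, one_mul]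

section WSops

theorem WS_mul_left (T : Finset Q) (Z : MM Q) (F : (Q → Bool) → MM Q) :
    Z * WS T F = WS T (fun y => Z * F y) := by
  unfold WS
  rw [Matrix.mul_smul, Finset.mul_sum]

theorem WS_mul_right (T : Finset Q) (Z : MM Q) (F : (Q → Bool) → MM Q) :
    WS T F * Z = WS T (fun y => F y * Z) := by
  unfold WS
  rw [Matrix.smul_mul, Finset.sum_mul]

theorem trace_WS (T : Finset Q) (F : (Q → Bool) → MM Q) :
    (WS T F).trace = WS T (fun y => (F y).trace) := by
  unfold WS
  rw [Matrix.trace_smul, Matrix.trace_sum]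

theorem re_WS (T : Finset Q) (F : (Q → Bool) → ℂ) :
    (WS T F).re = WS T (fun y => (F y).re) := by
  unfold WS
  rw [Complex.smul_re, Complex.re_sum]

theorem norm_WS_le (T : Finset Q) (F : (Q → Bool) → ℂ) :
    ‖WS T F‖ ≤ WS T (fun y => ‖F y‖) := by
  unfold WS
  rw [norm_smul]
  have h : ‖((2 : ℝ) ^ (Tᶜ).card)⁻¹‖ = ((2 : ℝ) ^ (Tᶜ).card)⁻¹ := by
    rw [Real.norm_of_nonneg (by positivity)]
  rw [h, smul_eq_mul]
  gcongr
  exact norm_sum_le _ _

theorem WS_smul_const (T : Finset Q) (F : (Q → Bool) → ℝ) (Pp : MM Q) :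
    WS T (fun y => ((F y : ℝ) : ℂ) • Pp) = ((WS T F : ℝ) : ℂ) • Pp := by
  unfold WS
  rw [← Finset.sum_smul]
  ext s t
  simp [Matrix.smul_apply, Matrix.sum_apply, Finset.sum_mul, Finset.mul_sum, mul_assoc]

theorem WS_psd (T : Finset Q) {F : (Q → Bool) → MM Q} (h : ∀ y, (F y).PosSemidef) :
    (WS T F).PosSemidef := by
  unfold WS
  have h1 : (∑ y, F y).PosSemidef := Matrix.posSemidef_sum _ (fun y _ => h y)
  have h2 : (0 : ℝ) ≤ ((2 : ℝ) ^ (Tᶜ).card)⁻¹ := by positivity
  have h3 : ((2 : ℝ) ^ (Tᶜ).card)⁻¹ • (∑ y, F y) =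
      (((((2 : ℝ) ^ (Tᶜ).card)⁻¹ : ℝ)) : ℂ) • (∑ y, F y) := by
    ext s t
    simp [Matrix.smul_apply]
  rw [h3]
  refine h1.smul ?_
  exact_mod_cast h2

end WSops

section TraceKb

theorem trace_tensorMat (B : Q → Matrix Bool Bool ℂ) :
    (tensorMat B).trace = ∏ q, (B q).trace := by
  simp only [Matrix.trace, Matrix.diag_apply, tensorMat]
  have h := (Finset.prod_univ_sum (fun _ : Q => (Finset.univ : Finset Bool))
    (fun q b => B q b b))
  rw [Fintype.piFinset_univ] at h
  exact h.symm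

theorem trace_ketbra (a b : Bool → ℂ) : (ketbra a b).trace = ip b a := by
  simp [Matrix.trace, ketbra, ip, mul_comm]

theorem trace_kb (T : Finset Q) (a b : Q → Bool → ℂ) :
    (kb T a b).trace = (∏ q ∈ T, ip (b q) (a q)) * (2 : ℂ) ^ (Tᶜ).card := by
  unfold kb
  rw [trace_tensorMat]
  have h : ∀ q, (if q ∈ T then ketbra (a q) (b q) else (1 : Matrix Bool Bool ℂ)).trace =
      (if q ∈ T then ip (b q) (a q) else 1) * (if q ∈ T then 1 else 2) := by
    intro q
    by_cases hq : q ∈ T
    · simp [hq, trace_ketbra]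
    · simp [hq, Matrix.trace]
  rw [Finset.prod_congr rfl (fun q _ => h q), Finset.prod_mul_distrib, Finset.prod_ite_mem]
  simp only [Finset.univ_inter]
  congr 1
  rw [Finset.prod_ite]
  simp only [Finset.prod_const_one, one_mul, Finset.prod_const]
  have : (Finset.univ.filter (fun x => x ∉ T)) = Tᶜ := by
    ext q; simp
  rw [this]

theorem trace_kb_unit {T : Finset Q} {a : Q → Bool → ℂ} (h : UnitOn T a) :
    (kb T a a).trace = (2 : ℂ) ^ (Tᶜ).card := by
  rw [trace_kb, Finset.prod_congr rfl h]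
  simp

theorem kb_ne_zero {T : Finset Q} {a : Q → Bool → ℂ} (h : UnitOn T a) : kb T a a ≠ 0 := by
  intro h0
  have h1 := trace_kb_unit h
  rw [h0, Matrix.trace_zero] at h1
  exact (pow_ne_zero _ (two_ne_zero)) h1.symm

theorem kb_hermitian (T : Finset Q) (a : Q → Bool → ℂ) : (kb T a a)ᴴ = kb T a a :=
  kb_conjTranspose T a a

theorem kb_psd {T : Finset Q} {a : Q → Bool → ℂ} (h : UnitOn T a) : (kb T a a).PosSemidef := by
  have h1 := posSemidef_conjTranspose_mul_self (kb T a a)
  rwa [kb_hermitian, kb_idem h] at h1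

theorem norm_kb_eq_one {T : Finset Q} {a : Q → Bool → ℂ} (h : UnitOn T a) : ‖kb T a a‖ = 1 := by
  have h1 := Matrix.l2_opNorm_conjTranspose_mul_self (kb T a a)
  rw [kb_hermitian, kb_idem h] at h1
  have h2 : ‖kb T a a‖ ≠ 0 := by
    rw [norm_ne_zero_iff]
    exact kb_ne_zero h
  have h3 : ‖kb T a a‖ * ‖kb T a a‖ = ‖kb T a a‖ * 1 := by rw [mul_one]; exact h1.symm
  exact mul_left_cancel₀ h2 h3

/-- Changing a rank one projector to another one on the same sites does not change a functional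
that is trivial on those sites. -/
theorem trace_kb_swap {C : Finset Q} {a b : Q → Bool → ℂ} (ha : UnitOn C a) (hb : UnitOn C b)
    {Z : MM Q} (hZ : Z ∈ SpanOn Cᶜ) : (kb C a a * Z).trace = (kb C b b * Z).trace := by
  have h1 : kb C a b * kb C b a = kb C a a := by
    rw [kb_mul, Finset.prod_congr rfl hb]
    simp
  have h2 : kb C b a * kb C a b = kb C b b := by
    rw [kb_mul, Finset.prod_congr rfl ha]
    simp
  have h3 : Z * kb C a b = kb C a b * Z :=
    commute_spanOn (disjoint_compl_left) hZ (kb_mem_spanOn (Finset.Subset.refl _) _ _)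
  calc (kb C a a * Z).trace = (kb C a b * (kb C b a * Z)).trace := by
        rw [← h1, Matrix.mul_assoc]
    _ = (kb C b a * Z * kb C a b).trace := Matrix.trace_mul_comm _ _
    _ = (kb C b a * (Z * kb C a b)).trace := by rw [Matrix.mul_assoc]
    _ = (kb C b a * (kb C a b * Z)).trace := by rw [h3]
    _ = (kb C b b * Z).trace := by rw [← Matrix.mul_assoc, h2]

end TraceKb

section KetOp

theorem ketbra_sandwich (a : Bool → ℂ) (B : Matrix Bool Bool ℂ) :
    ketbra a a * B * ketbra a a = (star a ⬝ᵥ (B *ᵥ a)) • ketbra a a := by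
  ext i j
  simp only [Matrix.mul_apply, ketbra, Matrix.smul_apply, smul_eq_mul, dotProduct, Matrix.mulVec,
    Fintype.sum_bool, Pi.star_apply]
  ring

theorem kb_sandwich (C : Finset Q) (a : Q → Bool → ℂ) {Y : MM Q} (hY : Y ∈ SpanOn C) :
    ∃ z : ℂ, kb C a a * Y * kb C a a = z • kb C a a := by
  induction hY using Submodule.span_induction with
  | mem Y hY =>
    obtain ⟨B, hB, rfl⟩ := hY
    by_cases hC : ∀ q ∈ C, True
    · refine ⟨(∏ q ∈ C, (star (a q) ⬝ᵥ (B q *ᵥ a q))), ?_⟩
      unfold kb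
      rw [tensorMat_mul, tensorMat_mul]
      have h : ∀ q, (if q ∈ C then ketbra (a q) (a q) else 1) * B q *
          (if q ∈ C then ketbra (a q) (a q) else 1) =
          (if q ∈ C then star (a q) ⬝ᵥ (B q *ᵥ a q) else 1) •
            (if q ∈ C then ketbra (a q) (a q) else (1 : Matrix Bool Bool ℂ)) := by
        intro q
        by_cases hq : q ∈ C
        · simp only [hq, if_true, ketbra_sandwich]
        · simp [hq, hB q hq]
      rw [tensorMat_congr h, tensorMat_smul]
      congr 1
      rw [Finset.prod_ite_mem]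
      simp
    · exact absurd (fun _ _ => trivial) hC
  | zero => exact ⟨0, by simp⟩
  | add x y _ _ hx hy =>
    obtain ⟨z1, h1⟩ := hx
    obtain ⟨z2, h2⟩ := hy
    refine ⟨z1 + z2, ?_⟩
    rw [Matrix.mul_add, Matrix.add_mul, h1, h2, add_smul]
  | smul c x _ hx =>
    obtain ⟨z1, h1⟩ := hx
    refine ⟨c * z1, ?_⟩
    rw [Matrix.mul_smul, Matrix.smul_mul, h1, smul_smul]

/-- Ket operators on `C`: operators of the form `|u⟩⟨e|` on the sites `C`, identity elsewhere. -/
def IsKet (C : Finset Q) (X : MM Q) : Prop := X ∈ SpanOn C ∧ X * kb C eK eK = X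

theorem IsKet.star_mul {C : Finset Q} {X : MM Q} (h : IsKet C X) :
    Xᴴ * X = ((‖X‖ ^ 2 : ℝ) : ℂ) • kb C eK eK := by
  obtain ⟨hm, hr⟩ := h
  have hιh : (kb C eK eK : MM Q)ᴴ = kb C eK eK := kb_hermitian C eK
  have h1 : Xᴴ * X = kb C eK eK * (Xᴴ * X) * kb C eK eK := by
    have h2 : Xᴴ = kb C eK eK * Xᴴ := by
      have := congrArg conjTranspose hr
      rw [conjTranspose_mul, hιh] at this
      exact this.symm
    calc Xᴴ * X = (kb C eK eK * Xᴴ) * (X * kb C eK eK) := by rw [← h2, hr]
      _ = _ := by simp only [Matrix.mul_assoc]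
  obtain ⟨z, hz⟩ := kb_sandwich C eK (mul_mem_spanOn (conjTranspose_mem_spanOn hm) hm)
  rw [hz] at h1
  -- the scalar
  have hun : UnitOn C (eK : Q → Bool → ℂ) := eK_unit C
  have h3 : ‖Xᴴ * X‖ = ‖X‖ * ‖X‖ := Matrix.l2_opNorm_conjTranspose_mul_self X
  have h4 : ‖z • kb C eK eK‖ = ‖z‖ := by
    rw [norm_smul, norm_kb_eq_one hun, mul_one]
  have h5 : ‖z‖ = ‖X‖ ^ 2 := by
    rw [← h4, ← h1, h3, sq]
  have h6 : (0 : ℂ) ≤ (Xᴴ * X).trace := (posSemidef_conjTranspose_mul_self X).trace_nonneg
  rw [h1, Matrix.trace_smul, trace_kb_unit hun, smul_eq_mul] at h6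
  have h7 : (0 : ℂ) ≤ z := by
    have hw : (2 : ℂ) ^ (Cᶜ).card = (((2 : ℝ) ^ (Cᶜ).card : ℝ) : ℂ) := by
      push_cast
      rfl
    rw [hw] at h6
    have hpos : (0 : ℝ) < (2 : ℝ) ^ (Cᶜ).card := by positivity
    rw [Complex.le_def] at h6 ⊢
    simp only [Complex.zero_re, Complex.zero_im, Complex.mul_re, Complex.mul_im, Complex.ofReal_re,
      Complex.ofReal_im, mul_zero, sub_zero, add_zero, zero_add] at h6 ⊢
    constructor
    · exact nonneg_of_mul_nonneg_left h6.1 hpos
    · have h11 := h6.2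
      have h12 : ((2 : ℝ) ^ (Cᶜ).card) * z.im = 0 := by linarith
      rcases mul_eq_zero.mp h12 with h13 | h13
      · exact absurd h13 hpos.ne'
      · exact h13.symm
  have h9 : z = ((‖X‖ ^ 2 : ℝ) : ℂ) := by
    have h10 := norm_trace_eq_re_of_nonneg h7
    apply Complex.ext
    · simp only [Complex.ofReal_re]
      rw [← h10, h5]
    · have := (Complex.le_def.mp h7).2
      simp only [Complex.ofReal_im]
      simpa using this.symm
  rw [h1, h9]

end KetOp

section Reset

/-- The Kraus operators of the reset map on `A`, resetting to the state `w`. -/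
noncomputable def resetV (A : Finset Q) (w r : Q → Bool → ℂ) (k : Q → Bool) : MM Q :=
  kb A w (pinKet r k)

theorem resetV_star_mul {A : Finset Q} {w : Q → Bool → ℂ} (hw : UnitOn A w) (r : Q → Bool → ℂ)
    (k : Q → Bool) : (resetV A w r k)ᴴ * resetV A w r k = kb A (pinKet r k) (pinKet r k) := by
  unfold resetV
  rw [kb_conjTranspose, kb_mul, Finset.prod_congr rfl hw]
  simp

/-- The reset map on `A`. -/
noncomputable def resetMap (A : Finset Q) (w r : Q → Bool → ℂ) (X : MM Q) : MM Q :=
  WS A (fun k => resetV A w r k * X * (resetV A w r k)ᴴ)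

theorem resetMap_null {A : Finset Q} {w r : Q → Bool → ℂ} (hw : UnitOn A w) (hr : UnitOn A r)
    {Z : MM Q} (hZ : Z ∈ SpanOn Aᶜ) (X : MM Q) :
    (Z * resetMap A w r X).trace = (Z * X).trace := by
  unfold resetMap
  rw [WS_mul_left, trace_WS]
  have h1 : ∀ k, (Z * (resetV A w r k * X * (resetV A w r k)ᴴ)).trace =
      (Z * kb A (pinKet r k) (pinKet r k) * X).trace := by
    intro k
    have h2 : Z * (resetV A w r k)ᴴ = (resetV A w r k)ᴴ * Z :=
      commute_spanOn disjoint_compl_left hZ (conjTranspose_mem_spanOn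
        (kb_mem_spanOn (Finset.Subset.refl _) _ _))
    calc (Z * (resetV A w r k * X * (resetV A w r k)ᴴ)).trace
        = ((Z * (resetV A w r k * X)) * (resetV A w r k)ᴴ).trace := by
          simp only [Matrix.mul_assoc]
      _ = ((resetV A w r k)ᴴ * (Z * (resetV A w r k * X))).trace := Matrix.trace_mul_comm _ _
      _ = ((resetV A w r k)ᴴ * Z * (resetV A w r k * X)).trace := by rw [Matrix.mul_assoc]
      _ = (Z * (resetV A w r k)ᴴ * (resetV A w r k * X)).trace := by rw [h2]
      _ = (Z * ((resetV A w r k)ᴴ * resetV A w r k) * X).trace := by simp only [Matrix.mul_assoc]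
      _ = _ := by rw [resetV_star_mul hw]
  simp_rw [h1]
  rw [← trace_WS, ← WS_mul_right, ← WS_mul_left, WS_kb_pin hr, Matrix.mul_one]

theorem reset_norm_sum {C A : Finset Q} {X : MM Q} (hX : IsKet C X) (hA : A ⊆ C)
    {w r : Q → Bool → ℂ} (hw : UnitOn A w) (hr : UnitOn A r) :
    WS A (fun k => ‖resetV A w r k * X‖ ^ 2) = ‖X‖ ^ 2 := by
  have hY : ∀ k, IsKet C (resetV A w r k * X) := by
    intro k
    refine ⟨mul_mem_spanOn (kb_mem_spanOn hA _ _) hX.1, ?_⟩
    rw [Matrix.mul_assoc, hX.2]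
  have h1 : ∀ k, ((‖resetV A w r k * X‖ ^ 2 : ℝ) : ℂ) • kb C eK eK =
      Xᴴ * kb A (pinKet r k) (pinKet r k) * X := by
    intro k
    rw [← (hY k).star_mul, conjTranspose_mul, ← resetV_star_mul hw r k]
    simp only [Matrix.mul_assoc]
  have h2 : ((WS A (fun k => ‖resetV A w r k * X‖ ^ 2) : ℝ) : ℂ) • kb C eK eK = Xᴴ * X := by
    rw [← WS_smul_const]
    simp_rw [h1]
    rw [← WS_mul_right, ← WS_mul_left, WS_kb_pin hr, Matrix.mul_one]
  rw [hX.star_mul] at h2
  have h3 : kb C eK eK ≠ (0 : MM Q) := kb_ne_zero (eK_unit C)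
  have h4 := smul_left_injective ℂ h3 h2
  exact_mod_cast h4

theorem reset_le {C A : Finset Q} {X : MM Q} (hX : IsKet C X) (hA : A ⊆ C)
    {w r : Q → Bool → ℂ} (hw : UnitOn A w) (hr : UnitOn A r) {Pp : MM Q} (hPh : Ppᴴ = Pp)
    (hPi : Pp * Pp = Pp) (hP : ∀ k, Pp * (resetV A w r k * X) = resetV A w r k * X) :
    (((‖X‖ ^ 2 : ℝ) : ℂ) • Pp - resetMap A w r (X * Xᴴ)).PosSemidef := by
  have h1 : ∀ k, (((‖resetV A w r k * X‖ ^ 2 : ℝ) : ℂ) • Pp -
      (resetV A w r k * X) * (resetV A w r k * X)ᴴ).PosSemidef :=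
    fun k => psd_scale_sub hPh hPi (hP k)
  have h2 := WS_psd A h1
  rw [WS_sub, WS_smul_const, reset_norm_sum hX hA hw hr] at h2
  have h3 : resetMap A w r (X * Xᴴ) =
      WS A (fun k => (resetV A w r k * X) * (resetV A w r k * X)ᴴ) := by
    unfold resetMap
    congr 1
    funext k
    rw [conjTranspose_mul]
    simp only [Matrix.mul_assoc]
  rwa [h3]

end Reset

end Vale.Agent.Lib.P368

/-!
Rows: the operators coming from the second entangling layer.
-/

set_option linter.unusedSectionVars false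
set_option linter.unusedSimpArgs false
set_option linter.unusedVariables false

namespace Vale.Agent.Lib.P368

open Matrix
open scoped Matrix.Norms.L2Operator ComplexConjugate ComplexOrder

section Rows

variable {Q : Type*} [Fintype Q] [DecidableEq Q]

/-- A row: two unit vectors on the sites `S` (as ket operators), and the sites `U` which decide
between them. -/
structure Row (Q : Type*) [Fintype Q] [DecidableEq Q] where
  S : Finset Q
  U : Finset Q
  N0 : MM Q
  N1 : MM Q
  hN0 : IsKet S N0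
  hN1 : IsKet S N1
  unit0 : N0ᴴ * N0 = kb S eK eK
  unit1 : N1ᴴ * N1 = kb S eK eK
  disj : Disjoint S U

/-- The sites of a row. -/
def Row.sites (g : Row Q) : Finset Q := g.S ∪ g.U

/-- The projector on the first vector. -/
noncomputable def Row.E0 (g : Row Q) : MM Q := g.N0 * g.N0ᴴ

/-- The projector on the second vector. -/
noncomputable def Row.E1 (g : Row Q) : MM Q := g.N1 * g.N1ᴴ

theorem projector_of_unit {S : Finset Q} {N : MM Q} (hN : IsKet S N) (hu : Nᴴ * N = kb S eK eK) :
    (N * Nᴴ)ᴴ = N * Nᴴ ∧ (N * Nᴴ) * (N * Nᴴ) = N * Nᴴ := by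
  constructor
  · rw [conjTranspose_mul, conjTranspose_conjTranspose]
  · calc (N * Nᴴ) * (N * Nᴴ) = N * (Nᴴ * N) * Nᴴ := by simp only [Matrix.mul_assoc]
      _ = N * Nᴴ := by rw [hu, hN.2]

theorem norm_of_unit {S : Finset Q} {N : MM Q} (hN : IsKet S N) (hu : Nᴴ * N = kb S eK eK) :
    ‖N‖ = 1 := by
  have h1 := hN.star_mul
  rw [hu] at h1
  have h3 : kb S eK eK ≠ (0 : MM Q) := kb_ne_zero (eK_unit S)
  have h4 : (1 : ℂ) • (kb S eK eK : MM Q) = ((‖N‖ ^ 2 : ℝ) : ℂ) • kb S eK eK := by
    rw [one_smul]; exact h1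
  have h5 := smul_left_injective ℂ h3 h4
  have h6 : (‖N‖ ^ 2 : ℝ) = 1 := by
    exact_mod_cast h5.symm
  have h7 := norm_nonneg N
  nlinarith

theorem projector_psd {E : MM Q} (h1 : Eᴴ = E) (h2 : E * E = E) : E.PosSemidef := by
  have h := posSemidef_conjTranspose_mul_self E
  rwa [h1, h2] at h

theorem one_sub_projector {E : MM Q} (h1 : Eᴴ = E) (h2 : E * E = E) :
    (1 - E)ᴴ = 1 - E ∧ (1 - E) * (1 - E) = 1 - E := by
  constructor
  · rw [conjTranspose_sub, conjTranspose_one, h1]
  · simp only [Matrix.mul_sub, Matrix.sub_mul, Matrix.mul_one, Matrix.one_mul, h2]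
    abel

/-- The value of the row for a fixed decision operator `P`. -/
noncomputable def Row.mix (g : Row Q) (P : MM Q) : MM Q := g.E0 * (1 - P) + g.E1 * P

/-- The row operator. -/
noncomputable def Row.W (g : Row Q) (r : Q → Bool → ℂ) : MM Q := g.mix (kb g.U r r)

theorem Row.E0_proj (g : Row Q) : g.E0ᴴ = g.E0 ∧ g.E0 * g.E0 = g.E0 :=
  projector_of_unit g.hN0 g.unit0

theorem Row.E1_proj (g : Row Q) : g.E1ᴴ = g.E1 ∧ g.E1 * g.E1 = g.E1 :=
  projector_of_unit g.hN1 g.unit1

theorem Row.E0_mem (g : Row Q) : g.E0 ∈ SpanOn g.S :=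
  mul_mem_spanOn g.hN0.1 (conjTranspose_mem_spanOn g.hN0.1)

theorem Row.E1_mem (g : Row Q) : g.E1 ∈ SpanOn g.S :=
  mul_mem_spanOn g.hN1.1 (conjTranspose_mem_spanOn g.hN1.1)

theorem Row.mix_mem (g : Row Q) {T : Finset Q} {P : MM Q} (hP : P ∈ SpanOn T) (hT : T ⊆ g.U) :
    g.mix P ∈ SpanOn (g.S ∪ T) := by
  have h1 : g.E0 ∈ SpanOn (g.S ∪ T) := spanOn_mono Finset.subset_union_left g.E0_mem
  have h2 : g.E1 ∈ SpanOn (g.S ∪ T) := spanOn_mono Finset.subset_union_left g.E1_mem
  have h3 : P ∈ SpanOn (g.S ∪ T) := spanOn_mono Finset.subset_union_right hP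
  unfold Row.mix
  exact Submodule.add_mem _ (mul_mem_spanOn h1 (Submodule.sub_mem _ (one_mem_spanOn _) h3))
    (mul_mem_spanOn h2 h3)

theorem Row.mix_psd (g : Row Q) {T : Finset Q} {P : MM Q} (hP : P ∈ SpanOn T) (hT : T ⊆ g.U)
    (hP1 : Pᴴ = P) (hP2 : P * P = P) : (g.mix P).PosSemidef ∧ (1 - g.mix P).PosSemidef := by
  have hd : Disjoint g.S T := Finset.disjoint_of_subset_right hT g.disj
  have c0 : g.E0 * P = P * g.E0 := commute_spanOn hd g.E0_mem hP
  have c1 : g.E1 * P = P * g.E1 := commute_spanOn hd g.E1_mem hP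
  obtain ⟨h3, h4⟩ := one_sub_projector hP1 hP2
  obtain ⟨h5, h6⟩ := g.E0_proj
  obtain ⟨h7, h8⟩ := g.E1_proj
  have hp0 := projector_psd h5 h6
  have hp1 := projector_psd h7 h8
  have hPp := projector_psd hP1 hP2
  have hPm := projector_psd h3 h4
  have hq0 := projector_psd (one_sub_projector h5 h6).1 (one_sub_projector h5 h6).2
  have hq1 := projector_psd (one_sub_projector h7 h8).1 (one_sub_projector h7 h8).2
  constructor
  · refine Matrix.PosSemidef.add (psd_mul_of_commute hp0 hPm ?_) (psd_mul_of_commute hp1 hPp c1)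
    simp only [Matrix.mul_sub, Matrix.sub_mul, Matrix.mul_one, Matrix.one_mul, c0]
  · have e : 1 - g.mix P = (1 - g.E0) * (1 - P) + (1 - g.E1) * P := by
      unfold Row.mix
      simp only [Matrix.mul_sub, Matrix.sub_mul, Matrix.mul_one, Matrix.one_mul]
      abel
    rw [e]
    refine Matrix.PosSemidef.add (psd_mul_of_commute hq0 hPm ?_) (psd_mul_of_commute hq1 hPp ?_)
    · simp only [Matrix.mul_sub, Matrix.sub_mul, Matrix.mul_one, Matrix.one_mul, c0]
      abel
    · simp only [Matrix.mul_sub, Matrix.sub_mul, Matrix.mul_one, Matrix.one_mul, c1]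

/-- A reset of part of `S` bounds the row by a projector. -/
theorem Row.reset_mix_le (g : Row Q) {A : Finset Q} (hA : A ⊆ g.S) {r : Q → Bool → ℂ}
    (hr : UnitOn A r) {T : Finset Q} {P : MM Q} (hP : P ∈ SpanOn T) (hT : T ⊆ g.U)
    (hP1 : Pᴴ = P) (hP2 : P * P = P) :
    (kb A eK eK - resetMap A eK r (g.mix P)).PosSemidef := by
  have hw : UnitOn A (eK : Q → Bool → ℂ) := eK_unit A
  have hd : Disjoint g.S T := Finset.disjoint_of_subset_right hT g.disj
  have hdA : Disjoint A T := Finset.disjoint_of_subset_left hA hd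
  have hI1 : (kb A eK eK : MM Q)ᴴ = kb A eK eK := kb_hermitian A eK
  have hI2 : (kb A eK eK : MM Q) * kb A eK eK = kb A eK eK := kb_idem hw
  have hrange : ∀ (N : MM Q) k, (kb A eK eK : MM Q) * (resetV A eK r k * N) = resetV A eK r k * N := by
    intro N k
    unfold resetV
    rw [← Matrix.mul_assoc, kb_mul, Finset.prod_congr rfl hw]
    simp
  have h0 := reset_le g.hN0 hA hw hr hI1 hI2 (hrange _)
  have h1 := reset_le g.hN1 hA hw hr hI1 hI2 (hrange _)
  rw [norm_of_unit g.hN0 g.unit0] at h0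
  rw [norm_of_unit g.hN1 g.unit1] at h1
  simp only [one_pow, Complex.ofReal_one, one_smul] at h0 h1
  -- commuting `P` out of the reset map
  have hcomm : ∀ k, P * resetV A eK r k = resetV A eK r k * P := fun k =>
    (commute_spanOn hdA (kb_mem_spanOn (Finset.Subset.refl _) _ _) hP).symm
  have hcomm' : ∀ k, P * (resetV A eK r k)ᴴ = (resetV A eK r k)ᴴ * P := fun k =>
    (commute_spanOn hdA (conjTranspose_mem_spanOn (kb_mem_spanOn (Finset.Subset.refl _) _ _)) hP).symm
  have hres : ∀ (X : MM Q), resetMap A eK r (X * P) = resetMap A eK r X * P := by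
    intro X
    unfold resetMap
    rw [WS_mul_right]
    congr 1
    funext k
    calc resetV A eK r k * (X * P) * (resetV A eK r k)ᴴ
        = resetV A eK r k * X * (P * (resetV A eK r k)ᴴ) := by simp only [Matrix.mul_assoc]
      _ = resetV A eK r k * X * ((resetV A eK r k)ᴴ * P) := by rw [hcomm']
      _ = _ := by simp only [Matrix.mul_assoc]
  have hres_add : ∀ (X Y : MM Q), resetMap A eK r (X + Y) = resetMap A eK r X + resetMap A eK r Y := by
    intro X Y
    unfold resetMap
    rw [← WS_add]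
    congr 1
    funext k
    rw [Matrix.mul_add, Matrix.add_mul]
  have hres_sub : ∀ (X Y : MM Q), resetMap A eK r (X - Y) = resetMap A eK r X - resetMap A eK r Y := by
    intro X Y
    unfold resetMap
    rw [← WS_sub]
    congr 1
    funext k
    rw [Matrix.mul_sub, Matrix.sub_mul]
  have e : resetMap A eK r (g.mix P) = resetMap A eK r g.E0 * (1 - P) + resetMap A eK r g.E1 * P := by
    unfold Row.mix
    rw [hres_add, Matrix.mul_sub, Matrix.mul_one, hres_sub, hres, hres, Matrix.mul_sub, Matrix.mul_one]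
  rw [e]
  have e2 : (kb A eK eK : MM Q) - (resetMap A eK r g.E0 * (1 - P) + resetMap A eK r g.E1 * P) =
      (kb A eK eK - resetMap A eK r g.E0) * (1 - P) + (kb A eK eK - resetMap A eK r g.E1) * P := by
    simp only [Matrix.mul_sub, Matrix.sub_mul, Matrix.mul_one]
    abel
  rw [e2]
  -- membership of the reset operators
  have hmem : ∀ X ∈ SpanOn g.S, resetMap A eK r X ∈ SpanOn g.S := by
    intro X hX
    unfold resetMap WS
    refine Submodule.smul_of_tower_mem _ _ (Submodule.sum_mem _ (fun k _ => ?_))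
    refine mul_mem_spanOn (mul_mem_spanOn (kb_mem_spanOn hA _ _) hX)
      (conjTranspose_mem_spanOn (kb_mem_spanOn hA _ _))
  have hm0 : (kb A eK eK - resetMap A eK r g.E0 : MM Q) ∈ SpanOn g.S :=
    Submodule.sub_mem _ (kb_mem_spanOn hA _ _) (hmem _ g.E0_mem)
  have hm1 : (kb A eK eK - resetMap A eK r g.E1 : MM Q) ∈ SpanOn g.S :=
    Submodule.sub_mem _ (kb_mem_spanOn hA _ _) (hmem _ g.E1_mem)
  obtain ⟨h3, h4⟩ := one_sub_projector hP1 hP2
  have hPp := projector_psd hP1 hP2
  have hPm := projector_psd h3 h4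
  refine Matrix.PosSemidef.add (psd_mul_of_commute h0 hPm ?_) (psd_mul_of_commute h1 hPp ?_)
  · exact commute_spanOn hd hm0 (Submodule.sub_mem _ (one_mem_spanOn _) hP)
  · exact commute_spanOn hd hm1 hP

theorem kb_congr {T : Finset Q} {a a' b b' : Q → Bool → ℂ} (h1 : ∀ q ∈ T, a q = a' q)
    (h2 : ∀ q ∈ T, b q = b' q) : kb T a b = kb T a' b' := by
  unfold kb
  apply tensorMat_congr
  intro q
  by_cases hq : q ∈ T
  · simp [hq, h1 q hq, h2 q hq]
  · simp [hq]

theorem pinKet_congr {r : Q → Bool → ℂ} {y y' : Q → Bool} {T : Finset Q}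
    (h : ∀ q ∈ T, y q = y' q) : ∀ q ∈ T, pinKet r y q = pinKet r y' q := by
  intro q hq
  simp only [pinKet, h q hq]

theorem kb_pin_absorb {A T : Finset Q} (hA : A ⊆ T) {r : Q → Bool → ℂ} (hr : UnitOn A r)
    (y : Q → Bool) :
    kb A r r * kb T (pinKet r y) (pinKet r y) =
      (if ∀ q ∈ A, y q = true then (1 : ℂ) else 0) • kb T (pinKet r y) (pinKet r y) := by
  unfold kb
  rw [tensorMat_mul]
  have h : ∀ q, (if q ∈ A then ketbra (r q) (r q) else 1) *
      (if q ∈ T then ketbra (pinKet r y q) (pinKet r y q) else 1) =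
      (if q ∈ A then (if y q = true then (1 : ℂ) else 0) else 1) •
        (if q ∈ T then ketbra (pinKet r y q) (pinKet r y q) else (1 : Matrix Bool Bool ℂ)) := by
    intro q
    by_cases hq : q ∈ A
    · have hqT : q ∈ T := hA hq
      by_cases hy : y q = true
      · simp only [hq, hqT, if_true, hy, pinKet, ketbra_mul, hr q hq, one_smul]
      · have hy' : y q = false := by simpa using hy
        simp only [hq, hqT, if_true, pinKet, hy', Bool.false_eq_true, if_false, ketbra_mul,
          ip_perp_right, zero_smul]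
    · simp [hq]
  rw [tensorMat_congr h, tensorMat_smul]
  congr 1
  rw [Finset.prod_ite_mem, Finset.univ_inter, Finset.prod_ite_zero]
  simp

/-- The flag of a row for an assignment of the pinned sites. -/
noncomputable def pinF (U Ub : Finset Q) (y : Q → Bool) : ℂ :=
  if ∀ q ∈ U ∩ Ub, y q = true then 1 else 0

/-- The decision operator left after pinning. -/
noncomputable def Row.Dp (g : Row Q) (r : Q → Bool → ℂ) (Ub : Finset Q) (y : Q → Bool) : MM Q :=
  pinF g.U Ub y • kb (g.U \ Ub) r r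

/-- The row operator after pinning. -/
noncomputable def Row.G (g : Row Q) (r : Q → Bool → ℂ) (Ub : Finset Q) (y : Q → Bool) : MM Q :=
  g.mix (g.Dp r Ub y)

theorem pinF_cases (U Ub : Finset Q) (y : Q → Bool) : pinF U Ub y = 0 ∨ pinF U Ub y = 1 := by
  unfold pinF
  by_cases h : ∀ q ∈ U ∩ Ub, y q = true
  · right; exact if_pos h
  · left; exact if_neg h

theorem Row.Dp_mem (g : Row Q) (r : Q → Bool → ℂ) (Ub : Finset Q) (y : Q → Bool) :
    g.Dp r Ub y ∈ SpanOn (g.U \ Ub) :=
  Submodule.smul_mem _ _ (kb_mem_spanOn (Finset.Subset.refl _) _ _)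

theorem Row.Dp_proj (g : Row Q) {r : Q → Bool → ℂ} (hr : ∀ q, ip (r q) (r q) = 1) (Ub : Finset Q)
    (y : Q → Bool) : (g.Dp r Ub y)ᴴ = g.Dp r Ub y ∧ g.Dp r Ub y * g.Dp r Ub y = g.Dp r Ub y := by
  have hu : UnitOn (g.U \ Ub) r := fun q _ => hr q
  unfold Row.Dp
  rcases pinF_cases g.U Ub y with h | h <;> rw [h]
  · simp
  · simp only [one_smul]
    exact ⟨kb_hermitian _ _, kb_idem hu⟩

theorem Row.G_mem (g : Row Q) (r : Q → Bool → ℂ) (Ub : Finset Q) (y : Q → Bool) :
    g.G r Ub y ∈ SpanOn (g.S ∪ (g.U \ Ub)) :=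
  g.mix_mem (g.Dp_mem r Ub y) Finset.sdiff_subset

theorem Row.G_psd (g : Row Q) {r : Q → Bool → ℂ} (hr : ∀ q, ip (r q) (r q) = 1) (Ub : Finset Q)
    (y : Q → Bool) : (g.G r Ub y).PosSemidef ∧ (1 - g.G r Ub y).PosSemidef :=
  g.mix_psd (g.Dp_mem r Ub y) Finset.sdiff_subset (g.Dp_proj hr Ub y).1 (g.Dp_proj hr Ub y).2

theorem Row.W_pin (g : Row Q) {r : Q → Bool → ℂ} (hr : ∀ q, ip (r q) (r q) = 1) (Ub : Finset Q)
    (y : Q → Bool) :
    g.W r * kb Ub (pinKet r y) (pinKet r y) = g.G r Ub y * kb Ub (pinKet r y) (pinKet r y) := by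
  set Py := kb Ub (pinKet r y) (pinKet r y) with hPy
  have h1 : kb g.U r r = kb (g.U ∩ Ub) r r * kb (g.U \ Ub) r r := kb_split' g.U Ub r
  have hdisj : Disjoint (g.U \ Ub) Ub := Finset.sdiff_disjoint
  have hc : kb (g.U \ Ub) r r * Py = Py * kb (g.U \ Ub) r r := kb_comm_disjoint hdisj _ _ _ _
  have h2 : kb (g.U ∩ Ub) r r * Py = pinF g.U Ub y • Py := by
    rw [hPy, kb_pin_absorb Finset.inter_subset_right (fun q _ => hr q)]
    rfl
  have h3 : kb g.U r r * Py = g.Dp r Ub y * Py := by
    rw [h1, Matrix.mul_assoc, hc, ← Matrix.mul_assoc, h2]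
    unfold Row.Dp
    rw [Matrix.smul_mul, Matrix.smul_mul, hc]
  unfold Row.G Row.W Row.mix
  simp only [Matrix.add_mul, Matrix.mul_assoc, Matrix.sub_mul, Matrix.one_mul, h3]

end Rows

section Lists

variable {Q : Type*} [Fintype Q] [DecidableEq Q]

/-- Union of a family of finite sets over a list. -/
def uni {α : Type*} (l : List α) (f : α → Finset Q) : Finset Q :=
  (l.map f).foldr (· ∪ ·) ∅

theorem mem_uni {α : Type*} {l : List α} {f : α → Finset Q} {q : Q} :
    q ∈ uni l f ↔ ∃ a ∈ l, q ∈ f a := by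
  induction l with
  | nil => simp [uni]
  | cons c l ih =>
    simp only [uni, List.map_cons, List.foldr_cons, Finset.mem_union, List.mem_cons,
      exists_eq_or_imp] at *
    rw [ih]

theorem uni_cons {α : Type*} (c : α) (l : List α) (f : α → Finset Q) :
    uni (c :: l) f = f c ∪ uni l f := rfl

theorem prod_mem_spanOn {α : Type*} {l : List α} {f : α → MM Q} {T : Finset Q}
    (h : ∀ a ∈ l, f a ∈ SpanOn T) : (l.map f).prod ∈ SpanOn T := by
  induction l with
  | nil => simpa using one_mem_spanOn T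
  | cons c l ih =>
    rw [List.map_cons, List.prod_cons]
    exact mul_mem_spanOn (h c (by simp)) (ih (fun a ha => h a (by simp [ha])))

theorem prod_kb_union {α : Type*} {l : List α} {f : α → Finset Q} (w : Q → Bool → ℂ)
    (h : l.Pairwise (fun a b => Disjoint (f a) (f b))) :
    (l.map (fun a => kb (f a) w w)).prod = kb (uni l f) w w := by
  induction l with
  | nil => simp [uni, kb_empty]
  | cons c l ih =>
    rw [List.pairwise_cons] at h
    rw [List.map_cons, List.prod_cons, ih h.2, uni_cons]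
    have hd : Disjoint (f c) (uni l f) := by
      rw [Finset.disjoint_left]
      intro q hq hq'
      obtain ⟨a, ha, hqa⟩ := mem_uni.mp hq'
      exact Finset.disjoint_left.mp (h.1 a ha) hq hqa
    rw [kb_mul_disjoint hd, merge_self]

theorem prod_commute_of {α : Type*} {l : List α} {G : α → MM Q} {P : MM Q}
    (h2 : ∀ a ∈ l, G a * P = P * G a) : (l.map G).prod * P = P * (l.map G).prod := by
  induction l with
  | nil => simp
  | cons c l ih =>
    simp only [List.map_cons, List.prod_cons]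
    rw [Matrix.mul_assoc, ih (fun a ha => h2 a (by simp [ha])), ← Matrix.mul_assoc,
      h2 c (by simp), Matrix.mul_assoc]

theorem prod_mul_of_pin {α : Type*} {l : List α} {W G : α → MM Q} {P : MM Q}
    (h1 : ∀ a ∈ l, W a * P = G a * P) (h2 : ∀ a ∈ l, G a * P = P * G a) :
    (l.map W).prod * P = (l.map G).prod * P := by
  induction l with
  | nil => simp
  | cons c l ih =>
    have h3 : (l.map G).prod * P = P * (l.map G).prod :=
      prod_commute_of (fun a ha => h2 a (by simp [ha]))
    simp only [List.map_cons, List.prod_cons]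
    rw [Matrix.mul_assoc, ih (fun a ha => h1 a (by simp [ha])) (fun a ha => h2 a (by simp [ha])),
      h3, ← Matrix.mul_assoc, h1 c (by simp), Matrix.mul_assoc, Matrix.mul_assoc, h3]

end Lists

end Vale.Agent.Lib.P368

/-!
The first main estimate: columns whose designated rows are private.
-/

set_option linter.unusedSectionVars false
set_option linter.unusedSimpArgs false
set_option linter.unusedVariables false

namespace Vale.Agent.Lib.P368

open Matrix
open scoped Matrix.Norms.L2Operator ComplexConjugate ComplexOrder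

section ThmM

variable {Q : Type*} [Fintype Q] [DecidableEq Q]

theorem psd_smul_real {x : ℝ} (hx : 0 ≤ x) {M : MM Q} (hM : M.PosSemidef) :
    (((x : ℝ) : ℂ) • M).PosSemidef := by
  refine hM.smul ?_
  exact_mod_cast hx

theorem resetMap_mem {T A : Finset Q} (hA : A ⊆ T) (w r : Q → Bool → ℂ) {X : MM Q}
    (hX : X ∈ SpanOn T) : resetMap A w r X ∈ SpanOn T := by
  unfold resetMap WS
  refine Submodule.smul_of_tower_mem _ _ (Submodule.sum_mem _ (fun k _ => ?_))
  exact mul_mem_spanOn (mul_mem_spanOn (kb_mem_spanOn hA _ _) hX)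
    (conjTranspose_mem_spanOn (kb_mem_spanOn hA _ _))

/-- A column with a designated row. -/
structure MCol (Q : Type*) [Fintype Q] [DecidableEq Q] where
  C : Finset Q
  Gp : Finset Q
  PU : Finset Q
  NS : Finset Q
  A0 : MM Q
  A1 : MM Q
  hA0 : IsKet C A0
  hA1 : IsKet C A1
  row : Row Q
  hC : C = Gp ∪ PU ∪ NS
  hd1 : Disjoint Gp PU
  hd2 : Disjoint Gp NS
  hd3 : Disjoint PU NS
  hrow : Disjoint (C \ Gp) row.sites

theorem MCol.Gp_sub (h : MCol Q) : h.Gp ⊆ h.C := by
  rw [h.hC]
  exact fun q hq => Finset.mem_union_left _ (Finset.mem_union_left _ hq)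

theorem MCol.PU_sub (h : MCol Q) : h.PU ⊆ h.C := by
  rw [h.hC]
  exact fun q hq => Finset.mem_union_left _ (Finset.mem_union_right _ hq)

theorem MCol.NS_sub (h : MCol Q) : h.NS ⊆ h.C := by
  rw [h.hC]
  exact fun q hq => Finset.mem_union_right _ hq

/-- The pinning projector of a column. -/
noncomputable def MCol.P (h : MCol Q) (r : Q → Bool → ℂ) (y : Q → Bool) : MM Q :=
  kb h.PU (pinKet r y) (pinKet r y)

/-- The difference operator of a column. -/
noncomputable def MCol.tau (h : MCol Q) : MM Q :=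
  (1 / 2 : ℂ) • (h.A0 * h.A0ᴴ - h.A1 * h.A1ᴴ)

/-- The weight of a pattern for a column. -/
noncomputable def MCol.cval (h : MCol Q) (r : Q → Bool → ℂ) (y : Q → Bool) : ℝ :=
  (1 / 2) * max (‖h.P r y * h.A0‖ ^ 2) (‖h.P r y * h.A1‖ ^ 2)

/-- The bound for a column. -/
noncomputable def MCol.beta (h : MCol Q) (r : Q → Bool → ℂ) : ℝ := WS h.PU (h.cval r)

theorem MCol.cval_nonneg (h : MCol Q) (r : Q → Bool → ℂ) (y : Q → Bool) : 0 ≤ h.cval r y := by
  unfold MCol.cval
  have : 0 ≤ max (‖h.P r y * h.A0‖ ^ 2) (‖h.P r y * h.A1‖ ^ 2) :=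
    le_max_of_le_left (by positivity)
  positivity

theorem MCol.P_mem (h : MCol Q) (r : Q → Bool → ℂ) (y : Q → Bool) : h.P r y ∈ SpanOn h.C :=
  kb_mem_spanOn h.PU_sub _ _

theorem MCol.P_mem' (h : MCol Q) (r : Q → Bool → ℂ) (y : Q → Bool) : h.P r y ∈ SpanOn h.PU :=
  kb_mem_spanOn (Finset.Subset.refl _) _ _

theorem MCol.P_herm (h : MCol Q) (r : Q → Bool → ℂ) (y : Q → Bool) : (h.P r y)ᴴ = h.P r y :=
  kb_hermitian _ _

theorem MCol.P_idem (h : MCol Q) {r : Q → Bool → ℂ} (hr : ∀ q, ip (r q) (r q) = 1) (y : Q → Bool) :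
    h.P r y * h.P r y = h.P r y :=
  kb_idem (pinKet_unit (fun q _ => hr q) y)

theorem MCol.P_congr (h : MCol Q) (r : Q → Bool → ℂ) {y y' : Q → Bool}
    (hy : ∀ q ∈ h.PU, y q = y' q) : h.P r y = h.P r y' :=
  kb_congr (pinKet_congr hy) (pinKet_congr hy)

/-- The projector on the group and the pinned pattern. -/
noncomputable def MCol.Pp (h : MCol Q) (r : Q → Bool → ℂ) (y : Q → Bool) : MM Q :=
  kb h.Gp eK eK * h.P r y

theorem MCol.P_comm_Gp (h : MCol Q) (r : Q → Bool → ℂ) (y : Q → Bool) {X : MM Q}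
    (hX : X ∈ SpanOn h.Gp) : X * h.P r y = h.P r y * X :=
  commute_spanOn h.hd1 hX (h.P_mem' r y)

theorem MCol.Pp_herm (h : MCol Q) (r : Q → Bool → ℂ) (y : Q → Bool) : (h.Pp r y)ᴴ = h.Pp r y := by
  unfold MCol.Pp
  rw [conjTranspose_mul, h.P_herm, kb_hermitian]
  exact (h.P_comm_Gp r y (kb_mem_spanOn (Finset.Subset.refl _) _ _)).symm

theorem MCol.Pp_idem (h : MCol Q) {r : Q → Bool → ℂ} (hr : ∀ q, ip (r q) (r q) = 1) (y : Q → Bool) :
    h.Pp r y * h.Pp r y = h.Pp r y := by
  unfold MCol.Pp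
  have hc := h.P_comm_Gp r y (kb_mem_spanOn (Finset.Subset.refl _) eK eK)
  calc kb h.Gp eK eK * h.P r y * (kb h.Gp eK eK * h.P r y)
      = kb h.Gp eK eK * (h.P r y * kb h.Gp eK eK) * h.P r y := by simp only [Matrix.mul_assoc]
    _ = kb h.Gp eK eK * (kb h.Gp eK eK * h.P r y) * h.P r y := by rw [hc]
    _ = (kb h.Gp eK eK * kb h.Gp eK eK) * (h.P r y * h.P r y) := by simp only [Matrix.mul_assoc]
    _ = _ := by rw [kb_idem (eK_unit _), h.P_idem hr]

theorem MCol.Pp_mem (h : MCol Q) (r : Q → Bool → ℂ) (y : Q → Bool) : h.Pp r y ∈ SpanOn h.C :=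
  mul_mem_spanOn (kb_mem_spanOn h.Gp_sub _ _) (h.P_mem r y)

/-- Positivity of the dominating operator. -/
theorem MCol.dom_psd (h : MCol Q) {r : Q → Bool → ℂ} (hr : ∀ q, ip (r q) (r q) = 1) (y : Q → Bool)
    {A : MM Q} (hA : IsKet h.C A) {c : ℝ} (hc : (1 / 2) * ‖h.P r y * A‖ ^ 2 ≤ c) :
    (((c : ℝ) : ℂ) • h.Pp r y - (1 / 2 : ℂ) •
      resetMap h.Gp eK r (h.P r y * (A * Aᴴ) * h.P r y)).PosSemidef := by
  set X := h.P r y * A with hX
  have hXk : IsKet h.C X := by
    refine ⟨mul_mem_spanOn (h.P_mem r y) hA.1, ?_⟩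
    rw [hX, Matrix.mul_assoc, hA.2]
  have hrg : UnitOn h.Gp r := fun q _ => hr q
  have hrange : ∀ k, h.Pp r y * (resetV h.Gp eK r k * X) = resetV h.Gp eK r k * X := by
    intro k
    unfold MCol.Pp
    rw [hX]
    have hc1 : h.P r y * resetV h.Gp eK r k = resetV h.Gp eK r k * h.P r y :=
      (h.P_comm_Gp r y (kb_mem_spanOn (Finset.Subset.refl _) _ _)).symm
    have hc2 : kb h.Gp eK eK * resetV h.Gp eK r k = resetV h.Gp eK r k := by
      unfold resetV
      rw [kb_mul, Finset.prod_congr rfl (eK_unit _)]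
      simp
    calc kb h.Gp eK eK * h.P r y * (resetV h.Gp eK r k * (h.P r y * A))
        = kb h.Gp eK eK * (h.P r y * resetV h.Gp eK r k) * (h.P r y * A) := by
          simp only [Matrix.mul_assoc]
      _ = kb h.Gp eK eK * (resetV h.Gp eK r k * h.P r y) * (h.P r y * A) := by rw [hc1]
      _ = (kb h.Gp eK eK * resetV h.Gp eK r k) * ((h.P r y * h.P r y) * A) := by
          simp only [Matrix.mul_assoc]
      _ = _ := by rw [hc2, h.P_idem hr]
  have h1 := reset_le hXk h.Gp_sub (eK_unit _) hrg (h.Pp_herm r y) (h.Pp_idem hr y) hrange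
  have hXX : X * Xᴴ = h.P r y * (A * Aᴴ) * h.P r y := by
    rw [hX, conjTranspose_mul, h.P_herm]
    simp only [Matrix.mul_assoc]
  rw [hXX] at h1
  have hPp := projector_psd (h.Pp_herm r y) (h.Pp_idem hr y)
  have h2 : (0 : ℝ) ≤ c - (1 / 2) * ‖X‖ ^ 2 := by linarith
  have h3 := (psd_smul_real h2 hPp).add (psd_smul_real (x := 1 / 2) (by norm_num) h1)
  have h4 : ((c : ℝ) : ℂ) • h.Pp r y - (1 / 2 : ℂ) •
      resetMap h.Gp eK r (h.P r y * (A * Aᴴ) * h.P r y) =
      (((c - (1 / 2) * ‖X‖ ^ 2 : ℝ) : ℂ)) • h.Pp r y + (((1 / 2 : ℝ) : ℂ)) •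
        (((‖X‖ ^ 2 : ℝ) : ℂ) • h.Pp r y - resetMap h.Gp eK r (h.P r y * (A * Aᴴ) * h.P r y)) := by
    push_cast
    rw [smul_sub, smul_smul, sub_smul]
    abel
  rw [h4]
  exact h3

/-- The column as an input of the peeling lemma. -/
noncomputable def MCol.toPeel (h : MCol Q) {r : Q → Bool → ℂ} (hr : ∀ q, ip (r q) (r q) = 1)
    (Ub : Finset Q) (y : Q → Bool) : PeelCol Q where
  Gs := (h.row.S ∪ (h.row.U \ Ub)) ∪ h.Gp
  Cs := h.C
  Gp := h.Gp
  G := h.row.G r Ub y
  r0 := h.P r y * (h.A0 * h.A0ᴴ) * h.P r y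
  r1 := h.P r y * (h.A1 * h.A1ᴴ) * h.P r y
  t0 := resetMap h.Gp eK r (h.P r y * (h.A0 * h.A0ᴴ) * h.P r y)
  t1 := resetMap h.Gp eK r (h.P r y * (h.A1 * h.A1ᴴ) * h.P r y)
  a := ((h.cval r y : ℝ) : ℂ) • h.Pp r y
  hGp1 := Finset.subset_union_right
  hGp2 := h.Gp_sub
  hG := spanOn_mono Finset.subset_union_left (h.row.G_mem r Ub y)
  hr0 := mul_mem_spanOn (mul_mem_spanOn (h.P_mem r y) (mul_mem_spanOn h.hA0.1
    (conjTranspose_mem_spanOn h.hA0.1))) (h.P_mem r y)
  hr1 := mul_mem_spanOn (mul_mem_spanOn (h.P_mem r y) (mul_mem_spanOn h.hA1.1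
    (conjTranspose_mem_spanOn h.hA1.1))) (h.P_mem r y)
  ha := Submodule.smul_mem _ _ (h.Pp_mem r y)
  ht0 := resetMap_mem h.Gp_sub _ _ (mul_mem_spanOn (mul_mem_spanOn (h.P_mem r y)
    (mul_mem_spanOn h.hA0.1 (conjTranspose_mem_spanOn h.hA0.1))) (h.P_mem r y))
  ht1 := resetMap_mem h.Gp_sub _ _ (mul_mem_spanOn (mul_mem_spanOn (h.P_mem r y)
    (mul_mem_spanOn h.hA1.1 (conjTranspose_mem_spanOn h.hA1.1))) (h.P_mem r y))
  hGpos := (h.row.G_psd hr Ub y).1
  hGpos' := (h.row.G_psd hr Ub y).2
  hr0pos := by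
    have := posSemidef_self_mul_conjTranspose (h.P r y * h.A0)
    rw [conjTranspose_mul, h.P_herm] at this
    simpa only [Matrix.mul_assoc] using this
  hr1pos := by
    have := posSemidef_self_mul_conjTranspose (h.P r y * h.A1)
    rw [conjTranspose_mul, h.P_herm] at this
    simpa only [Matrix.mul_assoc] using this
  ha0 := h.dom_psd hr y h.hA0 (by
    unfold MCol.cval
    have := le_max_left (‖h.P r y * h.A0‖ ^ 2) (‖h.P r y * h.A1‖ ^ 2)
    linarith)
  ha1 := h.dom_psd hr y h.hA1 (by
    unfold MCol.cval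
    have := le_max_right (‖h.P r y * h.A0‖ ^ 2) (‖h.P r y * h.A1‖ ^ 2)
    linarith)
  hnull0 := by
    intro Z hZ
    rw [Matrix.mul_sub, Matrix.trace_sub, resetMap_null (eK_unit _) (fun q _ => hr q) hZ, sub_self]
  hnull1 := by
    intro Z hZ
    rw [Matrix.mul_sub, Matrix.trace_sub, resetMap_null (eK_unit _) (fun q _ => hr q) hZ, sub_self]

/-- Row products are positive. -/
theorem prod_G_psd {r : Q → Bool → ℂ} (hr : ∀ q, ip (r q) (r q) = 1) (Ub : Finset Q) (y : Q → Bool)
    (nl : List (Row Q)) (hnl : nl.Pairwise (fun g g' => Disjoint g.sites g'.sites)) :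
    ((nl.map (fun g : Row Q => g.G r Ub y)).prod).PosSemidef ∧
      (nl.map (fun g : Row Q => g.G r Ub y)).prod ∈ SpanOn (uni nl Row.sites) := by
  induction nl with
  | nil =>
    simp only [List.map_nil, List.prod_nil]
    exact ⟨Matrix.PosSemidef.one, one_mem_spanOn _⟩
  | cons g nl ih =>
    rw [List.pairwise_cons] at hnl
    obtain ⟨h1, h2⟩ := ih hnl.2
    simp only [List.map_cons, List.prod_cons]
    have hd : Disjoint g.sites (uni nl Row.sites) := by
      rw [Finset.disjoint_left]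
      intro q hq hq'
      obtain ⟨a, ha, hqa⟩ := mem_uni.mp hq'
      exact Finset.disjoint_left.mp (hnl.1 a ha) hq hqa
    have hG : g.G r Ub y ∈ SpanOn g.sites := by
      refine spanOn_mono ?_ (g.G_mem r Ub y)
      intro q hq
      rcases Finset.mem_union.mp hq with hq | hq
      · exact Finset.mem_union_left _ hq
      · exact Finset.mem_union_right _ (Finset.mem_sdiff.mp hq).1
    refine ⟨psd_mul_of_commute (g.G_psd hr Ub y).1 h1 (commute_spanOn hd hG h2), ?_⟩
    rw [uni_cons]
    exact mul_mem_spanOn (spanOn_mono Finset.subset_union_left hG)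
      (spanOn_mono Finset.subset_union_right h2)

/-- Normalization: rank one row operators have trace at most one on the reset sites. -/
theorem reset_rows {r : Q → Bool → ℂ} (hr : ∀ q, ip (r q) (r q) = 1) (Ub Sx : Finset Q)
    (y : Q → Bool) (nl : List (Row Q)) (hnl : nl.Pairwise (fun g g' => Disjoint g.sites g'.sites)) :
    ∀ (Z : MM Q) (T : Finset Q), Z ∈ SpanOn T → Z.PosSemidef →
      Disjoint T (uni nl (fun g => g.S ∩ Sx)) →
      ((nl.map (fun g : Row Q => g.G r Ub y)).prod * Z).trace.re ≤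
        (kb (uni nl (fun g => g.S ∩ Sx)) eK eK * Z).trace.re := by
  induction nl with
  | nil =>
    intro Z T _ _ _
    simp [uni, kb_empty]
  | cons g nl ih =>
    intro Z T hZ hZp hT
    rw [List.pairwise_cons] at hnl
    obtain ⟨hp, hm⟩ := prod_G_psd hr Ub y nl hnl.2
    simp only [List.map_cons, List.prod_cons]
    set R' := (nl.map (fun g : Row Q => g.G r Ub y)).prod with hR'
    set A := g.S ∩ Sx with hA
    have hAS : A ⊆ g.S := Finset.inter_subset_left
    have hdR : Disjoint g.sites (uni nl Row.sites) := by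
      rw [Finset.disjoint_left]
      intro q hq hq'
      obtain ⟨a, ha, hqa⟩ := mem_uni.mp hq'
      exact Finset.disjoint_left.mp (hnl.1 a ha) hq hqa
    have hAs : A ⊆ g.sites := fun q hq => Finset.mem_union_left _ (hAS hq)
    have hdA : Disjoint A (uni nl Row.sites) := Finset.disjoint_of_subset_left hAs hdR
    rw [uni_cons] at hT ⊢
    rw [Finset.disjoint_union_right] at hT
    have hAT : Disjoint A T := hT.1.symm
    have hGs : g.G r Ub y ∈ SpanOn g.sites := by
      refine spanOn_mono ?_ (g.G_mem r Ub y)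
      intro q hq
      rcases Finset.mem_union.mp hq with hq | hq
      · exact Finset.mem_union_left _ hq
      · exact Finset.mem_union_right _ (Finset.mem_sdiff.mp hq).1
    have hZ'm : R' * Z ∈ SpanOn Aᶜ :=
      mul_mem_spanOn (mem_spanOn_compl_of_disjoint hdA hm) (mem_spanOn_compl_of_disjoint hAT hZ)
    have hrA : UnitOn A r := fun q _ => hr q
    have h1 : (g.G r Ub y * R' * Z).trace = (resetMap A eK r (g.G r Ub y) * R' * Z).trace := by
      have h2 := resetMap_null (eK_unit A) hrA hZ'm (g.G r Ub y)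
      calc (g.G r Ub y * R' * Z).trace = ((R' * Z) * g.G r Ub y).trace := by
            rw [Matrix.mul_assoc, Matrix.trace_mul_comm]
        _ = ((R' * Z) * resetMap A eK r (g.G r Ub y)).trace := h2.symm
        _ = (resetMap A eK r (g.G r Ub y) * (R' * Z)).trace := Matrix.trace_mul_comm _ _
        _ = _ := by rw [Matrix.mul_assoc]
    have hD := g.reset_mix_le hAS hrA (g.Dp_mem r Ub y) Finset.sdiff_subset (g.Dp_proj hr Ub y).1
      (g.Dp_proj hr Ub y).2
    have hDm : (kb A eK eK - resetMap A eK r (g.G r Ub y) : MM Q) ∈ SpanOn g.sites :=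
      Submodule.sub_mem _ (kb_mem_spanOn hAs _ _) (resetMap_mem hAs _ _ hGs)
    have hDR : ((kb A eK eK - resetMap A eK r (g.G r Ub y)) * R').PosSemidef :=
      psd_mul_of_commute hD hp (commute_spanOn hdR hDm hm)
    have h3 := trace_psd_mul_re hDR hZp
    rw [Matrix.sub_mul, Matrix.sub_mul, Matrix.trace_sub, Complex.sub_re] at h3
    rw [h1]
    have hcom : (kb A eK eK : MM Q) * R' = R' * kb A eK eK :=
      commute_spanOn hdA (kb_mem_spanOn (Finset.Subset.refl _) _ _) hm
    have hcomZ : (kb A eK eK : MM Q) * Z = Z * kb A eK eK :=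
      commute_spanOn hAT (kb_mem_spanOn (Finset.Subset.refl _) _ _) hZ
    have hZ2p : ((kb A eK eK : MM Q) * Z).PosSemidef := psd_mul_of_commute (kb_psd (eK_unit A)) hZp hcomZ
    have hZ2m : (kb A eK eK : MM Q) * Z ∈ SpanOn (T ∪ A) :=
      mul_mem_spanOn (kb_mem_spanOn Finset.subset_union_right _ _)
        (spanOn_mono Finset.subset_union_left hZ)
    have hdT : Disjoint (T ∪ A) (uni nl (fun g => g.S ∩ Sx)) := by
      rw [Finset.disjoint_union_left]
      refine ⟨hT.2, ?_⟩
      rw [Finset.disjoint_left]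
      intro q hq hq'
      obtain ⟨a, ha, hqa⟩ := mem_uni.mp hq'
      have h5 : q ∈ a.sites := Finset.mem_union_left _ (Finset.inter_subset_left hqa)
      exact Finset.disjoint_left.mp (hnl.1 a ha) (hAs hq) h5
    have h4 := ih hnl.2 _ _ hZ2m hZ2p hdT
    have hd2 : Disjoint A (uni nl (fun g => g.S ∩ Sx)) := Finset.disjoint_of_subset_left
      Finset.subset_union_right hdT
    have h6 : kb (A ∪ uni nl (fun g => g.S ∩ Sx)) eK eK =
        (kb (uni nl (fun g => g.S ∩ Sx)) eK eK * kb A eK eK : MM Q) := by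
      rw [kb_comm_disjoint hd2.symm, kb_mul_disjoint hd2, merge_self]
    rw [h6]
    have e1 : (kb A eK eK * R' * Z).trace = (R' * (kb A eK eK * Z)).trace := by
      rw [hcom, Matrix.mul_assoc]
    have e2 : (kb (uni nl (fun g => g.S ∩ Sx)) eK eK * kb A eK eK * Z).trace =
        (kb (uni nl (fun g => g.S ∩ Sx)) eK eK * (kb A eK eK * Z)).trace := by
      rw [Matrix.mul_assoc]
    rw [e1] at h3
    rw [e2]
    linarith

/-- Two columns with designated rows do not interact. -/
def MCol.Apart (h h' : MCol Q) : Prop :=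
  Disjoint h.C h'.C ∧ Disjoint h.C h'.row.sites ∧ Disjoint h'.C h.row.sites

theorem MCol.PU_row (h : MCol Q) : Disjoint h.PU h.row.sites := by
  refine Finset.disjoint_of_subset_left ?_ h.hrow
  intro q hq
  refine Finset.mem_sdiff.mpr ⟨h.PU_sub hq, ?_⟩
  exact fun hg => Finset.disjoint_left.mp h.hd1 hg hq

theorem MCol.tau_mem (h : MCol Q) : h.tau ∈ SpanOn h.C :=
  Submodule.smul_mem _ _ (Submodule.sub_mem _
    (mul_mem_spanOn h.hA0.1 (conjTranspose_mem_spanOn h.hA0.1))
    (mul_mem_spanOn h.hA1.1 (conjTranspose_mem_spanOn h.hA1.1)))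

theorem Row.G_mem' (g : Row Q) (r : Q → Bool → ℂ) (Ub : Finset Q) (y : Q → Bool) :
    g.G r Ub y ∈ SpanOn g.sites := by
  refine spanOn_mono ?_ (g.G_mem r Ub y)
  intro q hq
  rcases Finset.mem_union.mp hq with hq | hq
  · exact Finset.mem_union_left _ hq
  · exact Finset.mem_union_right _ (Finset.mem_sdiff.mp hq).1

theorem MCol.toPeel_b (h : MCol Q) {r : Q → Bool → ℂ} (hr : ∀ q, ip (r q) (r q) = 1)
    (Ub : Finset Q) (y : Q → Bool) :
    (h.toPeel hr Ub y).b = h.row.G r Ub y * (h.P r y * h.tau * h.P r y) := by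
  unfold PeelCol.b MCol.toPeel MCol.tau
  simp only
  congr 1
  simp only [Matrix.mul_sub, Matrix.sub_mul, Matrix.mul_smul, Matrix.smul_mul, smul_sub,
    Matrix.mul_assoc]

theorem disjoint_uni_right {α : Type*} {T : Finset Q} {l : List α} {f : α → Finset Q}
    (h : ∀ a ∈ l, Disjoint T (f a)) : Disjoint T (uni l f) := by
  rw [Finset.disjoint_left]
  intro q hq hq'
  obtain ⟨a, ha, hqa⟩ := mem_uni.mp hq'
  exact Finset.disjoint_left.mp (h a ha) hq hqa

/-- Moving the pinning projectors to their columns. -/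
theorem rearrange {r : Q → Bool → ℂ} (hr : ∀ q, ip (r q) (r q) = 1) (Ub : Finset Q) (y : Q → Bool)
    (X : List (MCol Q)) (hX : X.Pairwise MCol.Apart) :
    ∀ R' K' : MM Q, (∀ h ∈ X, R' * h.P r y = h.P r y * R') → (∀ h ∈ X, K' * h.P r y = h.P r y * K') →
      (R' * (X.map (fun h => h.row.G r Ub y)).prod * (X.map (fun h => h.P r y)).prod *
        (X.map MCol.tau).prod * K').trace =
      (R' * (X.map (fun h => (h.toPeel hr Ub y).b)).prod * K').trace := by
  induction X with
  | nil =>
    intro R' K' _ _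
    simp
  | cons h X ih =>
    intro R' K' hR hK
    rw [List.pairwise_cons] at hX
    obtain ⟨hc, hX'⟩ := hX
    simp only [List.map_cons, List.prod_cons]
    set D' := (X.map (fun h => h.row.G r Ub y)).prod with hD'
    set Pp' := (X.map (fun h => h.P r y)).prod with hPp'
    set T' := (X.map MCol.tau).prod with hT'
    have hPh : h.P r y ∈ SpanOn h.C := h.P_mem r y
    have mD : D' ∈ SpanOn (uni X (fun h => h.row.sites)) := prod_mem_spanOn (fun a ha =>
      spanOn_mono (fun q hq => mem_uni.mpr ⟨a, ha, hq⟩) (a.row.G_mem' r Ub y))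
    have mP : Pp' ∈ SpanOn (uni X MCol.C) := prod_mem_spanOn (fun a ha =>
      spanOn_mono (fun q hq => mem_uni.mpr ⟨a, ha, hq⟩) (a.P_mem r y))
    have mT : T' ∈ SpanOn (uni X MCol.C) := prod_mem_spanOn (fun a ha =>
      spanOn_mono (fun q hq => mem_uni.mpr ⟨a, ha, hq⟩) a.tau_mem)
    have d1 : Disjoint h.C (uni X (fun h => h.row.sites)) :=
      disjoint_uni_right (fun a ha => (hc a ha).2.1)
    have d2 : Disjoint h.C (uni X MCol.C) :=
      disjoint_uni_right (fun a ha => (hc a ha).1)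
    have c1 : D' * h.P r y = h.P r y * D' := (commute_spanOn d1 hPh mD).symm
    have c2 : Pp' * h.tau = h.tau * Pp' := (commute_spanOn d2 h.tau_mem mP).symm
    have c3 : D' * h.tau = h.tau * D' := (commute_spanOn d1 h.tau_mem mD).symm
    have c4 : T' * h.P r y = h.P r y * T' := (commute_spanOn d2 hPh mT).symm
    have c5 : Pp' * h.P r y = h.P r y * Pp' := (commute_spanOn d2 hPh mP).symm
    have c6 : h.row.G r Ub y * h.P r y = h.P r y * h.row.G r Ub y :=
      (commute_spanOn h.PU_row (h.P_mem' r y) (h.row.G_mem' r Ub y)).symm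
    have hRh := hR h (by simp)
    have hKh := hK h (by simp)
    set M := D' * Pp' * T' * K' with hM
    have hMP : M * h.P r y = h.P r y * M := by
      rw [hM]
      calc D' * Pp' * T' * K' * h.P r y = D' * Pp' * T' * (h.P r y * K') := by
            rw [Matrix.mul_assoc (D' * Pp' * T'), hKh]
        _ = D' * Pp' * (T' * h.P r y) * K' := by simp only [Matrix.mul_assoc]
        _ = D' * (Pp' * h.P r y) * T' * K' := by rw [c4]; simp only [Matrix.mul_assoc]
        _ = (D' * h.P r y) * Pp' * T' * K' := by rw [c5]; simp only [Matrix.mul_assoc]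
        _ = _ := by rw [c1]; simp only [Matrix.mul_assoc]
    have step1 : R' * (h.row.G r Ub y * D') * (h.P r y * Pp') * (h.tau * T') * K' =
        R' * h.row.G r Ub y * h.P r y * h.tau * M := by
      calc R' * (h.row.G r Ub y * D') * (h.P r y * Pp') * (h.tau * T') * K'
          = R' * h.row.G r Ub y * (D' * h.P r y) * (Pp' * h.tau) * T' * K' := by
            simp only [Matrix.mul_assoc]
        _ = R' * h.row.G r Ub y * h.P r y * (D' * h.tau) * Pp' * T' * K' := by
            rw [c1, c2]; simp only [Matrix.mul_assoc]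
        _ = R' * h.row.G r Ub y * h.P r y * h.tau * (D' * Pp' * T' * K') := by
            rw [c3]; simp only [Matrix.mul_assoc]
    have hidem := h.P_idem hr y
    have step2 : (R' * h.row.G r Ub y * h.P r y * h.tau * M).trace =
        (R' * (h.row.G r Ub y * (h.P r y * h.tau * h.P r y)) * M).trace := by
      have e1 : R' * h.row.G r Ub y * h.P r y = h.P r y * (R' * h.row.G r Ub y * h.P r y) := by
        calc R' * h.row.G r Ub y * h.P r y = R' * h.row.G r Ub y * (h.P r y * h.P r y) := by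
              rw [hidem]
          _ = R' * (h.row.G r Ub y * h.P r y) * h.P r y := by simp only [Matrix.mul_assoc]
          _ = (R' * h.P r y) * h.row.G r Ub y * h.P r y := by
              rw [c6]; simp only [Matrix.mul_assoc]
          _ = _ := by rw [hRh]; simp only [Matrix.mul_assoc]
      calc (R' * h.row.G r Ub y * h.P r y * h.tau * M).trace
          = (h.P r y * (R' * h.row.G r Ub y * h.P r y * h.tau * M)).trace := by
            rw [← Matrix.mul_assoc (h.P r y), ← Matrix.mul_assoc (h.P r y), ← e1]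
        _ = ((R' * h.row.G r Ub y * h.P r y * h.tau * M) * h.P r y).trace :=
            Matrix.trace_mul_comm _ _
        _ = (R' * h.row.G r Ub y * h.P r y * h.tau * (h.P r y * M)).trace := by
            rw [Matrix.mul_assoc _ M, hMP]
        _ = _ := by simp only [Matrix.mul_assoc]
    rw [step1, step2, h.toPeel_b hr Ub y, hM]
    have hb : h.row.G r Ub y * (h.P r y * h.tau * h.P r y) ∈ SpanOn (h.row.sites ∪ h.C) :=
      mul_mem_spanOn (spanOn_mono Finset.subset_union_left (h.row.G_mem' r Ub y))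
        (spanOn_mono Finset.subset_union_right (mul_mem_spanOn (mul_mem_spanOn hPh h.tau_mem) hPh))
    have hih := ih hX' (R' * (h.row.G r Ub y * (h.P r y * h.tau * h.P r y))) K' ?_
      (fun a ha => hK a (by simp [ha]))
    · have e2 : R' * (h.row.G r Ub y * (h.P r y * h.tau * h.P r y)) * (D' * Pp' * T' * K') =
          R' * (h.row.G r Ub y * (h.P r y * h.tau * h.P r y)) * D' * Pp' * T' * K' := by
        simp only [Matrix.mul_assoc]
      rw [e2, hih]
      simp only [Matrix.mul_assoc]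
    · intro a ha
      have hdis : Disjoint a.PU (h.row.sites ∪ h.C) := by
        rw [Finset.disjoint_union_right]
        exact ⟨Finset.disjoint_of_subset_left a.PU_sub (hc a ha).2.2,
          Finset.disjoint_of_subset_left a.PU_sub (hc a ha).1.symm⟩
      have c7 := commute_spanOn hdis (a.P_mem' r y) hb
      rw [Matrix.mul_assoc, ← c7, ← Matrix.mul_assoc, hR a (by simp [ha]), Matrix.mul_assoc]

theorem prod_smul_map {α : Type*} (l : List α) (c : α → ℝ) (A : α → MM Q) :
    (l.map (fun a => ((c a : ℝ) : ℂ) • A a)).prod =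
      (((l.map c).prod : ℝ) : ℂ) • (l.map A).prod := by
  induction l with
  | nil => simp
  | cons a l ih =>
    simp only [List.map_cons, List.prod_cons]
    rw [ih, smul_mul_smul_comm]
    push_cast
    rfl

theorem list_prod_nonneg {α : Type*} {l : List α} {c : α → ℝ} (h : ∀ a ∈ l, 0 ≤ c a) :
    0 ≤ (l.map c).prod := by
  induction l with
  | nil => simp
  | cons a l ih =>
    simp only [List.map_cons, List.prod_cons]
    exact mul_nonneg (h a (by simp)) (ih (fun b hb => h b (by simp [hb])))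

theorem pairwise_or_eq {α : Type*} {R : α → α → Prop} (hs : ∀ a b, R a b → R b a) {l : List α}
    (h : l.Pairwise R) : ∀ a ∈ l, ∀ b ∈ l, a = b ∨ R a b := by
  induction l with
  | nil => simp
  | cons c l ih =>
    rw [List.pairwise_cons] at h
    intro a ha b hb
    rcases List.mem_cons.mp ha with rfl | ha'
    · rcases List.mem_cons.mp hb with rfl | hb'
      · left; rfl
      · right; exact h.1 b hb'
    · rcases List.mem_cons.mp hb with rfl | hb'
      · right; exact hs _ _ (h.1 a ha')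
      · exact ih h.2 a ha' b hb'

/-- The bound for a fixed pattern. -/
theorem thmM_pointwise {r : Q → Bool → ℂ} (hr : ∀ q, ip (r q) (r q) = 1) (X : List (MCol Q))
    (nl : List (Row Q)) (K : MM Q) (TK : Finset Q) (y : Q → Bool)
    (hX : X.Pairwise MCol.Apart)
    (hXr : X.Pairwise (fun h h' => Disjoint h.row.sites h'.row.sites))
    (hnl : nl.Pairwise (fun g g' => Disjoint g.sites g'.sites))
    (hXnl : ∀ h ∈ X, ∀ g ∈ nl, Disjoint h.row.sites g.sites)
    (hGnl : ∀ h ∈ X, ∀ g ∈ nl, Disjoint h.Gp g.sites)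
    (hNS : ∀ h ∈ X, h.NS ⊆ uni nl Row.S)
    (hKm : K ∈ SpanOn TK) (hKp : K.PosSemidef) (hTK : ∀ h ∈ X, Disjoint TK h.C) :
    ‖((nl.map (fun g : Row Q => g.G r (uni X MCol.PU) y)).prod *
        (X.map (fun h => (h.toPeel hr (uni X MCol.PU) y).b)).prod * K).trace‖ ≤
      (X.map (fun h => h.cval r y)).prod * ((X.map (fun h => kb h.C eK eK)).prod * K).trace.re := by
  set Ub := uni X MCol.PU with hUb
  obtain ⟨hRp, hRm⟩ := prod_G_psd hr Ub y nl hnl
  set R := (nl.map (fun g : Row Q => g.G r Ub y)).prod with hR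
  -- disjointness facts inside one list
  have hsymm : ∀ a b : MCol Q, MCol.Apart a b → MCol.Apart b a :=
    fun a b hab => ⟨hab.1.symm, hab.2.2, hab.2.1⟩
  have hdC := pairwise_or_eq hsymm hX
  -- the peeling lemma
  have hApart : (X.map (fun h => h.toPeel hr Ub y)).Pairwise PeelCol.Apart := by
    rw [List.pairwise_map]
    refine List.Pairwise.imp_of_mem ?_ (hX.and hXr)
    intro h h' hh hh' hab
    obtain ⟨⟨h1, h2, h3⟩, h4⟩ := hab
    have hGs : ∀ a : MCol Q, (a.toPeel hr Ub y).Gs ⊆ a.row.sites ∪ a.C := by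
      intro a q hq
      have hq1 : q ∈ (a.row.S ∪ (a.row.U \ Ub)) ∪ a.Gp := hq
      rcases Finset.mem_union.mp hq1 with hq2 | hq2
      · rcases Finset.mem_union.mp hq2 with hq3 | hq3
        · exact Finset.mem_union_left _ (Finset.mem_union_left _ hq3)
        · exact Finset.mem_union_left _ (Finset.mem_union_right _ (Finset.mem_sdiff.mp hq3).1)
      · exact Finset.mem_union_right _ (a.Gp_sub hq2)
    have hGs' : ∀ a : MCol Q, (a.toPeel hr Ub y).Gp ⊆ a.C := fun a => a.Gp_sub
    -- the row part and the group part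
    have hkey : ∀ a b : MCol Q, Disjoint a.row.sites b.row.sites → Disjoint a.C b.C →
        Disjoint a.C b.row.sites → Disjoint b.C a.row.sites →
        PeelCol.Apart (a.toPeel hr Ub y) (b.toPeel hr Ub y) := by
      intro a b d1 d2 d3 d4
      refine ⟨?_, ?_, ?_, d2⟩
      · refine Finset.disjoint_of_subset_left (hGs a) (Finset.disjoint_of_subset_right (hGs b) ?_)
        rw [Finset.disjoint_union_left, Finset.disjoint_union_right, Finset.disjoint_union_right]
        exact ⟨⟨d1, d4.symm⟩, d3, d2⟩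
      · refine Finset.disjoint_of_subset_left (hGs a) ?_
        rw [Finset.disjoint_union_left]
        exact ⟨d4.symm, d2⟩
      · refine Finset.disjoint_of_subset_right (hGs b) ?_
        rw [Finset.disjoint_union_right]
        exact ⟨d3, d2⟩
    exact hkey h h' h4 h1 h2 h3
  have hTR : ∀ c ∈ X.map (fun h => h.toPeel hr Ub y), Disjoint (uni nl Row.sites) c.Gs := by
    intro c hc
    obtain ⟨h, hh, rfl⟩ := List.mem_map.mp hc
    refine disjoint_comm.mp (Finset.disjoint_of_subset_left (?_ : _ ⊆ h.row.sites ∪ h.Gp) ?_)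
    · intro q hq
      have hq1 : q ∈ (h.row.S ∪ (h.row.U \ Ub)) ∪ h.Gp := hq
      rcases Finset.mem_union.mp hq1 with hq2 | hq2
      · rcases Finset.mem_union.mp hq2 with hq3 | hq3
        · exact Finset.mem_union_left _ (Finset.mem_union_left _ hq3)
        · exact Finset.mem_union_left _ (Finset.mem_union_right _ (Finset.mem_sdiff.mp hq3).1)
      · exact Finset.mem_union_right _ hq2
    · rw [Finset.disjoint_union_left]
      exact ⟨disjoint_uni_right (fun g hg => hXnl h hh g hg),
        disjoint_uni_right (fun g hg => hGnl h hh g hg)⟩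
  have hTK' : ∀ c ∈ X.map (fun h => h.toPeel hr Ub y), Disjoint TK c.Cs := by
    intro c hc
    obtain ⟨h, hh, rfl⟩ := List.mem_map.mp hc
    exact hTK h hh
  have hpeel := peel (X.map (fun h => h.toPeel hr Ub y)) hApart R K (uni nl Row.sites) TK hRm hKm
    hRp hKp hTR hTK'
  rw [List.map_map, List.map_map] at hpeel
  have hbmap : (PeelCol.b ∘ fun h : MCol Q => h.toPeel hr Ub y) =
      (fun h => (h.toPeel hr Ub y).b) := rfl
  have hamap : (PeelCol.a ∘ fun h : MCol Q => h.toPeel hr Ub y) =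
      (fun h => ((h.cval r y : ℝ) : ℂ) • h.Pp r y) := rfl
  rw [hbmap, hamap, prod_smul_map] at hpeel
  refine hpeel.trans ?_
  -- the dominating product
  set w : Q → Bool → ℂ := fun q => if q ∈ Ub then pinKet r y q else eK q with hw
  have hwu : ∀ T : Finset Q, UnitOn T w := by
    intro T q _
    simp only [hw]
    by_cases hq : q ∈ Ub
    · simp only [hq, if_true]
      exact pinKet_unit (T := {q}) (fun q _ => hr q) y q (by simp)
    · simp only [hq, if_false]
      exact ip_ketZero
  have hPU : ∀ h ∈ X, h.PU ⊆ Ub := fun h hh q hq => mem_uni.mpr ⟨h, hh, hq⟩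
  have hGUb : ∀ h ∈ X, Disjoint h.Gp Ub := by
    intro h hh
    refine disjoint_uni_right (fun a ha => ?_)
    rcases hdC h hh a ha with rfl | hap
    · exact h.hd1
    · exact Finset.disjoint_of_subset_left h.Gp_sub (Finset.disjoint_of_subset_right a.PU_sub hap.1)
  have hNUb : ∀ h ∈ X, Disjoint h.NS Ub := by
    intro h hh
    refine disjoint_uni_right (fun a ha => ?_)
    rcases hdC h hh a ha with rfl | hap
    · exact h.hd3.symm
    · exact Finset.disjoint_of_subset_left h.NS_sub (Finset.disjoint_of_subset_right a.PU_sub hap.1)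
  have hPpw : ∀ h ∈ X, h.Pp r y = kb (h.Gp ∪ h.PU) w w := by
    intro h hh
    unfold MCol.Pp MCol.P
    have e1 : kb h.Gp eK eK = kb h.Gp w w := by
      refine kb_congr ?_ ?_ <;>
      · intro q hq
        have : q ∉ Ub := fun h2 => Finset.disjoint_left.mp (hGUb h hh) hq h2
        simp [hw, this]
    have e2 : kb h.PU (pinKet r y) (pinKet r y) = kb h.PU w w := by
      refine kb_congr ?_ ?_ <;>
      · intro q hq
        have : q ∈ Ub := hPU h hh hq
        simp [hw, this]
    rw [e1, e2, kb_mul_disjoint h.hd1, merge_self]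
  have hPpprod : (X.map (fun h => h.Pp r y)).prod = kb (uni X (fun h => h.Gp ∪ h.PU)) w w := by
    rw [List.map_congr_left hPpw]
    refine prod_kb_union w ?_
    refine List.Pairwise.imp ?_ hX
    intro a b hab
    refine Finset.disjoint_of_subset_left ?_ (Finset.disjoint_of_subset_right ?_ hab.1)
    · exact Finset.union_subset a.Gp_sub a.PU_sub
    · exact Finset.union_subset b.Gp_sub b.PU_sub
  rw [hPpprod]
  set GP := uni X (fun h => h.Gp ∪ h.PU) with hGP
  set Sx := uni X MCol.NS with hSx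
  set CX := uni X MCol.C with hCX
  have hCXeq : CX = Sx ∪ GP := by
    ext q
    simp only [hCX, hSx, hGP, Finset.mem_union, mem_uni]
    constructor
    · rintro ⟨h, hh, hq⟩
      rw [h.hC] at hq
      rcases Finset.mem_union.mp hq with hq1 | hq1
      · right; exact ⟨h, hh, Finset.mem_union.mp hq1⟩
      · left; exact ⟨h, hh, hq1⟩
    · rintro (⟨h, hh, hq⟩ | ⟨h, hh, hq⟩)
      · exact ⟨h, hh, h.NS_sub hq⟩
      · exact ⟨h, hh, Finset.union_subset h.Gp_sub h.PU_sub (Finset.mem_union.mpr hq)⟩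
  have hTKCX : Disjoint TK CX := disjoint_uni_right hTK
  have hSG : Disjoint Sx GP := by
    refine disjoint_uni_right (fun a ha => ?_)
    rw [disjoint_comm]
    refine disjoint_uni_right (fun b hb => ?_)
    rcases hdC a ha b hb with rfl | hap
    · rw [Finset.disjoint_union_left]
      exact ⟨a.hd2, a.hd3⟩
    · refine Finset.disjoint_of_subset_left (Finset.union_subset a.Gp_sub a.PU_sub)
        (Finset.disjoint_of_subset_right b.NS_sub hap.1)
  have hGPCX : GP ⊆ CX := by rw [hCXeq]; exact Finset.subset_union_right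
  have hSxCX : Sx ⊆ CX := by rw [hCXeq]; exact Finset.subset_union_left
  -- positivity of `Z`
  set Z := kb GP w w * K with hZ
  have hcomZ : kb GP w w * K = K * kb GP w w :=
    commute_spanOn (Finset.disjoint_of_subset_left hGPCX hTKCX.symm)
      (kb_mem_spanOn (Finset.Subset.refl _) _ _) hKm
  have hZp : Z.PosSemidef := psd_mul_of_commute (kb_psd (hwu _)) hKp hcomZ
  have hZm : Z ∈ SpanOn (GP ∪ TK) :=
    mul_mem_spanOn (kb_mem_spanOn Finset.subset_union_left _ _)
      (spanOn_mono Finset.subset_union_right hKm)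
  have hSxeq : uni nl (fun g => g.S ∩ Sx) = Sx := by
    ext q
    simp only [mem_uni, Finset.mem_inter]
    constructor
    · rintro ⟨g, _, _, hq⟩
      exact hq
    · intro hq
      obtain ⟨h, hh, hqh⟩ := mem_uni.mp hq
      obtain ⟨g, hg, hqg⟩ := mem_uni.mp (hNS h hh hqh)
      exact ⟨g, hg, hqg, hq⟩
  have hreset := reset_rows hr Ub Sx y nl hnl Z (GP ∪ TK) hZm hZp (by
    rw [hSxeq, Finset.disjoint_union_left]
    exact ⟨hSG.symm, Finset.disjoint_of_subset_right hSxCX hTKCX⟩)
  rw [hSxeq] at hreset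
  have hSxw : kb Sx eK eK = kb Sx w w := by
    refine kb_congr ?_ ?_ <;>
    · intro q hq
      obtain ⟨h, hh, hqh⟩ := mem_uni.mp hq
      have : q ∉ Ub := fun h2 => Finset.disjoint_left.mp (hNUb h hh) hqh h2
      simp [hw, this]
  have hCXw : (kb Sx eK eK * Z).trace = (kb CX eK eK * K).trace := by
    rw [hZ, hSxw, ← Matrix.mul_assoc, kb_mul_disjoint hSG, merge_self, ← hCXeq]
    exact trace_kb_swap (hwu _) (eK_unit _)
      (mem_spanOn_compl_of_disjoint hTKCX.symm hKm)
  rw [hCXw] at hreset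
  have hCprod : (X.map (fun h => kb h.C eK eK)).prod = (kb CX eK eK : MM Q) := by
    refine prod_kb_union eK ?_
    exact List.Pairwise.imp (fun hab => hab.1) hX
  rw [hCprod]
  have hcn : 0 ≤ (X.map (fun h => h.cval r y)).prod :=
    list_prod_nonneg (fun h _ => h.cval_nonneg r y)
  have e3 : (R * ((((X.map (fun h => h.cval r y)).prod : ℝ) : ℂ) • kb GP w w) * K).trace.re =
      (X.map (fun h => h.cval r y)).prod * (R * Z).trace.re := by
    rw [Matrix.mul_smul, Matrix.smul_mul, Matrix.trace_smul, smul_eq_mul, Complex.re_ofReal_mul, hZ,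
      Matrix.mul_assoc]
  rw [e3]
  exact mul_le_mul_of_nonneg_left hreset hcn

theorem MCol.cval_congr (h : MCol Q) (r : Q → Bool → ℂ) {y y' : Q → Bool}
    (hy : ∀ q ∈ h.PU, y q = y' q) : h.cval r y = h.cval r y' := by
  unfold MCol.cval
  rw [h.P_congr r hy]

theorem WS_prod_indep {r : Q → Bool → ℂ} (X : List (MCol Q))
    (hX : X.Pairwise (fun h h' => Disjoint h.PU h'.PU)) :
    WS (uni X MCol.PU) (fun y => (X.map (fun h => h.cval r y)).prod) =
      (X.map (fun h => h.beta r)).prod := by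
  induction X with
  | nil =>
    simp only [List.map_nil, List.prod_nil]
    exact WS_empty_const 1
  | cons h X ih =>
    rw [List.pairwise_cons] at hX
    simp only [List.map_cons, List.prod_cons]
    rw [uni_cons, WS_mul_of_indep h.PU (uni X MCol.PU)
      (disjoint_uni_right hX.1) (fun y y' hy => h.cval_congr r hy), ih hX.2]
    · rfl
    · intro y y' hy
      have : ∀ a ∈ X, a.cval r y = a.cval r y' := fun a ha =>
        a.cval_congr r (fun q hq => hy q (mem_uni.mpr ⟨a, ha, hq⟩))
      rw [List.map_congr_left this]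

theorem WS_real_mul_const (T : Finset Q) (F : (Q → Bool) → ℝ) (c : ℝ) :
    WS T (fun y => F y * c) = WS T F * c := by
  unfold WS
  rw [smul_eq_mul, smul_eq_mul, ← Finset.sum_mul, mul_assoc]

/-- The first main estimate. -/
theorem thmM {r : Q → Bool → ℂ} (hr : ∀ q, ip (r q) (r q) = 1) (X : List (MCol Q))
    (nl : List (Row Q)) (K : MM Q) (TK : Finset Q)
    (hX : X.Pairwise MCol.Apart)
    (hXr : X.Pairwise (fun h h' => Disjoint h.row.sites h'.row.sites))
    (hnl : nl.Pairwise (fun g g' => Disjoint g.sites g'.sites))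
    (hXnl : ∀ h ∈ X, ∀ g ∈ nl, Disjoint h.row.sites g.sites)
    (hGnl : ∀ h ∈ X, ∀ g ∈ nl, Disjoint h.Gp g.sites)
    (hNS : ∀ h ∈ X, h.NS ⊆ uni nl Row.S)
    (hPUS : ∀ h ∈ X, ∀ g ∈ nl, Disjoint h.PU g.S)
    (hKm : K ∈ SpanOn TK) (hKp : K.PosSemidef) (hTK : ∀ h ∈ X, Disjoint TK h.C) :
    ‖((X.map (fun h => h.row.W r)).prod * (nl.map (fun g => g.W r)).prod *
        (X.map MCol.tau).prod * K).trace‖ ≤
      (X.map (fun h => h.beta r)).prod * ((X.map (fun h => kb h.C eK eK)).prod * K).trace.re := by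
  set Ub := uni X MCol.PU with hUb
  set A := (X.map (fun h => h.row.W r)).prod with hA
  set B := (nl.map (fun g => g.W r)).prod with hB
  set Tt := (X.map MCol.tau).prod with hTt
  have hrU : UnitOn Ub r := fun q _ => hr q
  -- pin expansion
  have h1 : (A * B * Tt * K).trace =
      WS Ub (fun y => (A * B * kb Ub (pinKet r y) (pinKet r y) * Tt * K).trace) := by
    rw [← trace_WS]
    congr 1
    have h2 := WS_kb_pin hrU
    calc A * B * Tt * K = (A * B) * (WS Ub (fun y => kb Ub (pinKet r y) (pinKet r y))) * Tt * K := by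
          rw [h2, Matrix.mul_one]
      _ = _ := by rw [WS_mul_left, WS_mul_right, WS_mul_right]
  rw [h1]
  have hpt : ∀ y, ‖(A * B * kb Ub (pinKet r y) (pinKet r y) * Tt * K).trace‖ ≤
      (X.map (fun h => h.cval r y)).prod * ((X.map (fun h => kb h.C eK eK)).prod * K).trace.re := by
    intro y
    have hpw := thmM_pointwise hr X nl K TK y hX hXr hnl hXnl hGnl hNS hKm hKp hTK
    rw [← hUb] at hpw
    set Py := kb Ub (pinKet r y) (pinKet r y) with hPy
    set Gd := (X.map (fun h => h.row.G r Ub y)).prod with hGd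
    set Gn := (nl.map (fun g : Row Q => g.G r Ub y)).prod with hGn
    have hPUdisj : X.Pairwise (fun a b => Disjoint a.PU b.PU) :=
      List.Pairwise.imp (fun {a b} hab => Finset.disjoint_of_subset_left a.PU_sub
        (Finset.disjoint_of_subset_right b.PU_sub hab.1)) hX
    have hPyprod : Py = (X.map (fun h => h.P r y)).prod := (prod_kb_union _ hPUdisj).symm
    -- rows against the pins
    have hsymm : ∀ a b : MCol Q, MCol.Apart a b → MCol.Apart b a :=
      fun a b hab => ⟨hab.1.symm, hab.2.2, hab.2.1⟩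
    have hdC := pairwise_or_eq hsymm hX
    have hUbC : ∀ q ∈ Ub, ∃ h ∈ X, q ∈ h.PU := fun q hq => mem_uni.mp hq
    have hdRow : ∀ h ∈ X, Disjoint (h.row.S ∪ (h.row.U \ Ub)) Ub := by
      intro h hh
      refine disjoint_uni_right (fun a ha => ?_)
      rw [Finset.disjoint_left]
      intro q hq hqa
      rcases Finset.mem_union.mp hq with hq1 | hq1
      · have hq2 : q ∈ h.row.sites := Finset.mem_union_left _ hq1
        rcases hdC h hh a ha with rfl | hap
        · exact Finset.disjoint_left.mp h.PU_row hqa hq2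
        · exact Finset.disjoint_left.mp hap.2.2 (a.PU_sub hqa) hq2
      · exact (Finset.mem_sdiff.mp hq1).2 (mem_uni.mpr ⟨a, ha, hqa⟩)
    have hdNl : ∀ g ∈ nl, Disjoint (g.S ∪ (g.U \ Ub)) Ub := by
      intro g hg
      rw [Finset.disjoint_left]
      intro q hq hqU
      obtain ⟨a, ha, hqa⟩ := hUbC q hqU
      rcases Finset.mem_union.mp hq with hq1 | hq1
      · exact Finset.disjoint_left.mp (hPUS a ha g hg) hqa hq1
      · exact (Finset.mem_sdiff.mp hq1).2 hqU
    have hPyC : ∀ {T : Finset Q} {Y : MM Q}, Disjoint T Ub → Y ∈ SpanOn T → Y * Py = Py * Y := by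
      intro T Y hd hY
      exact commute_spanOn hd hY (kb_mem_spanOn (Finset.Subset.refl _) _ _)
    have hBP : B * Py = Gn * Py := by
      refine prod_mul_of_pin (fun g _ => g.W_pin hr Ub y) (fun g hg => ?_)
      exact hPyC (hdNl g hg) (g.G_mem r Ub y)
    have hAP : A * Py = Gd * Py := by
      refine prod_mul_of_pin (l := X) (W := fun h => h.row.W r) (G := fun h => h.row.G r Ub y)
        (fun h _ => h.row.W_pin hr Ub y) (fun h hh => ?_)
      exact hPyC (hdRow h hh) (h.row.G_mem r Ub y)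
    have hGnP : Gn * Py = Py * Gn :=
      prod_commute_of (fun g hg => hPyC (hdNl g hg) (g.G_mem r Ub y))
    have mGd : Gd ∈ SpanOn (uni X (fun h => h.row.sites)) := prod_mem_spanOn (fun a ha =>
      spanOn_mono (fun q hq => mem_uni.mpr ⟨a, ha, hq⟩) (a.row.G_mem' r Ub y))
    have mGn : Gn ∈ SpanOn (uni nl Row.sites) := (prod_G_psd hr Ub y nl hnl).2
    have hGG : Gd * Gn = Gn * Gd := by
      refine commute_spanOn ?_ mGd mGn
      refine disjoint_uni_right (fun g hg => ?_)
      rw [disjoint_comm]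
      exact disjoint_uni_right (fun h hh => (hXnl h hh g hg).symm)
    have e1 : A * B * Py = Gn * Gd * Py := by
      calc A * B * Py = A * (B * Py) := Matrix.mul_assoc _ _ _
        _ = A * (Py * Gn) := by rw [hBP, hGnP]
        _ = (A * Py) * Gn := (Matrix.mul_assoc _ _ _).symm
        _ = Gd * (Py * Gn) := by rw [hAP, Matrix.mul_assoc]
        _ = Gd * Gn * Py := by rw [← hGnP, Matrix.mul_assoc]
        _ = _ := by rw [hGG]
    rw [e1]
    have hre := rearrange hr Ub y X hX Gn K (fun h hh => ?_) (fun h hh => ?_)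
    · rw [hPyprod]
      rw [hre]
      exact hpw
    · have hd : Disjoint (uni nl (fun g : Row Q => g.S ∪ (g.U \ Ub))) h.PU := by
        rw [disjoint_comm]
        refine disjoint_uni_right (fun g hg => ?_)
        exact disjoint_comm.mp (Finset.disjoint_of_subset_right (fun q hq => mem_uni.mpr ⟨h, hh, hq⟩)
          (hdNl g hg))
      refine commute_spanOn hd ?_ (h.P_mem' r y)
      exact prod_mem_spanOn (fun g hg =>
        spanOn_mono (fun q hq => mem_uni.mpr ⟨g, hg, hq⟩) (g.G_mem r Ub y))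
    · exact commute_spanOn (hTK h hh) hKm (h.P_mem r y)
  have hfinal := norm_WS_le Ub (fun y => (A * B * kb Ub (pinKet r y) (pinKet r y) * Tt * K).trace)
  refine hfinal.trans ((WS_real_le Ub hpt).trans ?_)
  rw [WS_real_mul_const, WS_prod_indep]
  exact List.Pairwise.imp (fun {a b} hab => Finset.disjoint_of_subset_left a.PU_sub
    (Finset.disjoint_of_subset_right b.PU_sub hab.1)) hX

end ThmM

end Vale.Agent.Lib.P368

/-!
A Leibniz class of operator valued functions of binary variables.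
-/

set_option linter.unusedSectionVars false
set_option linter.unusedSimpArgs false
set_option linter.unusedVariables false

namespace Vale.Agent.Lib.P368

open Matrix
open scoped Matrix.Norms.L2Operator ComplexConjugate ComplexOrder

section Bd

variable {Q : Type*} [Fintype Q] [DecidableEq Q]
variable {ι : Type*} [DecidableEq ι]

/-- Functions with bounded iterated differences in the variables of a list. -/
def Bd (W : ι → ℝ) : List ι → ℝ → ((ι → Bool) → MM Q) → Prop
  | [], c, F => ∀ v, ‖F v‖ ≤ c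
  | h :: L, c, F =>
      Bd W L c (fun v => F (Function.update v h false)) ∧
      Bd W L c (fun v => F (Function.update v h true)) ∧
      Bd W L (c * W h) (fun v => F (Function.update v h false) - F (Function.update v h true))

theorem Bd.add {W : ι → ℝ} {L : List ι} : ∀ {c c' : ℝ} {F G : (ι → Bool) → MM Q},
    Bd W L c F → Bd W L c' G → Bd W L (c + c') (fun v => F v + G v) := by
  induction L with
  | nil =>
    intro c c' F G hF hG v
    exact (norm_add_le _ _).trans (add_le_add (hF v) (hG v))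
  | cons h L ih =>
    intro c c' F G hF hG
    refine ⟨ih hF.1 hG.1, ih hF.2.1 hG.2.1, ?_⟩
    have h1 := ih hF.2.2 hG.2.2
    have e : (fun v => F (Function.update v h false) + G (Function.update v h false) -
        (F (Function.update v h true) + G (Function.update v h true))) =
        (fun v => (F (Function.update v h false) - F (Function.update v h true)) +
          (G (Function.update v h false) - G (Function.update v h true))) := by
      funext v
      abel
    rw [e, add_mul]
    exact h1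

theorem Bd.sub {W : ι → ℝ} {L : List ι} : ∀ {c c' : ℝ} {F G : (ι → Bool) → MM Q},
    Bd W L c F → Bd W L c' G → Bd W L (c + c') (fun v => F v - G v) := by
  induction L with
  | nil =>
    intro c c' F G hF hG v
    exact (norm_sub_le _ _).trans (add_le_add (hF v) (hG v))
  | cons h L ih =>
    intro c c' F G hF hG
    refine ⟨ih hF.1 hG.1, ih hF.2.1 hG.2.1, ?_⟩
    have h1 := ih hF.2.2 hG.2.2
    have e : (fun v => F (Function.update v h false) - G (Function.update v h false) -
        (F (Function.update v h true) - G (Function.update v h true))) =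
        (fun v => (F (Function.update v h false) - F (Function.update v h true)) -
          (G (Function.update v h false) - G (Function.update v h true))) := by
      funext v
      abel
    rw [e, add_mul]
    exact h1

theorem Bd.mul {W W' : ι → ℝ} {L : List ι} : ∀ {c c' : ℝ} {F G : (ι → Bool) → MM Q},
    Bd W L c F → Bd W' L c' G → Bd (fun h => W h + W' h) L (c * c') (fun v => F v * G v) := by
  induction L with
  | nil =>
    intro c c' F G hF hG v
    refine (Matrix.l2_opNorm_mul _ _).trans ?_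
    have h1 := hF v
    have h2 := hG v
    have h3 := norm_nonneg (F v)
    have h4 := norm_nonneg (G v)
    exact mul_le_mul h1 h2 h4 (h3.trans h1)
  | cons h L ih =>
    intro c c' F G hF hG
    refine ⟨ih hF.1 hG.1, ih hF.2.1 hG.2.1, ?_⟩
    have h1 := ih hF.2.2 hG.1
    have h2 := ih hF.2.1 hG.2.2
    have h3 := Bd.add h1 h2
    have e : (fun v => F (Function.update v h false) * G (Function.update v h false) -
        F (Function.update v h true) * G (Function.update v h true)) =
        (fun v => (F (Function.update v h false) - F (Function.update v h true)) *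
            G (Function.update v h false) +
          F (Function.update v h true) *
            (G (Function.update v h false) - G (Function.update v h true))) := by
      funext v
      simp only [Matrix.sub_mul, Matrix.mul_sub]
      abel
    rw [e]
    have e2 : c * c' * (W h + W' h) = c * W h * c' + c * (c' * W' h) := by ring
    rw [e2]
    exact h3

theorem Bd.smul_left {W : ι → ℝ} {L : List ι} (X : MM Q) : ∀ {c : ℝ} {F : (ι → Bool) → MM Q},
    Bd W L c F → Bd W L (‖X‖ * c) (fun v => X * F v) := by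
  induction L with
  | nil =>
    intro c F hF v
    refine (Matrix.l2_opNorm_mul _ _).trans ?_
    exact mul_le_mul_of_nonneg_left (hF v) (norm_nonneg _)
  | cons h L ih =>
    intro c F hF
    refine ⟨ih hF.1, ih hF.2.1, ?_⟩
    have h1 := ih hF.2.2
    have e : (fun v => X * F (Function.update v h false) - X * F (Function.update v h true)) =
        (fun v => X * (F (Function.update v h false) - F (Function.update v h true))) := by
      funext v
      rw [Matrix.mul_sub]
    rw [e, mul_assoc]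
    exact h1

theorem Bd.const {W : ι → ℝ} (hW : ∀ h, 0 ≤ W h) {L : List ι} : ∀ {C : MM Q} {c : ℝ},
    ‖C‖ ≤ c → Bd W L c (fun _ => C) := by
  induction L with
  | nil =>
    intro C c hc v
    exact hc
  | cons h L ih =>
    intro C c hc
    refine ⟨ih hc, ih hc, ?_⟩
    have h1 : (fun _ : ι → Bool => C - C) = (fun _ => (0 : MM Q)) := by
      funext v
      simp
    rw [h1]
    apply ih
    rw [norm_zero]
    exact mul_nonneg ((norm_nonneg C).trans hc) (hW h)

/-- The operator obtained by summing over the variables of a list with the operators `R`. -/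
noncomputable def bdOp (R0 R1 : ι → MM Q) : List ι → ((ι → Bool) → MM Q) → (ι → Bool) → MM Q
  | [], F, v => F v
  | h :: L, F, v => R0 h * bdOp R0 R1 L F (Function.update v h false) +
      R1 h * bdOp R0 R1 L F (Function.update v h true)

theorem bdOp_sub (R0 R1 : ι → MM Q) (L : List ι) (F G : (ι → Bool) → MM Q) (v : ι → Bool) :
    bdOp R0 R1 L (fun v => F v - G v) v = bdOp R0 R1 L F v - bdOp R0 R1 L G v := by
  induction L generalizing v with
  | nil => rfl
  | cons h L ih =>
    simp only [bdOp]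
    rw [ih, ih]
    simp only [Matrix.mul_sub]
    abel

theorem bdOp_update (R0 R1 : ι → MM Q) {L : List ι} {h : ι} (hh : h ∉ L) (b : Bool)
    (F : (ι → Bool) → MM Q) (v : ι → Bool) :
    bdOp R0 R1 L F (Function.update v h b) =
      bdOp R0 R1 L (fun v => F (Function.update v h b)) v := by
  induction L generalizing v with
  | nil => rfl
  | cons a L ih =>
    have hne : a ≠ h := fun e => hh (by simp [e])
    have hL : h ∉ L := fun e => hh (by simp [e])
    simp only [bdOp]
    rw [Function.update_comm hne.symm b false v, Function.update_comm hne.symm b true v, ih hL, ih hL]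

/-- The norm of the summed operator. -/
theorem bdOp_norm_le {W : ι → ℝ} {R0 R1 X Y0 Y1 : ι → MM Q}
    (h0 : ∀ h, R0 h = X h + Y0 h) (h1 : ∀ h, R1 h = - X h + Y1 h) {L : List ι} (hL : L.Nodup) :
    ∀ {c : ℝ} {F : (ι → Bool) → MM Q}, Bd W L c F → ∀ v,
      ‖bdOp R0 R1 L F v‖ ≤ c * (L.map (fun h => ‖X h‖ * W h + ‖Y0 h‖ + ‖Y1 h‖)).prod := by
  induction L with
  | nil =>
    intro c F hF v
    simpa [bdOp] using hF v
  | cons h L ih =>
    intro c F hF v
    rw [List.nodup_cons] at hL
    obtain ⟨hh, hL'⟩ := hL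
    simp only [bdOp, List.map_cons, List.prod_cons]
    rw [bdOp_update R0 R1 hh, bdOp_update R0 R1 hh]
    set A := bdOp R0 R1 L (fun v => F (Function.update v h false)) v with hA
    set B := bdOp R0 R1 L (fun v => F (Function.update v h true)) v with hB
    set P := (L.map (fun h => ‖X h‖ * W h + ‖Y0 h‖ + ‖Y1 h‖)).prod with hP
    have hAb : ‖A‖ ≤ c * P := ih hL' hF.1 v
    have hBb : ‖B‖ ≤ c * P := ih hL' hF.2.1 v
    have hDb : ‖A - B‖ ≤ c * W h * P := by
      rw [hA, hB, ← bdOp_sub]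
      exact ih hL' hF.2.2 v
    have e : R0 h * A + R1 h * B = X h * (A - B) + Y0 h * A + Y1 h * B := by
      rw [h0, h1]
      simp only [Matrix.add_mul, Matrix.neg_mul, Matrix.mul_sub]
      abel
    rw [e]
    have b1 : ‖X h * (A - B)‖ ≤ ‖X h‖ * (c * W h * P) :=
      (Matrix.l2_opNorm_mul _ _).trans (mul_le_mul_of_nonneg_left hDb (norm_nonneg _))
    have b2 : ‖Y0 h * A‖ ≤ ‖Y0 h‖ * (c * P) :=
      (Matrix.l2_opNorm_mul _ _).trans (mul_le_mul_of_nonneg_left hAb (norm_nonneg _))
    have b3 : ‖Y1 h * B‖ ≤ ‖Y1 h‖ * (c * P) :=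
      (Matrix.l2_opNorm_mul _ _).trans (mul_le_mul_of_nonneg_left hBb (norm_nonneg _))
    calc ‖X h * (A - B) + Y0 h * A + Y1 h * B‖
        ≤ ‖X h * (A - B)‖ + ‖Y0 h * A‖ + ‖Y1 h * B‖ := norm_add₃_le
      _ ≤ ‖X h‖ * (c * W h * P) + ‖Y0 h‖ * (c * P) + ‖Y1 h‖ * (c * P) := by gcongr
      _ = _ := by ring

/-- Affine functions of products of scalars: the difference part. -/
theorem bd_prod_diff {W : ι → ℝ} {τ : ι → Bool → ℝ} (hτ : ∀ h b, 0 ≤ τ h b ∧ τ h b ≤ 1)
    (hW : ∀ h, W h = |τ h false - τ h true|) {D : MM Q} {d : ℝ} (hD : ‖D‖ ≤ d) {L : List ι}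
    (hL : L.Nodup) : ∀ {κ c : ℝ}, |κ| * d ≤ c →
      Bd W L c (fun v => (((κ * (L.map (fun h => τ h (v h))).prod : ℝ) : ℂ)) • D) := by
  induction L with
  | nil =>
    intro κ c hc v
    simp only [List.map_nil, List.prod_nil, mul_one]
    rw [norm_smul, Complex.norm_real, Real.norm_eq_abs]
    exact (mul_le_mul_of_nonneg_left hD (abs_nonneg _)).trans hc
  | cons h L ih =>
    intro κ c hc
    rw [List.nodup_cons] at hL
    obtain ⟨hh, hL'⟩ := hL
    have hd0 : 0 ≤ d := (norm_nonneg D).trans hD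
    have hfun : ∀ (b : Bool) (v : ι → Bool),
        ((((κ * ((h :: L).map (fun a => τ a ((Function.update v h b) a))).prod : ℝ) : ℂ)) • D) =
          (((((κ * τ h b) * (L.map (fun a => τ a (v a))).prod : ℝ) : ℂ)) • D) := by
      intro b v
      simp only [List.map_cons, List.prod_cons, Function.update_self]
      have : L.map (fun a => τ a ((Function.update v h b) a)) = L.map (fun a => τ a (v a)) := by
        refine List.map_congr_left (fun a ha => ?_)
        have hne : a ≠ h := fun e => hh (e ▸ ha)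
        rw [Function.update_of_ne hne]
      rw [this, mul_assoc]
    have hk : ∀ b, |κ * τ h b| * d ≤ c := by
      intro b
      rw [abs_mul, abs_of_nonneg (hτ h b).1]
      refine le_trans ?_ hc
      have h1 := (hτ h b).2
      have h2 := abs_nonneg κ
      nlinarith [mul_nonneg h2 hd0, mul_le_mul_of_nonneg_left h1 (mul_nonneg h2 hd0)]
    refine ⟨?_, ?_, ?_⟩
    · simp only [hfun]
      exact ih hL' (hk false)
    · simp only [hfun]
      exact ih hL' (hk true)
    · simp only [hfun]
      have e : (fun v : ι → Bool =>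
          ((((κ * τ h false) * (L.map (fun a => τ a (v a))).prod : ℝ) : ℂ)) • D -
          ((((κ * τ h true) * (L.map (fun a => τ a (v a))).prod : ℝ) : ℂ)) • D) =
          (fun v => (((((κ * (τ h false - τ h true)) * (L.map (fun a => τ a (v a))).prod : ℝ) : ℂ))) • D) := by
        funext v
        rw [← sub_smul]
        congr 1
        push_cast
        ring
      rw [e]
      apply ih hL'
      rw [abs_mul, hW h]
      have h3 := mul_le_mul_of_nonneg_right hc (abs_nonneg (τ h false - τ h true))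
      nlinarith [h3]

end Bd

end Vale.Agent.Lib.P368

/-!
Two rank one projectors, and the contraction of rows.
-/

set_option linter.unusedSectionVars false
set_option linter.unusedSimpArgs false
set_option linter.unusedVariables false

namespace Vale.Agent.Lib.P368

open Matrix
open scoped Matrix.Norms.L2Operator ComplexConjugate ComplexOrder

section TwoProj

variable {Q : Type*} [Fintype Q] [DecidableEq Q]

theorem norm_herm_sq {A : MM Q} (hA : Aᴴ = A) : ‖A * A‖ = ‖A‖ ^ 2 := by
  have h := Matrix.l2_opNorm_conjTranspose_mul_self A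
  rw [hA] at h
  rw [h, sq]

theorem two_proj_diff {P P' : MM Q} (hP : Pᴴ = P) (hP2 : P * P = P) (hP' : P'ᴴ = P')
    (hP'2 : P' * P' = P') {c2 : ℝ} (hc : c2 ≤ 1)
    (h1 : P * P' * P = ((c2 : ℝ) : ℂ) • P) (h2 : P' * P * P' = ((c2 : ℝ) : ℂ) • P') :
    ‖P - P'‖ ^ 2 ≤ 1 - c2 := by
  set A := P - P' with hA
  have hAh : Aᴴ = A := by rw [hA, conjTranspose_sub, hP, hP']
  have h3 : A * A * A = ((1 - c2 : ℝ) : ℂ) • A := by
    have e1 : P * (P * P') = P * P' := by rw [← Matrix.mul_assoc, hP2]
    have e2 : P' * (P' * P) = P' * P := by rw [← Matrix.mul_assoc, hP'2]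
    have e3 : P * (P' * P) = ((c2 : ℝ) : ℂ) • P := by rw [← Matrix.mul_assoc, h1]
    have e4 : P' * (P * P') = ((c2 : ℝ) : ℂ) • P' := by rw [← Matrix.mul_assoc, h2]
    have e5 : P * (P' * P') = P * P' := by rw [hP'2]
    have e6 : P' * (P * P) = P' * P := by rw [hP2]
    rw [hA]
    simp only [Matrix.mul_sub, Matrix.sub_mul, Matrix.mul_assoc, hP2, hP'2, e1, e2, e3, e4, e5, e6]
    push_cast
    rw [sub_smul, one_smul, smul_sub]
    abel
  have h4 : (A * A) * (A * A) = ((1 - c2 : ℝ) : ℂ) • (A * A) := by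
    rw [← Matrix.mul_assoc, h3, Matrix.smul_mul]
  have h5 : ‖(A * A) * (A * A)‖ = ‖A‖ ^ 2 * ‖A‖ ^ 2 := by
    have hAA : (A * A)ᴴ = A * A := by rw [conjTranspose_mul, hAh]
    rw [norm_herm_sq hAA, norm_herm_sq hAh]
    ring
  rw [h4, norm_smul, norm_herm_sq hAh, Complex.norm_real, Real.norm_eq_abs,
    abs_of_nonneg (by linarith)] at h5
  by_cases h0 : ‖A‖ = 0
  · rw [h0]
    simp
    linarith
  · have h6 : ‖A‖ ^ 2 ≠ 0 := by positivity
    have h7 : (1 - c2) = ‖A‖ ^ 2 := by
      have : (1 - c2) * ‖A‖ ^ 2 = ‖A‖ ^ 2 * ‖A‖ ^ 2 := h5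
      exact mul_right_cancel₀ h6 this
    linarith

theorem two_proj_sum {P P' : MM Q} (hP : Pᴴ = P) (hP2 : P * P = P) (hP' : P'ᴴ = P')
    (hP'2 : P' * P' = P') {c c2 : ℝ} (hc0 : 0 ≤ c) (hcc : c ^ 2 = c2)
    (h1 : P * P' * P = ((c2 : ℝ) : ℂ) • P) (h2 : P' * P * P' = ((c2 : ℝ) : ℂ) • P') :
    ‖P + P'‖ ≤ 1 + c := by
  set S := P + P' with hS
  set M := P * P' + P' * P with hM
  have hSh : Sᴴ = S := by rw [hS, conjTranspose_add, hP, hP']
  have hMh : Mᴴ = M := by
    rw [hM, conjTranspose_add, conjTranspose_mul, conjTranspose_mul, hP, hP', add_comm]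
  have hSS : S * S = S + M := by
    rw [hS, hM]
    simp only [Matrix.mul_add, Matrix.add_mul, hP2, hP'2]
    abel
  have hMM : M * M = ((c2 : ℝ) : ℂ) • (S * S) := by
    have e1 : P * P' * (P * P') = ((c2 : ℝ) : ℂ) • (P * P') := by
      rw [← Matrix.mul_assoc, h1, Matrix.smul_mul]
    have e2 : P * P' * (P' * P) = ((c2 : ℝ) : ℂ) • P := by
      rw [Matrix.mul_assoc, ← Matrix.mul_assoc P' P' P, hP'2, ← Matrix.mul_assoc, h1]
    have e3 : P' * P * (P * P') = ((c2 : ℝ) : ℂ) • P' := by
      rw [Matrix.mul_assoc, ← Matrix.mul_assoc P P P', hP2, ← Matrix.mul_assoc, h2]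
    have e4 : P' * P * (P' * P) = ((c2 : ℝ) : ℂ) • (P' * P) := by
      rw [← Matrix.mul_assoc, h2, Matrix.smul_mul]
    rw [hSS, hM, hS]
    simp only [Matrix.mul_add, Matrix.add_mul, e1, e2, e3, e4, smul_add]
    abel
  have h3 : ‖M‖ = c * ‖S‖ := by
    have h4 : ‖M‖ ^ 2 = (c * ‖S‖) ^ 2 := by
      rw [← norm_herm_sq hMh, hMM, norm_smul, norm_herm_sq hSh, Complex.norm_real, Real.norm_eq_abs,
        abs_of_nonneg (by rw [← hcc]; positivity), mul_pow, hcc]
    have h5 : 0 ≤ c * ‖S‖ := mul_nonneg hc0 (norm_nonneg _)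
    exact (pow_left_inj₀ (norm_nonneg _) h5 (by norm_num)).mp h4
  have h6 : ‖S‖ ^ 2 ≤ ‖S‖ + c * ‖S‖ := by
    rw [← norm_herm_sq hSh, hSS, ← h3]
    exact norm_add_le _ _
  by_cases h0 : ‖S‖ = 0
  · rw [h0]
    linarith
  · have h7 : 0 < ‖S‖ := lt_of_le_of_ne (norm_nonneg _) (Ne.symm h0)
    have h8 : ‖S‖ * ‖S‖ ≤ ‖S‖ * (1 + c) := by nlinarith
    exact le_of_mul_le_mul_left h8 h7

/-- The overlap of the two vectors of a row. -/
theorem Row.overlap (g : Row Q) : ∃ c2 : ℝ, 0 ≤ c2 ∧ c2 ≤ 1 ∧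
    g.E0 * g.E1 * g.E0 = ((c2 : ℝ) : ℂ) • g.E0 ∧ g.E1 * g.E0 * g.E1 = ((c2 : ℝ) : ℂ) • g.E1 := by
  have hm : g.N0ᴴ * g.N1 ∈ SpanOn g.S :=
    mul_mem_spanOn (conjTranspose_mem_spanOn g.hN0.1) g.hN1.1
  obtain ⟨z, hz⟩ := kb_sandwich g.S eK hm
  have hN0r : g.N0 * kb g.S eK eK = g.N0 := g.hN0.2
  have hN1r : g.N1 * kb g.S eK eK = g.N1 := g.hN1.2
  have hιh : (kb g.S eK eK : MM Q)ᴴ = kb g.S eK eK := kb_hermitian _ _
  have hN0l : kb g.S eK eK * g.N0ᴴ = g.N0ᴴ := by
    have := congrArg conjTranspose hN0r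
    rwa [conjTranspose_mul, hιh] at this
  have hN1l : kb g.S eK eK * g.N1ᴴ = g.N1ᴴ := by
    have := congrArg conjTranspose hN1r
    rwa [conjTranspose_mul, hιh] at this
  have h01 : g.N0ᴴ * g.N1 = z • kb g.S eK eK := by
    rw [← hz]
    calc g.N0ᴴ * g.N1 = (kb g.S eK eK * g.N0ᴴ) * (g.N1 * kb g.S eK eK) := by rw [hN0l, hN1r]
      _ = _ := by simp only [Matrix.mul_assoc]
  have h10 : g.N1ᴴ * g.N0 = star z • kb g.S eK eK := by
    have := congrArg conjTranspose h01
    rwa [conjTranspose_mul, conjTranspose_conjTranspose, conjTranspose_smul, hιh] at this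
  have hzz : star z * z = ((‖z‖ ^ 2 : ℝ) : ℂ) := by
    rw [Complex.star_def, Complex.conj_mul']
    push_cast
    rfl
  have e0 : g.E0 * g.E1 * g.E0 = ((‖z‖ ^ 2 : ℝ) : ℂ) • g.E0 := by
    unfold Row.E0 Row.E1
    calc g.N0 * g.N0ᴴ * (g.N1 * g.N1ᴴ) * (g.N0 * g.N0ᴴ)
        = g.N0 * (g.N0ᴴ * g.N1) * (g.N1ᴴ * g.N0) * g.N0ᴴ := by simp only [Matrix.mul_assoc]
      _ = (star z * z) • (g.N0 * g.N0ᴴ) := by
          rw [h01, h10]
          simp only [Matrix.mul_smul, Matrix.smul_mul, smul_smul, Matrix.mul_assoc, hN0l]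
      _ = _ := by rw [hzz]
  have e1 : g.E1 * g.E0 * g.E1 = ((‖z‖ ^ 2 : ℝ) : ℂ) • g.E1 := by
    unfold Row.E0 Row.E1
    calc g.N1 * g.N1ᴴ * (g.N0 * g.N0ᴴ) * (g.N1 * g.N1ᴴ)
        = g.N1 * (g.N1ᴴ * g.N0) * (g.N0ᴴ * g.N1) * g.N1ᴴ := by simp only [Matrix.mul_assoc]
      _ = (star z * z) • (g.N1 * g.N1ᴴ) := by
          rw [h01, h10]
          simp only [Matrix.mul_smul, Matrix.smul_mul, smul_smul, Matrix.mul_assoc, hN1l]
          rw [mul_comm]
      _ = _ := by rw [hzz]
  refine ⟨‖z‖ ^ 2, by positivity, ?_, e0, e1⟩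
  -- the norm of the projectors
  have n0 : ‖g.N0‖ = 1 := norm_of_unit g.hN0 g.unit0
  have n1 : ‖g.N1‖ = 1 := norm_of_unit g.hN1 g.unit1
  have nE : ∀ N : MM Q, ‖N‖ = 1 → ‖N * Nᴴ‖ = 1 := by
    intro N hN
    have h5 := Matrix.l2_opNorm_conjTranspose_mul_self Nᴴ
    rw [conjTranspose_conjTranspose, Matrix.l2_opNorm_conjTranspose] at h5
    rw [h5, hN]
    norm_num
  have nE0 : ‖g.E0‖ = 1 := nE _ n0
  have nE1 : ‖g.E1‖ = 1 := nE _ n1
  have h6 : ‖g.E0 * g.E1 * g.E0‖ ≤ 1 := by
    calc ‖g.E0 * g.E1 * g.E0‖ ≤ ‖g.E0 * g.E1‖ * ‖g.E0‖ := Matrix.l2_opNorm_mul _ _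
      _ ≤ (‖g.E0‖ * ‖g.E1‖) * ‖g.E0‖ := by
          gcongr
          exact Matrix.l2_opNorm_mul _ _
      _ = 1 := by rw [nE0, nE1]; norm_num
  rw [e0, norm_smul, nE0, mul_one, Complex.norm_real, Real.norm_eq_abs,
    abs_of_nonneg (by positivity)] at h6
  exact h6

/-- Norm bounds for the two projectors of a row. -/
theorem Row.norm_E0 (g : Row Q) : ‖g.E0‖ ≤ 1 := by
  obtain ⟨h1, h2⟩ := g.E0_proj
  exact projector_norm_le h1 h2

theorem Row.norm_E1 (g : Row Q) : ‖g.E1‖ ≤ 1 := by
  obtain ⟨h1, h2⟩ := g.E1_proj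
  exact projector_norm_le h1 h2

/-- The row with a scalar decision. -/
theorem Row.mix_scalar (g : Row Q) (t : ℝ) :
    g.mix (((t : ℝ) : ℂ) • (1 : MM Q)) = g.E0 + ((t : ℝ) : ℂ) • (g.E1 - g.E0) := by
  unfold Row.mix
  simp only [Matrix.mul_sub, Matrix.mul_one, Matrix.mul_smul, smul_sub]
  abel

theorem Row.norm_mix_scalar (g : Row Q) {t : ℝ} (h0 : 0 ≤ t) (h1 : t ≤ 1) :
    ‖g.mix (((t : ℝ) : ℂ) • (1 : MM Q))‖ ≤ 1 := by
  have e : g.mix (((t : ℝ) : ℂ) • (1 : MM Q)) =
      ((1 - t : ℝ) : ℂ) • g.E0 + ((t : ℝ) : ℂ) • g.E1 := by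
    rw [g.mix_scalar]
    push_cast
    rw [smul_sub, sub_smul, one_smul]
    abel
  rw [e]
  refine (norm_add_le _ _).trans ?_
  rw [norm_smul, norm_smul, Complex.norm_real, Complex.norm_real, Real.norm_eq_abs,
    Real.norm_eq_abs, abs_of_nonneg (by linarith), abs_of_nonneg h0]
  have := g.norm_E0
  have := g.norm_E1
  nlinarith

theorem Row.norm_diff (g : Row Q) : ‖g.E1 - g.E0‖ ≤ 1 := by
  obtain ⟨c2, h0, h1, h2, h3⟩ := g.overlap
  obtain ⟨a1, a2⟩ := g.E0_proj
  obtain ⟨b1, b2⟩ := g.E1_proj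
  have h := two_proj_diff b1 b2 a1 a2 h1 h3 h2
  have h4 := norm_nonneg (g.E1 - g.E0)
  nlinarith

/-- The row operator with scalar decision along a product of scalars. -/
theorem bd_row {ι : Type*} [DecidableEq ι] (g : Row Q) {W : ι → ℝ} {τ : ι → Bool → ℝ}
    (hτ : ∀ h b, 0 ≤ τ h b ∧ τ h b ≤ 1) (hW : ∀ h, W h = |τ h false - τ h true|) {L : List ι}
    (hL : L.Nodup) : ∀ {κ : ℝ}, 0 ≤ κ → κ ≤ 1 →
      Bd W L 1 (fun v => g.mix ((((κ * (L.map (fun h => τ h (v h))).prod : ℝ) : ℂ)) • (1 : MM Q))) := by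
  have hprod : ∀ (L' : List ι) (v : ι → Bool), 0 ≤ (L'.map (fun h => τ h (v h))).prod ∧
      (L'.map (fun h => τ h (v h))).prod ≤ 1 := by
    intro L' v
    induction L' with
    | nil => simp
    | cons a L' ih =>
      simp only [List.map_cons, List.prod_cons]
      have h1 := hτ a (v a)
      exact ⟨mul_nonneg h1.1 ih.1, mul_le_one₀ h1.2 ih.1 ih.2⟩
  induction L with
  | nil =>
    intro κ h0 h1 v
    simp only [List.map_nil, List.prod_nil, mul_one]
    exact g.norm_mix_scalar h0 h1
  | cons h L ih =>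
    intro κ h0 h1
    rw [List.nodup_cons] at hL
    obtain ⟨hh, hL'⟩ := hL
    have hfun : ∀ (b : Bool) (v : ι → Bool),
        g.mix ((((κ * ((h :: L).map (fun a => τ a ((Function.update v h b) a))).prod : ℝ) : ℂ)) •
          (1 : MM Q)) =
        g.mix ((((κ * τ h b * (L.map (fun a => τ a (v a))).prod : ℝ) : ℂ)) • (1 : MM Q)) := by
      intro b v
      simp only [List.map_cons, List.prod_cons, Function.update_self]
      have : L.map (fun a => τ a ((Function.update v h b) a)) = L.map (fun a => τ a (v a)) := by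
        refine List.map_congr_left (fun a ha => ?_)
        have hne : a ≠ h := fun e => hh (e ▸ ha)
        rw [Function.update_of_ne hne]
      rw [this, mul_assoc]
    have hk : ∀ b, 0 ≤ κ * τ h b ∧ κ * τ h b ≤ 1 := by
      intro b
      have h3 := hτ h b
      exact ⟨mul_nonneg h0 h3.1, mul_le_one₀ h1 h3.1 h3.2⟩
    refine ⟨?_, ?_, ?_⟩
    · simp only [hfun]
      exact ih hL' (hk false).1 (hk false).2
    · simp only [hfun]
      exact ih hL' (hk true).1 (hk true).2
    · simp only [hfun]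
      have e : (fun v : ι → Bool =>
          g.mix ((((κ * τ h false * (L.map (fun a => τ a (v a))).prod : ℝ) : ℂ)) • (1 : MM Q)) -
          g.mix ((((κ * τ h true * (L.map (fun a => τ a (v a))).prod : ℝ) : ℂ)) • (1 : MM Q))) =
          (fun v => (((((κ * (τ h false - τ h true)) * (L.map (fun a => τ a (v a))).prod : ℝ) : ℂ))) •
            (g.E1 - g.E0)) := by
        funext v
        rw [g.mix_scalar, g.mix_scalar]
        rw [add_sub_add_left_eq_sub, ← sub_smul]
        congr 1
        push_cast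
        ring
      rw [e]
      refine bd_prod_diff hτ hW g.norm_diff hL' ?_
      rw [abs_mul, abs_of_nonneg h0, hW h, mul_one, one_mul]
      have := abs_nonneg (τ h false - τ h true)
      nlinarith

end TwoProj

end Vale.Agent.Lib.P368

/-!
Columns in exact form: a literal qubit, and aligned sites.
-/

set_option linter.unusedSectionVars false
set_option linter.unusedSimpArgs false
set_option linter.unusedVariables false

namespace Vale.Agent.Lib.P368

open Matrix
open scoped Matrix.Norms.L2Operator ComplexConjugate ComplexOrder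

section DCol

variable {Q : Type*} [Fintype Q] [DecidableEq Q]

/-- A column in exact form. -/
structure DCol (Q : Type*) [Fintype Q] [DecidableEq Q] where
  i : Q
  A : Finset Q
  hi : i ∉ A
  l : Bool → ℂ
  hl : ip l l = 1
  psi : Q → Bool → ℂ
  s : Q → Bool → ℂ
  hpsi : UnitOn A psi
  hs : UnitOn A s
  row : Row Q

/-- The two kets of the literal. -/
def DCol.lit (h : DCol Q) (β : Bool) : Bool → ℂ := if β then perp h.l else h.l

theorem DCol.lit_unit (h : DCol Q) (β : Bool) : ip (h.lit β) (h.lit β) = 1 := by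
  unfold DCol.lit
  cases β
  · simpa using h.hl
  · simpa [ip_perp_self] using h.hl

/-- The overlap on the aligned sites. -/
noncomputable def DCol.aT (h : DCol Q) : ℂ := ∏ q ∈ h.A, ip (h.s q) (h.psi q)

/-- The squared overlap. -/
noncomputable def DCol.a2 (h : DCol Q) : ℝ := ‖h.aT‖ ^ 2

/-- The two families of aligned kets. -/
def DCol.k (h : DCol Q) (ν : Bool) : Q → Bool → ℂ := if ν then h.s else h.psi

theorem DCol.k_unit (h : DCol Q) (ν : Bool) : UnitOn h.A (h.k ν) := by
  unfold DCol.k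
  cases ν
  · simpa using h.hpsi
  · simpa using h.hs

/-- The sites of the column. -/
def DCol.C (h : DCol Q) : Finset Q := insert h.i h.A

/-- The vector of the branch in which the reflection acts. -/
noncomputable def DCol.B (h : DCol Q) : MM Q := kb h.A h.psi eK - ((2 : ℂ) * h.aT) • kb h.A h.s eK

/-- The column ket operators. -/
noncomputable def DCol.A0 (h : DCol Q) : MM Q := kb {h.i} (fun _ => h.lit false) eK * h.B

noncomputable def DCol.A1 (h : DCol Q) : MM Q := kb {h.i} (fun _ => h.lit true) eK * kb h.A h.psi eK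

/-- The difference operator of the column. -/
noncomputable def DCol.tau (h : DCol Q) : MM Q :=
  (1 / 2 : ℂ) • (h.A0 * h.A0ᴴ - h.A1 * h.A1ᴴ)

/-- The product states of a column. -/
noncomputable def DCol.rho (h : DCol Q) (β ν : Bool) : MM Q :=
  kb {h.i} (fun _ => h.lit β) (fun _ => h.lit β) * kb h.A (h.k ν) (h.k ν)

/-- The coefficients of the product states. -/
noncomputable def DCol.coef (h : DCol Q) (β ν : Bool) : ℂ :=
  match β, ν with
  | false, false => ((1 - 4 * h.a2 : ℝ) : ℂ) / 2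
  | false, true => 2 * ((h.a2 : ℝ) : ℂ)
  | true, false => - 1 / 2
  | true, true => 0

theorem DCol.disj (h : DCol Q) : Disjoint ({h.i} : Finset Q) h.A := by
  simpa using h.hi

theorem eK_prod_ip (A : Finset Q) : ∏ q ∈ A, ip ((eK : Q → Bool → ℂ) q) (eK q) = 1 :=
  Finset.prod_eq_one (fun q hq => eK_unit A q hq)

theorem DCol.star_aT (h : DCol Q) : star h.aT = ∏ q ∈ h.A, ip (h.psi q) (h.s q) := by
  unfold DCol.aT
  rw [star_prod]
  exact Finset.prod_congr rfl (fun q _ => ip_conj _ _)

theorem DCol.star_aT_mul (h : DCol Q) : star h.aT * h.aT = ((h.a2 : ℝ) : ℂ) := by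
  unfold DCol.a2
  rw [Complex.star_def, Complex.conj_mul']
  push_cast
  rfl

theorem DCol.B_mul (h : DCol Q) : h.B * h.Bᴴ = kb h.A h.psi h.psi -
    star ((2 : ℂ) * h.aT) • kb h.A h.psi h.s - ((2 : ℂ) * h.aT) • kb h.A h.s h.psi +
      (((2 : ℂ) * h.aT) * star ((2 : ℂ) * h.aT)) • kb h.A h.s h.s := by
  unfold DCol.B
  rw [conjTranspose_sub, conjTranspose_smul, kb_conjTranspose, kb_conjTranspose]
  simp only [Matrix.mul_sub, Matrix.sub_mul, Matrix.mul_smul, Matrix.smul_mul, smul_sub, smul_smul,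
    kb_mul, eK_prod_ip, one_smul]
  rw [mul_comm (star ((2 : ℂ) * h.aT))]
  abel

theorem DCol.A0_mul (h : DCol Q) : h.A0 * h.A0ᴴ =
    kb {h.i} (fun _ => h.lit false) (fun _ => h.lit false) * (h.B * h.Bᴴ) := by
  unfold DCol.A0
  rw [conjTranspose_mul, kb_conjTranspose]
  have hB : h.B ∈ SpanOn h.A := Submodule.sub_mem _ (kb_mem_spanOn (Finset.Subset.refl _) _ _)
    (Submodule.smul_mem _ _ (kb_mem_spanOn (Finset.Subset.refl _) _ _))
  have hc : h.B * kb {h.i} eK (fun _ => h.lit false) = kb {h.i} eK (fun _ => h.lit false) * h.B :=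
    (commute_spanOn h.disj (kb_mem_spanOn (Finset.Subset.refl _) _ _) hB).symm
  have he : kb {h.i} (fun _ => h.lit false) eK * kb {h.i} eK (fun _ => h.lit false) =
      kb {h.i} (fun _ => h.lit false) (fun _ => h.lit false) := by
    rw [kb_mul, eK_prod_ip, one_smul]
  calc kb {h.i} (fun _ => h.lit false) eK * h.B * (h.Bᴴ * kb {h.i} eK (fun _ => h.lit false))
      = kb {h.i} (fun _ => h.lit false) eK * (h.B * h.Bᴴ * kb {h.i} eK (fun _ => h.lit false)) := by
        simp only [Matrix.mul_assoc]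
    _ = kb {h.i} (fun _ => h.lit false) eK * (kb {h.i} eK (fun _ => h.lit false) * (h.B * h.Bᴴ)) := by
        congr 1
        exact commute_spanOn (disjoint_comm.mp h.disj)
          (mul_mem_spanOn hB (conjTranspose_mem_spanOn hB)) (kb_mem_spanOn (Finset.Subset.refl _) _ _)
    _ = _ := by rw [← Matrix.mul_assoc, he]

theorem DCol.A1_mul (h : DCol Q) : h.A1 * h.A1ᴴ =
    kb {h.i} (fun _ => h.lit true) (fun _ => h.lit true) * kb h.A h.psi h.psi := by
  unfold DCol.A1
  rw [conjTranspose_mul, kb_conjTranspose, kb_conjTranspose]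
  have hB : kb h.A h.psi eK ∈ SpanOn h.A := kb_mem_spanOn (Finset.Subset.refl _) _ _
  have hE : kb h.A eK h.psi ∈ SpanOn h.A := kb_mem_spanOn (Finset.Subset.refl _) _ _
  have he : kb {h.i} (fun _ => h.lit true) eK * kb {h.i} eK (fun _ => h.lit true) =
      kb {h.i} (fun _ => h.lit true) (fun _ => h.lit true) := by
    rw [kb_mul, eK_prod_ip, one_smul]
  have he2 : kb h.A h.psi eK * kb h.A eK h.psi = kb h.A h.psi h.psi := by
    rw [kb_mul, eK_prod_ip, one_smul]
  calc kb {h.i} (fun _ => h.lit true) eK * kb h.A h.psi eK * (kb h.A eK h.psi * kb {h.i} eK (fun _ => h.lit true))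
      = kb {h.i} (fun _ => h.lit true) eK * ((kb h.A h.psi eK * kb h.A eK h.psi) * kb {h.i} eK (fun _ => h.lit true)) := by
        simp only [Matrix.mul_assoc]
    _ = kb {h.i} (fun _ => h.lit true) eK * (kb {h.i} eK (fun _ => h.lit true) * (kb h.A h.psi eK * kb h.A eK h.psi)) := by
        congr 1
        exact commute_spanOn (disjoint_comm.mp h.disj)
          (mul_mem_spanOn hB hE) (kb_mem_spanOn (Finset.Subset.refl _) _ _)
    _ = _ := by rw [← Matrix.mul_assoc, he, he2]

/-- The functional identity: a functional commuting with the aligned projector sees only the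
diagonal terms. -/
theorem DCol.func (h : DCol Q) {Y K' κ : MM Q} (hY : Y * kb h.A h.psi h.psi = kb h.A h.psi h.psi * Y)
    (hK : K' * kb h.A h.psi h.psi = kb h.A h.psi h.psi * K')
    (hκ : κ * kb h.A h.psi h.psi = kb h.A h.psi h.psi * κ) :
    (Y * (κ * (h.B * h.Bᴴ)) * K').trace =
      ((1 - 4 * h.a2 : ℝ) : ℂ) * (Y * (κ * kb h.A h.psi h.psi) * K').trace +
        ((4 * h.a2 : ℝ) : ℂ) * (Y * (κ * kb h.A h.s h.s) * K').trace := by
  set π := kb h.A h.psi h.psi with hπ
  have hπ2 : π * π = π := kb_idem h.hpsi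
  -- the two off-diagonal terms
  have hT1 : (Y * (κ * kb h.A h.psi h.s) * K').trace = h.aT * (Y * (κ * π) * K').trace := by
    have e1 : kb h.A h.psi h.s = π * kb h.A h.psi h.s := by
      rw [hπ, kb_mul, Finset.prod_congr rfl h.hpsi]
      simp
    have e2 : kb h.A h.psi h.s * π = h.aT • π := by
      rw [hπ, kb_mul]
      rfl
    calc (Y * (κ * kb h.A h.psi h.s) * K').trace
        = (Y * (κ * (π * kb h.A h.psi h.s)) * K').trace := by rw [← e1]
      _ = (π * (Y * (κ * kb h.A h.psi h.s) * K')).trace := by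
          congr 1
          calc Y * (κ * (π * kb h.A h.psi h.s)) * K' = Y * ((κ * π) * kb h.A h.psi h.s) * K' := by
                simp only [Matrix.mul_assoc]
            _ = (Y * π) * κ * kb h.A h.psi h.s * K' := by rw [hκ]; simp only [Matrix.mul_assoc]
            _ = _ := by rw [hY]; simp only [Matrix.mul_assoc]
      _ = ((Y * (κ * kb h.A h.psi h.s) * K') * π).trace := Matrix.trace_mul_comm _ _
      _ = (Y * (κ * (kb h.A h.psi h.s * π)) * K').trace := by
          congr 1
          rw [Matrix.mul_assoc _ K', hK]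
          simp only [Matrix.mul_assoc]
      _ = _ := by
          rw [e2, Matrix.mul_smul, Matrix.mul_smul, Matrix.smul_mul, Matrix.trace_smul, smul_eq_mul]
  have hT2 : (Y * (κ * kb h.A h.s h.psi) * K').trace = star h.aT * (Y * (κ * π) * K').trace := by
    have e1 : kb h.A h.s h.psi = kb h.A h.s h.psi * π := by
      rw [hπ, kb_mul, Finset.prod_congr rfl h.hpsi]
      simp
    have e2 : π * kb h.A h.s h.psi = star h.aT • π := by
      rw [hπ, kb_mul, h.star_aT]
    calc (Y * (κ * kb h.A h.s h.psi) * K').trace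
        = (Y * (κ * (kb h.A h.s h.psi * π)) * K').trace := by rw [← e1]
      _ = ((Y * (κ * kb h.A h.s h.psi) * K') * π).trace := by
          congr 1
          rw [Matrix.mul_assoc _ K', hK]
          simp only [Matrix.mul_assoc]
      _ = (π * (Y * (κ * kb h.A h.s h.psi) * K')).trace := Matrix.trace_mul_comm _ _
      _ = (Y * (κ * (π * kb h.A h.s h.psi)) * K').trace := by
          congr 1
          calc π * (Y * (κ * kb h.A h.s h.psi) * K') = (π * Y) * κ * kb h.A h.s h.psi * K' := by
                simp only [Matrix.mul_assoc]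
            _ = Y * (π * κ) * kb h.A h.s h.psi * K' := by rw [← hY]; simp only [Matrix.mul_assoc]
            _ = _ := by rw [← hκ]; simp only [Matrix.mul_assoc]
      _ = _ := by
          rw [e2, Matrix.mul_smul, Matrix.mul_smul, Matrix.smul_mul, Matrix.trace_smul, smul_eq_mul]
  rw [h.B_mul]
  simp only [Matrix.mul_add, Matrix.mul_sub, Matrix.add_mul, Matrix.sub_mul, Matrix.mul_smul,
    Matrix.smul_mul, Matrix.trace_add, Matrix.trace_sub, Matrix.trace_smul, smul_eq_mul]
  rw [hT1, hT2]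
  have h1 := h.star_aT_mul
  have h2 : star h.aT * h.aT = h.aT * star h.aT := mul_comm _ _
  rw [star_mul']
  simp only [star_ofNat]
  push_cast
  have h3 : ((h.a2 : ℝ) : ℂ) = star h.aT * h.aT := h1.symm
  rw [h3]
  ring

/-- The functional identity for the column. -/
theorem DCol.tau_val (h : DCol Q) {Y K' : MM Q} (hY : Y * kb h.A h.psi h.psi = kb h.A h.psi h.psi * Y)
    (hK : K' * kb h.A h.psi h.psi = kb h.A h.psi h.psi * K') :
    (Y * h.tau * K').trace =
      h.coef false false * (Y * h.rho false false * K').trace +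
      h.coef false true * (Y * h.rho false true * K').trace +
      h.coef true false * (Y * h.rho true false * K').trace +
      h.coef true true * (Y * h.rho true true * K').trace := by
  have hκ : ∀ β : Bool, kb {h.i} (fun _ => h.lit β) (fun _ => h.lit β) * kb h.A h.psi h.psi =
      kb h.A h.psi h.psi * kb {h.i} (fun _ => h.lit β) (fun _ => h.lit β) := fun β =>
    kb_comm_disjoint h.disj _ _ _ _
  unfold DCol.tau
  rw [h.A0_mul, h.A1_mul]
  have e1 := h.func hY hK (hκ false)
  have e0 : h.k false = h.psi := rfl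
  have e2 : h.k true = h.s := rfl
  simp only [DCol.rho, DCol.coef, e0, e2]
  simp only [Matrix.mul_smul, Matrix.smul_mul, Matrix.mul_sub, Matrix.sub_mul, Matrix.trace_smul,
    Matrix.trace_sub, smul_eq_mul]
  rw [e1]
  push_cast
  ring

end DCol

end Vale.Agent.Lib.P368

/-!
Sandwiching a product of operators with disjoint supports between product kets.
-/

set_option linter.unusedSectionVars false
set_option linter.unusedSimpArgs false
set_option linter.unusedVariables false

namespace Vale.Agent.Lib.P368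

open Matrix
open scoped Matrix.Norms.L2Operator ComplexConjugate ComplexOrder

section Sand

variable {Q : Type*} [Fintype Q] [DecidableEq Q]

/-- A factor together with its sandwich value. -/
structure Sand (Q : Type*) [Fintype Q] [DecidableEq Q] where
  C : Finset Q
  E : Finset Q
  G : MM Q
  T : MM Q

theorem kb_union_same {T T' : Finset Q} (h : Disjoint T T') (a b : Q → Bool → ℂ) :
    kb (T ∪ T') a b = kb T a b * kb T' a b := by
  rw [kb_mul_disjoint h, merge_self, merge_self]

theorem sand_prod (w : Q → Bool → ℂ) (l : List (Sand Q))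
    (hp : l.Pairwise (fun a b => Disjoint (a.C ∪ a.E) (b.C ∪ b.E)))
    (hG : ∀ a ∈ l, a.G ∈ SpanOn (a.C ∪ a.E)) (hT : ∀ a ∈ l, a.T ∈ SpanOn a.E)
    (hs : ∀ a ∈ l, kb a.C eK w * a.G * kb a.C w eK = kb a.C eK eK * a.T) :
    kb (uni l Sand.C) eK w * (l.map Sand.G).prod * kb (uni l Sand.C) w eK =
      kb (uni l Sand.C) eK eK * (l.map Sand.T).prod := by
  induction l with
  | nil =>
    simp [uni, kb_empty]
  | cons a l ih =>
    rw [List.pairwise_cons] at hp
    have hih := ih hp.2 (fun b hb => hG b (by simp [hb])) (fun b hb => hT b (by simp [hb]))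
      (fun b hb => hs b (by simp [hb]))
    have hGa := hG a (by simp)
    have hTa := hT a (by simp)
    have hsa := hs a (by simp)
    simp only [List.map_cons, List.prod_cons]
    rw [uni_cons]
    set L := uni l Sand.C with hL
    have hdU : Disjoint (a.C ∪ a.E) L := by
      refine disjoint_uni_right (fun b hb => ?_)
      exact Finset.disjoint_of_subset_right Finset.subset_union_left (hp.1 b hb)
    have hdC : Disjoint a.C L := Finset.disjoint_of_subset_left Finset.subset_union_left hdU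
    have hdE : Disjoint a.E L := Finset.disjoint_of_subset_left Finset.subset_union_right hdU
    set Gl := (l.map Sand.G).prod with hGl
    set Tl := (l.map Sand.T).prod with hTl
    have hGlm : Gl ∈ SpanOn (uni l (fun b => b.C ∪ b.E)) :=
      prod_mem_spanOn (fun b hb => spanOn_mono (fun q hq => mem_uni.mpr ⟨b, hb, hq⟩)
        (hG b (by simp [hb])))
    have hdG : Disjoint a.C (uni l (fun b => b.C ∪ b.E)) := by
      refine disjoint_uni_right (fun b hb => ?_)
      exact Finset.disjoint_of_subset_left Finset.subset_union_left (hp.1 b hb)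
    rw [kb_union_same hdC, kb_union_same hdC, kb_union_same hdC]
    set V1' := kb a.C eK w with hV1'
    set V2' := kb L eK w with hV2'
    set V1 := kb a.C w eK with hV1
    set V2 := kb L w eK with hV2
    have c1 : V1 * Gl = Gl * V1 :=
      commute_spanOn hdG (kb_mem_spanOn (Finset.Subset.refl _) _ _) hGlm
    have c2 : V2' * V1' = V1' * V2' := (kb_comm_disjoint hdC _ _ _ _).symm
    have c3 : V2' * a.G = a.G * V2' :=
      (commute_spanOn hdU hGa (kb_mem_spanOn (Finset.Subset.refl _) _ _)).symm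
    have c4 : V2' * kb a.C eK eK = kb a.C eK eK * V2' := (kb_comm_disjoint hdC _ _ _ _).symm
    have c5 : V2' * a.T = a.T * V2' :=
      (commute_spanOn hdE hTa (kb_mem_spanOn (Finset.Subset.refl _) _ _)).symm
    have c6 : a.T * kb L eK eK = kb L eK eK * a.T :=
      commute_spanOn hdE hTa (kb_mem_spanOn (Finset.Subset.refl _) _ _)
    calc V1' * V2' * (a.G * Gl) * (V1 * V2)
        = (V2' * V1') * (a.G * Gl) * (V1 * V2) := by rw [c2]
      _ = V2' * (V1' * a.G * (V1 * Gl)) * V2 := by simp only [Matrix.mul_assoc, c1]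
      _ = V2' * (kb a.C eK eK * a.T * Gl) * V2 := by
          have : V1' * a.G * (V1 * Gl) = (V1' * a.G * V1) * Gl := by simp only [Matrix.mul_assoc]
          rw [this, hsa]
      _ = kb a.C eK eK * a.T * (V2' * Gl * V2) := by
          have : V2' * (kb a.C eK eK * a.T * Gl) * V2 =
              (V2' * kb a.C eK eK) * a.T * Gl * V2 := by simp only [Matrix.mul_assoc]
          rw [this, c4]
          have : kb a.C eK eK * V2' * a.T * Gl * V2 = kb a.C eK eK * (V2' * a.T) * Gl * V2 := by
            simp only [Matrix.mul_assoc]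
          rw [this, c5]
          simp only [Matrix.mul_assoc]
      _ = kb a.C eK eK * (a.T * kb L eK eK) * Tl := by
          rw [hih]
          simp only [Matrix.mul_assoc]
      _ = kb a.C eK eK * kb L eK eK * (a.T * Tl) := by
          rw [c6]
          simp only [Matrix.mul_assoc]

/-- Evaluation of the trace against a product of kets through the sandwich. -/
theorem trace_kb_ket {T' CX : Finset Q} (hd : Disjoint T' CX) {w : Q → Bool → ℂ} {Gall K : MM Q}
    (hK : K ∈ SpanOn T') :
    (Gall * kb CX w w * K).trace = ((kb CX eK w * Gall * kb CX w eK) * K).trace := by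
  have h1 : kb CX w eK * kb CX eK w = kb CX w w := by
    rw [kb_mul, Finset.prod_congr rfl (eK_unit _)]
    simp
  have hc : kb CX eK w * K = K * kb CX eK w :=
    (commute_spanOn hd hK (kb_mem_spanOn (Finset.Subset.refl _) _ _)).symm
  rw [← h1]
  calc (Gall * (kb CX w eK * kb CX eK w) * K).trace
      = (Gall * kb CX w eK * (kb CX eK w * K)).trace := by simp only [Matrix.mul_assoc]
    _ = (Gall * kb CX w eK * (K * kb CX eK w)).trace := by rw [hc]
    _ = ((Gall * kb CX w eK * K) * kb CX eK w).trace := by simp only [Matrix.mul_assoc]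
    _ = (kb CX eK w * (Gall * kb CX w eK * K)).trace := Matrix.trace_mul_comm _ _
    _ = _ := by simp only [Matrix.mul_assoc]

/-- Two one-site projectors in a common basis give commuting product operators. -/
theorem kb_comm_of_site {A B : Finset Q} {a b : Q → Bool → ℂ}
    (h : ∀ q ∈ A, q ∈ B → ketbra (a q) (a q) * ketbra (b q) (b q) =
      ketbra (b q) (b q) * ketbra (a q) (a q)) :
    kb A a a * kb B b b = kb B b b * kb A a a := by
  unfold kb
  rw [tensorMat_mul, tensorMat_mul]
  apply tensorMat_congr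
  intro q
  by_cases hq : q ∈ A
  · by_cases hq' : q ∈ B
    · simp only [hq, hq', if_true]
      exact h q hq hq'
    · simp [hq, hq']
  · by_cases hq' : q ∈ B <;> simp [hq, hq']

theorem ketbra_perp_comm {a : Bool → ℂ} (h : ip a a = 1) :
    ketbra (perp a) (perp a) * ketbra a a = ketbra a a * ketbra (perp a) (perp a) := by
  rw [ketbra_mul, ketbra_mul, ip_perp_left, ip_perp_right]
  simp

/-- An aligned ket gives a one-site projector commuting with the reference one. -/
theorem aligned_comm {p r : Bool → ℂ} (hr : ip r r = 1)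
    (h : ketbra p p = ketbra r r ∨ ketbra p p = ketbra (perp r) (perp r)) :
    ketbra p p * ketbra r r = ketbra r r * ketbra p p := by
  rcases h with h | h
  · rw [h]
  · rw [h]
    exact ketbra_perp_comm hr

theorem Row.mix_comm (g : Row Q) {Y P : MM Q} (h0 : Y * g.E0 = g.E0 * Y) (h1 : Y * g.E1 = g.E1 * Y)
    (hP : Y * P = P * Y) : Y * g.mix P = g.mix P * Y := by
  unfold Row.mix
  have hP' : Y * (1 - P) = (1 - P) * Y := by
    simp only [Matrix.mul_sub, Matrix.sub_mul, Matrix.mul_one, Matrix.one_mul, hP]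
  simp only [Matrix.mul_add, Matrix.add_mul]
  congr 1
  · calc Y * (g.E0 * (1 - P)) = (Y * g.E0) * (1 - P) := by simp only [Matrix.mul_assoc]
      _ = g.E0 * (Y * (1 - P)) := by rw [h0]; simp only [Matrix.mul_assoc]
      _ = _ := by rw [hP']; simp only [Matrix.mul_assoc]
  · calc Y * (g.E1 * P) = (Y * g.E1) * P := by simp only [Matrix.mul_assoc]
      _ = g.E1 * (Y * P) := by rw [h1]; simp only [Matrix.mul_assoc]
      _ = _ := by rw [hP]; simp only [Matrix.mul_assoc]

end Sand

end Vale.Agent.Lib.P368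

/-!
Rows against product kets, and the literal operators of designated rows.
-/

set_option linter.unusedSectionVars false
set_option linter.unusedSimpArgs false
set_option linter.unusedVariables false

namespace Vale.Agent.Lib.P368

open Matrix
open scoped Matrix.Norms.L2Operator ComplexConjugate ComplexOrder

section DRows

variable {Q : Type*} [Fintype Q] [DecidableEq Q]

theorem ip_mul_ip_swap (a b : Bool → ℂ) : ip a b * ip b a = ((‖ip a b‖ ^ 2 : ℝ) : ℂ) := by
  rw [← ip_conj a b, Complex.star_def, Complex.mul_conj']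
  push_cast
  rfl

theorem ip_mul_ip_swap' (a b : Bool → ℂ) : ip b a * ip a b = ((‖ip a b‖ ^ 2 : ℝ) : ℂ) := by
  rw [mul_comm, ip_mul_ip_swap]

theorem norm_ip_swap (a b : Bool → ℂ) : ‖ip a b‖ = ‖ip b a‖ := by
  rw [← ip_conj a b, Complex.star_def, Complex.norm_conj]

theorem ip_self_re {a : Bool → ℂ} (h : ip a a = 1) : (ip a a).re = 1 := by
  rw [h]; simp

theorem norm_sq_ip_add_perp (r : Bool → ℂ) {l : Bool → ℂ} (hl : ip l l = 1) :
    ‖ip r l‖ ^ 2 + ‖ip r (perp l)‖ ^ 2 = (ip r r).re := by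
  have hk := ketbra_add_perp hl
  have e : ∀ i j, l i * star (l j) + perp l i * star (perp l j) = (1 : Matrix Bool Bool ℂ) i j := by
    intro i j
    have := congrFun (congrFun hk i) j
    simpa [Matrix.add_apply, ketbra] using this
  have eff := e false false
  have eft := e false true
  have etf := e true false
  have ett := e true true
  simp only [Matrix.one_apply, if_true, Bool.false_eq_true, Bool.true_eq_false, if_false] at eff eft etf ett
  have h1 : ip r l * ip l r + ip r (perp l) * ip (perp l) r = ip r r := by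
    simp only [ip, Fintype.sum_bool]
    linear_combination (star (r true) * r true) * ett + (star (r true) * r false) * etf +
      (star (r false) * r true) * eft + (star (r false) * r false) * eff
  rw [ip_mul_ip_swap, ip_mul_ip_swap] at h1
  have h2 := congrArg Complex.re h1
  rw [Complex.add_re, Complex.ofReal_re, Complex.ofReal_re] at h2
  exact h2

theorem sum_perp_one {r l : Bool → ℂ} (hr : ip r r = 1) (hl : ip l l = 1) :
    ‖ip r l‖ ^ 2 + ‖ip r (perp l)‖ ^ 2 = 1 := by
  rw [norm_sq_ip_add_perp r hl, hr]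
  simp

theorem norm_ip_sq_le_one {r l : Bool → ℂ} (hr : ip r r = 1) (hl : ip l l = 1) :
    ‖ip r l‖ ^ 2 ≤ 1 := by
  have := sum_perp_one hr hl
  nlinarith [sq_nonneg ‖ip r (perp l)‖]

/-- A row with a scalar weighted product decision against product kets. -/
theorem Row.sand_U (g : Row Q) {U' : Finset Q} (hU' : U' ⊆ g.U) (r w : Q → Bool → ℂ) (f : ℝ)
    (hw : UnitOn U' w) :
    kb U' eK w * g.mix (((f : ℝ) : ℂ) • kb U' r r) * kb U' w eK =
      kb U' eK eK * g.mix (((f * ∏ q ∈ U', ‖ip (r q) (w q)‖ ^ 2 : ℝ) : ℂ) • (1 : MM Q)) := by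
  have hd : Disjoint U' g.S := (Finset.disjoint_of_subset_right hU' g.disj).symm
  set V' := kb U' eK w with hV'
  set V := kb U' w eK with hV
  set t : ℝ := ∏ q ∈ U', ‖ip (r q) (w q)‖ ^ 2 with ht
  have c0 : V' * g.E0 = g.E0 * V' := commute_spanOn hd (kb_mem_spanOn (Finset.Subset.refl _) _ _) g.E0_mem
  have c1 : V' * g.E1 = g.E1 * V' := commute_spanOn hd (kb_mem_spanOn (Finset.Subset.refl _) _ _) g.E1_mem
  have i0 : kb U' eK eK * g.E0 = g.E0 * kb U' eK eK :=
    commute_spanOn hd (kb_mem_spanOn (Finset.Subset.refl _) _ _) g.E0_mem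
  have i1 : kb U' eK eK * g.E1 = g.E1 * kb U' eK eK :=
    commute_spanOn hd (kb_mem_spanOn (Finset.Subset.refl _) _ _) g.E1_mem
  have hVV : V' * V = kb U' eK eK := by
    rw [hV', hV, kb_mul, Finset.prod_congr rfl hw]
    simp
  have hprod : (∏ q ∈ U', ip (w q) (r q)) * (∏ q ∈ U', ip (r q) (w q)) = ((t : ℝ) : ℂ) := by
    rw [← Finset.prod_mul_distrib, ht]
    push_cast
    refine Finset.prod_congr rfl (fun q _ => ?_)
    have := ip_mul_ip_swap' (r q) (w q)
    rw [this]
    push_cast
    rfl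
  have hVPV : V' * (((f : ℝ) : ℂ) • kb U' r r) * V = ((f * t : ℝ) : ℂ) • kb U' eK eK := by
    rw [hV', hV, Matrix.mul_smul, Matrix.smul_mul, kb_mul, Matrix.smul_mul, kb_mul, smul_smul,
      smul_smul, mul_assoc, hprod]
    push_cast
    rfl
  set P := ((f : ℝ) : ℂ) • kb U' r r with hP
  set c := ((f * t : ℝ) : ℂ) with hc
  have p0 : V' * (g.E0 * (1 - P)) * V = g.E0 * (V' * (1 - P) * V) := by
    rw [← Matrix.mul_assoc V', c0]
    simp only [Matrix.mul_assoc]
  have p1 : V' * (g.E1 * P) * V = g.E1 * (V' * P * V) := by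
    rw [← Matrix.mul_assoc V', c1]
    simp only [Matrix.mul_assoc]
  have q : V' * (1 - P) * V = kb U' eK eK - c • kb U' eK eK := by
    simp only [Matrix.mul_sub, Matrix.sub_mul, Matrix.mul_one]
    rw [hVV, hVPV]
  unfold Row.mix
  rw [Matrix.mul_add, Matrix.add_mul, p0, p1, q, hVPV, Matrix.mul_add, ← Matrix.mul_assoc,
    ← Matrix.mul_assoc, i0, i1]
  simp only [Matrix.mul_sub, Matrix.mul_one, Matrix.mul_smul, Matrix.smul_mul, Matrix.mul_assoc]

theorem kb_singleton_congr (i : Q) (a a' b b' : Q → Bool → ℂ) (h1 : a i = a' i) (h2 : b i = b' i) :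
    kb {i} a b = kb {i} a' b' := by
  refine kb_congr ?_ ?_
  · intro q hq
    rw [Finset.mem_singleton.mp hq, h1]
  · intro q hq
    rw [Finset.mem_singleton.mp hq, h2]

theorem tensorMat_add_single (i : Q) {A B C : Q → Matrix Bool Bool ℂ}
    (h1 : ∀ q, q ≠ i → A q = C q) (h2 : ∀ q, q ≠ i → B q = C q) (h3 : A i + B i = C i) :
    tensorMat A + tensorMat B = tensorMat C := by
  ext s t
  simp only [tensorMat, Matrix.add_apply, Matrix.of_apply]
  rw [← Finset.mul_prod_erase Finset.univ _ (Finset.mem_univ i),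
    ← Finset.mul_prod_erase Finset.univ _ (Finset.mem_univ i),
    ← Finset.mul_prod_erase Finset.univ _ (Finset.mem_univ i)]
  have e1 : ∏ x ∈ Finset.univ.erase i, A x (s x) (t x) = ∏ x ∈ Finset.univ.erase i, C x (s x) (t x) :=
    Finset.prod_congr rfl (fun q hq => by rw [h1 q (Finset.ne_of_mem_erase hq)])
  have e2 : ∏ x ∈ Finset.univ.erase i, B x (s x) (t x) = ∏ x ∈ Finset.univ.erase i, C x (s x) (t x) :=
    Finset.prod_congr rfl (fun q hq => by rw [h2 q (Finset.ne_of_mem_erase hq)])
  rw [e1, e2, ← add_mul, ← h3, Matrix.add_apply]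

theorem kb_single_add_perp (i : Q) {l : Bool → ℂ} (hl : ip l l = 1) :
    kb {i} (fun _ => l) (fun _ => l) + kb {i} (fun _ => perp l) (fun _ => perp l) = (1 : MM Q) := by
  have h := tensorMat_add_single (Q := Q) i
    (A := fun q => if q ∈ ({i} : Finset Q) then ketbra l l else 1)
    (B := fun q => if q ∈ ({i} : Finset Q) then ketbra (perp l) (perp l) else 1)
    (C := fun _ => 1)
    (fun q hq => by simp [hq]) (fun q hq => by simp [hq]) (by simpa using ketbra_add_perp hl)
  have h1 : tensorMat (fun _ : Q => (1 : Matrix Bool Bool ℂ)) = 1 := tensorMat_one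
  rw [h1] at h
  exact h

/-- The literal split of a unit ket operator. -/
theorem lit_ket_norm {S : Finset Q} {N : MM Q} (hN : IsKet S N) (hu : Nᴴ * N = kb S eK eK) {i : Q}
    (hi : i ∈ S) {l : Bool → ℂ} (hl : ip l l = 1) :
    ‖kb {i} eK (fun _ => l) * N‖ ^ 2 + ‖kb {i} eK (fun _ => perp l) * N‖ ^ 2 = 1 := by
  have hsub : ({i} : Finset Q) ⊆ S := by simpa using hi
  have hket : ∀ a : Bool → ℂ, IsKet S (kb {i} eK (fun _ => a) * N) := by
    intro a
    refine ⟨mul_mem_spanOn (kb_mem_spanOn hsub _ _) hN.1, ?_⟩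
    rw [Matrix.mul_assoc, hN.2]
  have hstar : ∀ a : Bool → ℂ, (kb {i} eK (fun _ => a) * N)ᴴ * (kb {i} eK (fun _ => a) * N) =
      Nᴴ * kb {i} (fun _ => a) (fun _ => a) * N := by
    intro a
    rw [conjTranspose_mul, kb_conjTranspose]
    have : kb {i} (fun _ => a) eK * kb {i} eK (fun _ => a) = kb {i} (fun _ => a) (fun _ => a) := by
      rw [kb_mul, Finset.prod_congr rfl (eK_unit _)]
      simp
    rw [← this]
    simp only [Matrix.mul_assoc]
  have h1 := (hket l).star_mul
  have h2 := (hket (perp l)).star_mul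
  rw [hstar] at h1 h2
  have h3 : Nᴴ * kb {i} (fun _ => l) (fun _ => l) * N + Nᴴ * kb {i} (fun _ => perp l) (fun _ => perp l) * N =
      kb S eK eK := by
    rw [← hu]
    simp only [← Matrix.add_mul, ← Matrix.mul_add]
    rw [kb_single_add_perp i hl, Matrix.mul_one]
  rw [h1, h2, ← add_smul] at h3
  have h4 : (((‖kb {i} eK (fun _ => l) * N‖ ^ 2 : ℝ) : ℂ) + ((‖kb {i} eK (fun _ => perp l) * N‖ ^ 2 : ℝ) : ℂ)) • kb S eK eK =
      (1 : ℂ) • kb S eK eK := by
    rw [h3, one_smul]
  have h5 := smul_left_injective ℂ (kb_ne_zero (eK_unit S)) h4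
  exact_mod_cast h5

/-- The real flag of a pin. -/
noncomputable def pinFr (U Ub : Finset Q) (y : Q → Bool) : ℝ :=
  if ∀ q ∈ U ∩ Ub, y q = true then 1 else 0

theorem pinF_eq (U Ub : Finset Q) (y : Q → Bool) : pinF U Ub y = ((pinFr U Ub y : ℝ) : ℂ) := by
  unfold pinF pinFr
  by_cases h : ∀ q ∈ U ∩ Ub, y q = true
  · rw [if_pos h, if_pos h]; simp
  · rw [if_neg h, if_neg h]; simp

theorem pinFr_cases (U Ub : Finset Q) (y : Q → Bool) : pinFr U Ub y = 0 ∨ pinFr U Ub y = 1 := by
  unfold pinFr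
  by_cases h : ∀ q ∈ U ∩ Ub, y q = true
  · right; exact if_pos h
  · left; exact if_neg h

/-- The operator left by a designated row for a value of its literal. -/
noncomputable def DCol.R (h : DCol Q) (r : Q → Bool → ℂ) (f : ℝ) (β : Bool) : MM Q :=
  if h.i ∈ h.row.U then h.row.mix (((f * ‖ip (r h.i) (h.lit β)‖ ^ 2 : ℝ) : ℂ) • (1 : MM Q))
  else kb {h.i} eK (fun _ => h.lit β) * h.row.mix (((f : ℝ) : ℂ) • (1 : MM Q)) *
    kb {h.i} (fun _ => h.lit β) eK

theorem DCol.lit_false (h : DCol Q) : h.lit false = h.l := by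
  simp [DCol.lit]

theorem DCol.lit_true (h : DCol Q) : h.lit true = perp h.l := by
  simp [DCol.lit]

theorem Row.mix_zero (g : Row Q) : g.mix (((0 : ℝ) : ℂ) • (1 : MM Q)) = g.E0 := by
  rw [g.mix_scalar]
  simp

theorem Row.mix_one (g : Row Q) : g.mix (((1 : ℝ) : ℂ) • (1 : MM Q)) = g.E1 := by
  rw [g.mix_scalar]
  simp

theorem norm_lit_ket_mul {N : MM Q} {i : Q} (a : Bool → ℂ) :
    ‖kb {i} eK (fun _ => a) * (N * Nᴴ) * kb {i} (fun _ => a) eK‖ = ‖kb {i} eK (fun _ => a) * N‖ ^ 2 := by
  have e : kb {i} eK (fun _ => a) * (N * Nᴴ) * kb {i} (fun _ => a) eK =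
      (kb {i} eK (fun _ => a) * N) * (kb {i} eK (fun _ => a) * N)ᴴ := by
    rw [conjTranspose_mul, kb_conjTranspose]
    simp only [Matrix.mul_assoc]
  rw [e]
  have h := Matrix.l2_opNorm_conjTranspose_mul_self (kb {i} eK (fun _ => a) * N)ᴴ
  rw [conjTranspose_conjTranspose, Matrix.l2_opNorm_conjTranspose] at h
  rw [h, sq]

/-- The two literal values of a designated row. -/
theorem DCol.R_bound (h : DCol Q) {r : Q → Bool → ℂ} (hr : ip (r h.i) (r h.i) = 1) {f : ℝ}
    (hf : f = 0 ∨ f = 1) (hi : h.i ∈ h.row.sites) :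
    ∃ c : ℝ, 0 ≤ c ∧ c ≤ 1 ∧ ‖(1 / 2 : ℂ) • (h.R r f false + h.R r f true)‖ ≤ (1 + c) / 2 ∧
      ‖h.R r f false - h.R r f true‖ ≤ Real.sqrt (1 - c ^ 2) := by
  by_cases hU : h.i ∈ h.row.U
  · have hR : ∀ β, h.R r f β = h.row.mix (((f * ‖ip (r h.i) (h.lit β)‖ ^ 2 : ℝ) : ℂ) • (1 : MM Q)) := by
      intro β
      unfold DCol.R
      rw [if_pos hU]
    rw [hR, hR]
    rcases hf with rfl | rfl
    · refine ⟨1, by norm_num, le_refl _, ?_, ?_⟩
      · simp only [zero_mul]
        rw [← two_smul ℂ, smul_smul, Row.mix_zero]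
        norm_num
        exact h.row.norm_E0
      · simp
    · obtain ⟨c2, h0, h1, h2, h3⟩ := h.row.overlap
      set tf := ‖ip (r h.i) (h.lit false)‖ ^ 2 with htf
      set tt := ‖ip (r h.i) (h.lit true)‖ ^ 2 with htt
      have hsum : tf + tt = 1 := by
        rw [htf, htt, h.lit_false, h.lit_true]
        exact sum_perp_one hr h.hl
      have htf0 : 0 ≤ tf := by positivity
      have htt0 : 0 ≤ tt := by positivity
      obtain ⟨a1, a2⟩ := h.row.E0_proj
      obtain ⟨b1, b2⟩ := h.row.E1_proj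
      refine ⟨Real.sqrt c2, Real.sqrt_nonneg _, ?_, ?_, ?_⟩
      · exact Real.sqrt_le_one.mpr h1
      · simp only [one_mul]
        rw [h.row.mix_scalar, h.row.mix_scalar]
        have e : (1 / 2 : ℂ) • (h.row.E0 + ((tf : ℝ) : ℂ) • (h.row.E1 - h.row.E0) +
            (h.row.E0 + ((tt : ℝ) : ℂ) • (h.row.E1 - h.row.E0))) = (1 / 2 : ℂ) • (h.row.E1 + h.row.E0) := by
          congr 1
          have hc : ((tf : ℝ) : ℂ) + ((tt : ℝ) : ℂ) = 1 := by exact_mod_cast hsum
          have : h.row.E0 + ((tf : ℝ) : ℂ) • (h.row.E1 - h.row.E0) +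
              (h.row.E0 + ((tt : ℝ) : ℂ) • (h.row.E1 - h.row.E0)) =
              h.row.E0 + h.row.E0 + (((tf : ℝ) : ℂ) + ((tt : ℝ) : ℂ)) • (h.row.E1 - h.row.E0) := by
            rw [add_smul]
            abel
          rw [this, hc, one_smul]
          abel
        rw [e, norm_smul]
        have h5 := two_proj_sum b1 b2 a1 a2 (Real.sqrt_nonneg c2) (Real.sq_sqrt h0) h3 h2
        have h6 : ‖(1 / 2 : ℂ)‖ = 1 / 2 := by norm_num
        rw [h6]
        linarith
      · simp only [one_mul]
        rw [h.row.mix_scalar, h.row.mix_scalar, Real.sq_sqrt h0]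
        have e : h.row.E0 + ((tf : ℝ) : ℂ) • (h.row.E1 - h.row.E0) -
            (h.row.E0 + ((tt : ℝ) : ℂ) • (h.row.E1 - h.row.E0)) =
            ((tf - tt : ℝ) : ℂ) • (h.row.E1 - h.row.E0) := by
          push_cast
          rw [sub_smul]
          abel
        rw [e, norm_smul, Complex.norm_real, Real.norm_eq_abs]
        have h5 := two_proj_diff b1 b2 a1 a2 h1 h3 h2
        have h6 : ‖h.row.E1 - h.row.E0‖ ≤ Real.sqrt (1 - c2) := by
          apply Real.le_sqrt_of_sq_le
          exact h5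
        have h7 : |tf - tt| ≤ 1 := by
          rw [abs_le]
          constructor <;> linarith
        calc |tf - tt| * ‖h.row.E1 - h.row.E0‖ ≤ 1 * Real.sqrt (1 - c2) :=
              mul_le_mul h7 h6 (norm_nonneg _) (by norm_num)
          _ = _ := one_mul _
  · have hS : h.i ∈ h.row.S := by
      unfold Row.sites at hi
      rcases Finset.mem_union.mp hi with h1 | h1
      · exact h1
      · exact absurd h1 hU
    have hR : ∀ β, h.R r f β = kb {h.i} eK (fun _ => h.lit β) * h.row.mix (((f : ℝ) : ℂ) • (1 : MM Q)) *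
        kb {h.i} (fun _ => h.lit β) eK := by
      intro β
      unfold DCol.R
      rw [if_neg hU]
    -- the unit ket of the row for this flag
    obtain ⟨N, hN, hu, hE⟩ : ∃ N : MM Q, IsKet h.row.S N ∧ Nᴴ * N = kb h.row.S eK eK ∧
        h.row.mix (((f : ℝ) : ℂ) • (1 : MM Q)) = N * Nᴴ := by
      rcases hf with rfl | rfl
      · exact ⟨h.row.N0, h.row.hN0, h.row.unit0, h.row.mix_zero⟩
      · exact ⟨h.row.N1, h.row.hN1, h.row.unit1, h.row.mix_one⟩
    have hnorm := lit_ket_norm hN hu hS h.hl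
    have hRn : ∀ β, ‖h.R r f β‖ = ‖kb {h.i} eK (fun _ => h.lit β) * N‖ ^ 2 := by
      intro β
      rw [hR, hE]
      exact norm_lit_ket_mul _
    have hsum : ‖h.R r f false‖ + ‖h.R r f true‖ = 1 := by
      rw [hRn, hRn, h.lit_false, h.lit_true]
      exact hnorm
    refine ⟨0, le_refl _, by norm_num, ?_, ?_⟩
    · rw [norm_smul]
      have h6 : ‖(1 / 2 : ℂ)‖ = 1 / 2 := by norm_num
      rw [h6]
      have := norm_add_le (h.R r f false) (h.R r f true)
      linarith
    · have h7 : Real.sqrt (1 - (0 : ℝ) ^ 2) = 1 := by norm_num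
      rw [h7]
      have := norm_sub_le (h.R r f false) (h.R r f true)
      linarith

/-- The numerical estimate for the cost of a column. -/
theorem cost_bound {a2 W c nR nD : ℝ} (ha0 : 0 ≤ a2) (ha1 : a2 ≤ 0.5001) (hW : 0 ≤ W)
    (haW : a2 * W ≤ 0.368) (hc0 : 0 ≤ c) (hc1 : c ≤ 1) (hR0 : 0 ≤ nR) (hR : nR ≤ (1 + c) / 2) (hD0 : 0 ≤ nD)
    (hD : nD ≤ Real.sqrt (1 - c ^ 2)) :
    (2 * a2) * nR * W + |1 / 2 - a2| * nD + a2 * nD ≤ 0.99 := by
  set s := Real.sqrt (1 - c ^ 2) with hs
  have hs0 : 0 ≤ s := Real.sqrt_nonneg _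
  have hs2 : s ^ 2 = 1 - c ^ 2 := Real.sq_sqrt (by nlinarith)
  have h1 : |1 / 2 - a2| + a2 ≤ 0.5002 := by
    rcases abs_cases (1 / 2 - a2) with ⟨h, _⟩ | ⟨h, _⟩ <;> rw [h] <;> linarith
  have h2 : (2 * a2) * nR * W ≤ 0.368 * (1 + c) := by
    have h3 : (2 * a2) * nR * W = 2 * nR * (a2 * W) := by ring
    rw [h3]
    have h4 : a2 * W ≥ 0 := mul_nonneg ha0 hW
    nlinarith
  have h3 : |1 / 2 - a2| * nD + a2 * nD ≤ 0.5002 * s := by
    have h4 : |1 / 2 - a2| * nD + a2 * nD = (|1 / 2 - a2| + a2) * nD := by ring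
    rw [h4]
    have h5 : 0 ≤ |1 / 2 - a2| + a2 := by positivity
    calc (|1 / 2 - a2| + a2) * nD ≤ 0.5002 * nD := by gcongr
      _ ≤ 0.5002 * s := by gcongr
  -- the optimisation over `c`
  have h4 : 0.368 * c + 0.5002 * s ≤ 0.621 := by
    have h5 : (0.368 * c + 0.5002 * s) ^ 2 ≤ 0.621 ^ 2 := by
      nlinarith [sq_nonneg (0.5002 * c - 0.368 * s)]
    have h6 : 0 ≤ 0.368 * c + 0.5002 * s := by positivity
    nlinarith
  linarith

/-- A product of `1 - t` against the sum of the `t`. -/
theorem sum_mul_prod_le {α : Type*} (A : Finset α) (t : α → ℝ) (h0 : ∀ q ∈ A, 0 ≤ t q)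
    (h1 : ∀ q ∈ A, t q ≤ 1) : (∑ q ∈ A, t q) * ∏ q ∈ A, (1 - t q) ≤ 0.368 := by
  set x := ∑ q ∈ A, t q with hx
  have hx0 : 0 ≤ x := Finset.sum_nonneg h0
  have h2 : ∏ q ∈ A, (1 - t q) ≤ Real.exp (-x) := by
    rw [hx, ← Finset.sum_neg_distrib, Real.exp_sum]
    refine Finset.prod_le_prod (fun q hq => by linarith [h1 q hq]) (fun q _ => ?_)
    exact Real.one_sub_le_exp_neg _
  have h3 : x ≤ Real.exp (x - 1) := by
    have := Real.add_one_le_exp (x - 1)
    linarith
  have h4 : x * Real.exp (-x) ≤ Real.exp (-1) := by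
    calc x * Real.exp (-x) ≤ Real.exp (x - 1) * Real.exp (-x) := by
          gcongr
      _ = Real.exp (-1) := by
          rw [← Real.exp_add]
          congr 1
          ring
  have h5 : Real.exp (-1) ≤ 0.368 := by
    rw [Real.exp_neg, inv_eq_one_div, div_le_iff₀ (Real.exp_pos _)]
    have := Real.exp_one_gt_d9
    nlinarith
  calc x * ∏ q ∈ A, (1 - t q) ≤ x * Real.exp (-x) := by gcongr
    _ ≤ 0.368 := h4.trans h5

end DRows

end Vale.Agent.Lib.P368

/-!
The second main estimate: columns in exact form, with shared rows.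
-/

set_option linter.unusedSectionVars false
set_option linter.unusedSimpArgs false
set_option linter.unusedVariables false

namespace Vale.Agent.Lib.P368

open Matrix
open scoped Matrix.Norms.L2Operator ComplexConjugate ComplexOrder

section ValRec

variable {Q : Type*} [Fintype Q] [DecidableEq Q] {ι : Type*} [DecidableEq ι]

/-- The two weight operators of a column in terms of the operators of its literal values. -/
noncomputable def DCol.R0 (h : DCol Q) (R : Bool → MM Q) : MM Q :=
  h.coef false false • R false + h.coef true false • R true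

noncomputable def DCol.R1 (h : DCol Q) (R : Bool → MM Q) : MM Q :=
  h.coef false true • R false + h.coef true true • R true

theorem DCol.rho_mem (h : DCol Q) (β ν : Bool) : h.rho β ν ∈ SpanOn h.C := by
  unfold DCol.rho DCol.C
  refine mul_mem_spanOn (kb_mem_spanOn ?_ _ _) (kb_mem_spanOn (Finset.subset_insert _ _) _ _)
  simp

theorem DCol.A0_ket (h : DCol Q) : IsKet h.C h.A0 := by
  have hiC : ({h.i} : Finset Q) ⊆ h.C := by simp [DCol.C]
  have hAC : h.A ⊆ h.C := Finset.subset_insert _ _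
  have hB : h.B ∈ SpanOn h.C := Submodule.sub_mem _ (kb_mem_spanOn hAC _ _)
    (Submodule.smul_mem _ _ (kb_mem_spanOn hAC _ _))
  have hC : kb h.C eK eK = kb {h.i} eK eK * kb h.A eK eK := by
    show kb (insert h.i h.A) eK eK = _
    rw [Finset.insert_eq, kb_union_same h.disj]
  refine ⟨mul_mem_spanOn (kb_mem_spanOn hiC _ _) hB, ?_⟩
  have h1 : h.B * kb h.A eK eK = h.B := by
    unfold DCol.B
    simp only [Matrix.sub_mul, Matrix.smul_mul, kb_mul, Finset.prod_congr rfl (eK_unit _)]
    simp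
  have h2 : kb {h.i} (fun _ => h.lit false) eK * kb {h.i} eK eK = kb {h.i} (fun _ => h.lit false) eK := by
    rw [kb_mul, Finset.prod_congr rfl (eK_unit _)]
    simp
  have hc : h.B * kb {h.i} eK eK = kb {h.i} eK eK * h.B :=
    (commute_spanOn h.disj (kb_mem_spanOn (Finset.Subset.refl _) _ _)
      (Submodule.sub_mem _ (kb_mem_spanOn (Finset.Subset.refl _) _ _)
        (Submodule.smul_mem _ _ (kb_mem_spanOn (Finset.Subset.refl _) _ _)))).symm
  unfold DCol.A0
  rw [hC]
  calc kb {h.i} (fun _ => h.lit false) eK * h.B * (kb {h.i} eK eK * kb h.A eK eK)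
      = kb {h.i} (fun _ => h.lit false) eK * (h.B * kb {h.i} eK eK) * kb h.A eK eK := by
        simp only [Matrix.mul_assoc]
    _ = (kb {h.i} (fun _ => h.lit false) eK * kb {h.i} eK eK) * (h.B * kb h.A eK eK) := by
        rw [hc]; simp only [Matrix.mul_assoc]
    _ = _ := by rw [h2, h1]

theorem DCol.A1_ket (h : DCol Q) : IsKet h.C h.A1 := by
  have hiC : ({h.i} : Finset Q) ⊆ h.C := by simp [DCol.C]
  have hAC : h.A ⊆ h.C := Finset.subset_insert _ _
  have hC : kb h.C eK eK = kb {h.i} eK eK * kb h.A eK eK := by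
    show kb (insert h.i h.A) eK eK = _
    rw [Finset.insert_eq, kb_union_same h.disj]
  refine ⟨mul_mem_spanOn (kb_mem_spanOn hiC _ _) (kb_mem_spanOn hAC _ _), ?_⟩
  have h1 : kb h.A h.psi eK * kb h.A eK eK = kb h.A h.psi eK := by
    rw [kb_mul, Finset.prod_congr rfl (eK_unit _)]
    simp
  have h2 : kb {h.i} (fun _ => h.lit true) eK * kb {h.i} eK eK = kb {h.i} (fun _ => h.lit true) eK := by
    rw [kb_mul, Finset.prod_congr rfl (eK_unit _)]
    simp
  have hc : kb h.A h.psi eK * kb {h.i} eK eK = kb {h.i} eK eK * kb h.A h.psi eK :=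
    (kb_comm_disjoint h.disj _ _ _ _).symm
  unfold DCol.A1
  rw [hC]
  calc kb {h.i} (fun _ => h.lit true) eK * kb h.A h.psi eK * (kb {h.i} eK eK * kb h.A eK eK)
      = kb {h.i} (fun _ => h.lit true) eK * (kb h.A h.psi eK * kb {h.i} eK eK) * kb h.A eK eK := by
        simp only [Matrix.mul_assoc]
    _ = (kb {h.i} (fun _ => h.lit true) eK * kb {h.i} eK eK) * (kb h.A h.psi eK * kb h.A eK eK) := by
        rw [hc]; simp only [Matrix.mul_assoc]
    _ = _ := by rw [h2, h1]

theorem DCol.tau_mem (h : DCol Q) : h.tau ∈ SpanOn h.C := by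
  unfold DCol.tau
  refine Submodule.smul_mem _ _ (Submodule.sub_mem _ ?_ ?_)
  · exact mul_mem_spanOn h.A0_ket.1 (conjTranspose_mem_spanOn h.A0_ket.1)
  · exact mul_mem_spanOn h.A1_ket.1 (conjTranspose_mem_spanOn h.A1_ket.1)

/-- The recursion on the columns. -/
theorem val_rec (col : ι → DCol Q) (Gall K Z : MM Q) (R : ι → Bool → MM Q) (F : (ι → Bool) → MM Q)
    (X : List ι) (hnd : X.Nodup)
    (hG : ∀ h ∈ X, Gall * kb (col h).A (col h).psi (col h).psi =
      kb (col h).A (col h).psi (col h).psi * Gall)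
    (hXC : X.Pairwise (fun a b => Disjoint (col a).C (col b).C))
    (hK : ∀ h ∈ X, K * kb (col h).A (col h).psi (col h).psi =
      kb (col h).A (col h).psi (col h).psi * K)
    (base : ∀ b v : ι → Bool, (Gall * (X.map (fun h => (col h).rho (b h) (v h))).prod * K).trace =
      ((X.map (fun h => R h (b h))).prod * F v * Z).trace) :
    ∀ (L₂ L₁ : List ι), L₁ ++ L₂ = X → ∀ b₀ v₀ : ι → Bool,
      (Gall * (L₁.map (fun h => (col h).rho (b₀ h) (v₀ h))).prod *
        (L₂.map (fun h => (col h).tau)).prod * K).trace =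
      ((L₁.map (fun h => R h (b₀ h))).prod *
        bdOp (fun h => (col h).R0 (R h)) (fun h => (col h).R1 (R h)) L₂ F v₀ * Z).trace := by
  intro L₂
  induction L₂ with
  | nil =>
    intro L₁ hL b₀ v₀
    rw [List.append_nil] at hL
    subst hL
    simp only [List.map_nil, List.prod_nil, Matrix.mul_one, bdOp]
    exact base b₀ v₀
  | cons h L₂ ih =>
    intro L₁ hL b₀ v₀
    have hL' : (L₁ ++ [h]) ++ L₂ = X := by
      rw [List.append_assoc]
      exact hL
    have hhX : h ∈ X := by
      rw [← hL]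
      simp
    have hnd' : (L₁ ++ h :: L₂).Nodup := by rw [hL]; exact hnd
    have hhL1 : h ∉ L₁ := by
      intro hh
      have := List.nodup_append.mp hnd'
      exact this.2.2 h hh h (by simp) rfl
    have hpw : (L₁ ++ h :: L₂).Pairwise (fun a b => Disjoint (col a).C (col b).C) := by
      rw [hL]; exact hXC
    have hdisj1 : ∀ a ∈ L₁, Disjoint (col a).C (col h).C := by
      intro a ha
      have := List.pairwise_append.mp hpw
      exact this.2.2 a ha h (by simp)
    have hdisj2 : ∀ a ∈ L₂, Disjoint (col a).C (col h).C := by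
      intro a ha
      have := (List.pairwise_append.mp hpw).2.1
      rw [List.pairwise_cons] at this
      exact (this.1 a ha).symm
    have hAC : (col h).A ⊆ (col h).C := Finset.subset_insert _ _
    set π := kb (col h).A (col h).psi (col h).psi with hπ
    have hπm : π ∈ SpanOn (col h).A := kb_mem_spanOn (Finset.Subset.refl _) _ _
    -- the pieces
    set D₀ := (L₁.map (fun a => (col a).rho (b₀ a) (v₀ a))).prod with hD₀
    set Tr₂ := (L₂.map (fun a => (col a).tau)).prod with hTr₂
    have hD₀c : D₀ * π = π * D₀ := by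
      refine prod_commute_of (fun a ha => ?_)
      exact commute_spanOn (Finset.disjoint_of_subset_right hAC (hdisj1 a ha)) ((col a).rho_mem _ _) hπm
    have hTrc : Tr₂ * π = π * Tr₂ := by
      refine prod_commute_of (fun a ha => ?_)
      exact commute_spanOn (Finset.disjoint_of_subset_right hAC (hdisj2 a ha)) (col a).tau_mem hπm
    have hYc : (Gall * D₀) * π = π * (Gall * D₀) := by
      rw [Matrix.mul_assoc, hD₀c, ← Matrix.mul_assoc, hG h hhX, Matrix.mul_assoc]
    have hK'c : (Tr₂ * K) * π = π * (Tr₂ * K) := by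
      rw [Matrix.mul_assoc, hK h hhX, ← Matrix.mul_assoc, hTrc, Matrix.mul_assoc]
    have hval := (col h).tau_val (Y := Gall * D₀) (K' := Tr₂ * K) hYc hK'c
    -- the terms
    have hterm : ∀ β ν : Bool, (Gall * D₀ * (col h).rho β ν * (Tr₂ * K)).trace =
        ((L₁.map (fun a => R a (b₀ a))).prod * R h β *
          bdOp (fun a => (col a).R0 (R a)) (fun a => (col a).R1 (R a)) L₂ F
            (Function.update v₀ h ν) * Z).trace := by
      intro β ν
      have hih := ih (L₁ ++ [h]) hL' (Function.update b₀ h β) (Function.update v₀ h ν)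
      have e1 : (L₁ ++ [h]).map (fun a => (col a).rho (Function.update b₀ h β a)
          (Function.update v₀ h ν a)) =
          L₁.map (fun a => (col a).rho (b₀ a) (v₀ a)) ++ [(col h).rho β ν] := by
        rw [List.map_append]
        congr 1
        · refine List.map_congr_left (fun a ha => ?_)
          have hne : a ≠ h := fun e => hhL1 (e ▸ ha)
          rw [Function.update_of_ne hne, Function.update_of_ne hne]
        · simp
      have e2 : (L₁ ++ [h]).map (fun a => R a (Function.update b₀ h β a)) =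
          L₁.map (fun a => R a (b₀ a)) ++ [R h β] := by
        rw [List.map_append]
        congr 1
        · refine List.map_congr_left (fun a ha => ?_)
          have hne : a ≠ h := fun e => hhL1 (e ▸ ha)
          rw [Function.update_of_ne hne]
        · simp
      rw [e1, e2, List.prod_append, List.prod_append] at hih
      simp only [List.prod_cons, List.prod_nil, Matrix.mul_one] at hih
      simp only [Matrix.mul_assoc] at hih ⊢
      exact hih
    have e0 : (Gall * D₀ * ((h :: L₂).map (fun a => (col a).tau)).prod * K).trace =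
        (Gall * D₀ * (col h).tau * (Tr₂ * K)).trace := by
      have : ((h :: L₂).map (fun a => (col a).tau)).prod = (col h).tau * Tr₂ := by
        simp [hTr₂]
      rw [this]
      simp only [Matrix.mul_assoc]
    rw [e0, hval, hterm, hterm, hterm, hterm]
    simp only [bdOp, DCol.R0, DCol.R1]
    simp only [Matrix.mul_add, Matrix.add_mul, Matrix.smul_mul, Matrix.mul_smul, Matrix.trace_add,
      Matrix.trace_smul, smul_eq_mul]
    simp only [Matrix.mul_assoc]
    ring

end ValRec

end Vale.Agent.Lib.P368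

/-!
The second main estimate: the system of columns and rows.
-/

set_option linter.unusedSectionVars false
set_option linter.unusedSimpArgs false
set_option linter.unusedVariables false

namespace Vale.Agent.Lib.P368

open Matrix
open scoped Matrix.Norms.L2Operator ComplexConjugate ComplexOrder

section DSys

variable {Q : Type*} [Fintype Q] [DecidableEq Q] {ι : Type*} [DecidableEq ι]

/-- The product ket of a column for a branch. -/
def DCol.ket (h : DCol Q) (β ν : Bool) : Q → Bool → ℂ := merge {h.i} (fun _ => h.lit β) (h.k ν)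

theorem DCol.C_eq (h : DCol Q) : h.C = {h.i} ∪ h.A := by
  unfold DCol.C
  rw [Finset.insert_eq]

theorem DCol.rho_eq (h : DCol Q) (β ν : Bool) : h.rho β ν = kb h.C (h.ket β ν) (h.ket β ν) := by
  unfold DCol.rho DCol.ket
  rw [kb_mul_disjoint h.disj, h.C_eq]

theorem DCol.ne_of_mem_A (h : DCol Q) {q : Q} (hq : q ∈ h.A) : q ≠ h.i := fun e => h.hi (e ▸ hq)

theorem DCol.ket_i (h : DCol Q) (β ν : Bool) : h.ket β ν h.i = h.lit β := by
  simp [DCol.ket, merge]

theorem DCol.ket_A (h : DCol Q) (β ν : Bool) {q : Q} (hq : q ∈ h.A) : h.ket β ν q = h.k ν q := by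
  have := h.ne_of_mem_A hq
  simp [DCol.ket, merge, this]

theorem DCol.mem_C (h : DCol Q) {q : Q} : q ∈ h.C ↔ q = h.i ∨ q ∈ h.A := by
  simp [DCol.C]

theorem DCol.ket_unit (h : DCol Q) (β ν : Bool) : UnitOn h.C (h.ket β ν) := by
  intro q hq
  rcases h.mem_C.mp hq with rfl | hq
  · rw [h.ket_i]
    exact h.lit_unit β
  · rw [h.ket_A _ _ hq]
    exact h.k_unit ν q hq

/-- The global ket of an assignment of branches. -/
def wAll (col : ι → DCol Q) : List ι → (ι → Bool) → (ι → Bool) → Q → Bool → ℂ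
  | [], _, _ => eK
  | h :: L, b, v => merge (col h).C ((col h).ket (b h) (v h)) (wAll col L b v)

theorem done_eq (col : ι → DCol Q) (b v : ι → Bool) {L : List ι}
    (hL : L.Pairwise (fun a c => Disjoint (col a).C (col c).C)) :
    (L.map (fun h => (col h).rho (b h) (v h))).prod =
      kb (uni L (fun h => (col h).C)) (wAll col L b v) (wAll col L b v) := by
  induction L with
  | nil => simp [uni, kb_empty]
  | cons h L ih =>
    rw [List.pairwise_cons] at hL
    simp only [List.map_cons, List.prod_cons]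
    rw [ih hL.2, (col h).rho_eq, uni_cons, kb_mul_disjoint (disjoint_uni_right hL.1)]
    rfl

theorem wAll_val (col : ι → DCol Q) (b v : ι → Bool) {L : List ι}
    (hL : L.Pairwise (fun a c => Disjoint (col a).C (col c).C)) {h : ι} (hh : h ∈ L) {q : Q}
    (hq : q ∈ (col h).C) : wAll col L b v q = (col h).ket (b h) (v h) q := by
  induction L with
  | nil => simp at hh
  | cons a L ih =>
    rw [List.pairwise_cons] at hL
    simp only [wAll, merge]
    rcases List.mem_cons.mp hh with rfl | hh'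
    · simp [hq]
    · have : q ∉ (col a).C := fun hqa => Finset.disjoint_left.mp (hL.1 h hh') hqa hq
      rw [if_neg this]
      exact ih hL.2 hh'

theorem wAll_unit (col : ι → DCol Q) (b v : ι → Bool) {L : List ι}
    (hL : L.Pairwise (fun a c => Disjoint (col a).C (col c).C)) :
    UnitOn (uni L (fun h => (col h).C)) (wAll col L b v) := by
  intro q hq
  obtain ⟨h, hh, hqh⟩ := mem_uni.mp hq
  rw [wAll_val col b v hL hh hqh]
  exact (col h).ket_unit _ _ q hqh

/-- The weight of a column in a row. -/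
noncomputable def tauG (r : Q → Bool → ℂ) (g : Row Q) (h : DCol Q) (ν : Bool) : ℝ :=
  ∏ q ∈ h.A ∩ g.U, ‖ip (r q) (h.k ν q)‖ ^ 2

theorem tauG_bounds {r : Q → Bool → ℂ} (hr : ∀ q, ip (r q) (r q) = 1) (g : Row Q) (h : DCol Q)
    (ν : Bool) : 0 ≤ tauG r g h ν ∧ tauG r g h ν ≤ 1 := by
  unfold tauG
  refine ⟨Finset.prod_nonneg (fun q _ => by positivity), Finset.prod_le_one (fun q _ => by positivity) ?_⟩
  intro q hq
  exact norm_ip_sq_le_one (hr q) (h.k_unit ν q (Finset.mem_inter.mp hq).1)

theorem wAll_prod (r : Q → Bool → ℂ) (col : ι → DCol Q) (b v : ι → Bool) (g : Row Q) {L : List ι}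
    (hL : L.Pairwise (fun a c => Disjoint (col a).C (col c).C))
    (hi : ∀ h ∈ L, (col h).i ∉ g.U) :
    ∏ q ∈ g.U ∩ uni L (fun h => (col h).C), ‖ip (r q) (wAll col L b v q)‖ ^ 2 =
      (L.map (fun h => tauG r g (col h) (v h))).prod := by
  induction L with
  | nil => simp [uni]
  | cons h L ih =>
    have hL' := hL
    rw [List.pairwise_cons] at hL
    simp only [List.map_cons, List.prod_cons]
    rw [← ih hL.2 (fun a ha => hi a (by simp [ha])), uni_cons, Finset.inter_union_distrib_left,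
      Finset.prod_union]
    · congr 1
      · unfold tauG
        have hset : g.U ∩ (col h).C = (col h).A ∩ g.U := by
          ext q
          simp only [Finset.mem_inter, (col h).mem_C]
          constructor
          · rintro ⟨h1, rfl | h2⟩
            · exact absurd h1 (hi h (by simp))
            · exact ⟨h2, h1⟩
          · rintro ⟨h1, h2⟩
            exact ⟨h2, Or.inr h1⟩
        rw [hset]
        refine Finset.prod_congr rfl (fun q hq => ?_)
        have hqA := (Finset.mem_inter.mp hq).1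
        rw [wAll_val col b v hL' (List.mem_cons_self) ((col h).mem_C.mpr (Or.inr hqA)), (col h).ket_A _ _ hqA]
      · refine Finset.prod_congr rfl (fun q hq => ?_)
        obtain ⟨a, ha, hqa⟩ := mem_uni.mp (Finset.mem_inter.mp hq).2
        rw [wAll_val col b v hL' (List.mem_cons_of_mem _ ha) hqa, wAll_val col b v hL.2 ha hqa]
    · refine Finset.disjoint_of_subset_left Finset.inter_subset_right
        (Finset.disjoint_of_subset_right Finset.inter_subset_right (disjoint_uni_right hL.1))

/-- A system of columns in exact form, with rows. -/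
structure DSys (Q : Type*) [Fintype Q] [DecidableEq Q] (ι : Type*) where
  r : Q → Bool → ℂ
  hr : ∀ q, ip (r q) (r q) = 1
  col : ι → DCol Q
  X : List ι
  nl : List (Row Q)
  hnd : X.Nodup
  hXC : X.Pairwise (fun a b => Disjoint (col a).C (col b).C)
  hXr : X.Pairwise (fun a b => Disjoint (col a).row.sites (col b).row.sites)
  hXo : ∀ a ∈ X, ∀ b ∈ X, a ≠ b → Disjoint (col a).C (col b).row.sites
  hnl : nl.Pairwise (fun g g' => Disjoint g.sites g'.sites)
  hXnl : ∀ h ∈ X, ∀ g ∈ nl, Disjoint (col h).row.sites g.sites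
  hAr : ∀ h ∈ X, Disjoint (col h).A (col h).row.sites
  hir : ∀ h ∈ X, (col h).i ∈ (col h).row.sites
  hnlS : ∀ h ∈ X, ∀ g ∈ nl, Disjoint (col h).C g.S
  hcov : ∀ h ∈ X, ∀ q ∈ (col h).A, ∃ g ∈ nl, q ∈ g.U
  halign : ∀ h ∈ X, ∀ q ∈ (col h).A, ketbra ((col h).psi q) ((col h).psi q) = ketbra (r q) (r q) ∨
    ketbra ((col h).psi q) ((col h).psi q) = ketbra (perp (r q)) (perp (r q))
  ha2 : ∀ h ∈ X, (col h).a2 ≤ 0.5001

namespace DSys

variable (S : DSys Q ι)

/-- The sites of the columns. -/
def CX : Finset Q := uni S.X (fun h => (S.col h).C)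

/-- The sites pinned: `U` sites of rows outside the columns. -/
def Ub : Finset Q := (uni S.X (fun h => (S.col h).row.U) ∪ uni S.nl Row.U) \ S.CX

theorem mem_CX {q : Q} : q ∈ S.CX ↔ ∃ h ∈ S.X, q ∈ (S.col h).C := mem_uni

theorem not_mem_Ub_of_CX {q : Q} (hq : q ∈ S.CX) : q ∉ S.Ub := fun h =>
  (Finset.mem_sdiff.mp h).2 hq

theorem CX_of_des {h : ι} (hh : h ∈ S.X) {q : Q} (hq : q ∈ (S.col h).row.U) (hq2 : q ∉ S.Ub) :
    q ∈ S.CX := by
  by_contra hc
  exact hq2 (Finset.mem_sdiff.mpr ⟨Finset.mem_union_left _ (mem_uni.mpr ⟨h, hh, hq⟩), hc⟩)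

theorem CX_of_nl {g : Row Q} (hg : g ∈ S.nl) {q : Q} (hq : q ∈ g.U) (hq2 : q ∉ S.Ub) :
    q ∈ S.CX := by
  by_contra hc
  exact hq2 (Finset.mem_sdiff.mpr ⟨Finset.mem_union_right _ (mem_uni.mpr ⟨g, hg, hq⟩), hc⟩)

/-- The only site of the columns in a designated row is the literal. -/
theorem des_site {h : ι} (hh : h ∈ S.X) {q : Q} (hq : q ∈ S.CX) (hq2 : q ∈ (S.col h).row.sites) :
    q = (S.col h).i := by
  obtain ⟨a, ha, hqa⟩ := S.mem_CX.mp hq
  by_cases hne : a = h
  · subst hne
    rcases (S.col a).mem_C.mp hqa with h1 | h1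
    · exact h1
    · exact absurd hq2 (Finset.disjoint_left.mp (S.hAr a ha) h1)
  · exact absurd hq2 (Finset.disjoint_left.mp (S.hXo a ha h hh hne) hqa)

theorem i_mem_CX {h : ι} (hh : h ∈ S.X) : (S.col h).i ∈ S.CX :=
  S.mem_CX.mpr ⟨h, hh, (S.col h).mem_C.mpr (Or.inl rfl)⟩

theorem i_not_nl {h : ι} (hh : h ∈ S.X) {g : Row Q} (hg : g ∈ S.nl) : (S.col h).i ∉ g.U := by
  intro hq
  exact Finset.disjoint_left.mp (S.hXnl h hh g hg) (S.hir h hh)
    (Finset.mem_union_right _ hq)

theorem des_U_sdiff {h : ι} (hh : h ∈ S.X) : (S.col h).row.U \ S.Ub ⊆ {(S.col h).i} := by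
  intro q hq
  obtain ⟨h1, h2⟩ := Finset.mem_sdiff.mp hq
  rw [Finset.mem_singleton]
  exact S.des_site hh (S.CX_of_des hh h1 h2) (Finset.mem_union_right _ h1)

theorem nl_U_sdiff {g : Row Q} (hg : g ∈ S.nl) : g.U \ S.Ub = g.U ∩ S.CX := by
  ext q
  simp only [Finset.mem_sdiff, Finset.mem_inter]
  exact ⟨fun h => ⟨h.1, S.CX_of_nl hg h.1 h.2⟩, fun h => ⟨h.1, S.not_mem_Ub_of_CX h.2⟩⟩

/-- The operator left by a designated row, for a pin and a value of the literal. -/
noncomputable def Rd (y : Q → Bool) (h : ι) (β : Bool) : MM Q :=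
  (S.col h).R S.r (pinFr (S.col h).row.U S.Ub y) β

/-- The product over the rows which are not designated. -/
noncomputable def Fv (y : Q → Bool) (v : ι → Bool) : MM Q :=
  (S.nl.map (fun g => g.mix (((pinFr g.U S.Ub y *
    (S.X.map (fun h => tauG S.r g (S.col h) (v h))).prod : ℝ) : ℂ) • (1 : MM Q)))).prod

/-- The factor of a designated row. -/
noncomputable def dsand (y : Q → Bool) (b : ι → Bool) (h : ι) : Sand Q :=
  ⟨{(S.col h).i}, (S.col h).row.S, (S.col h).row.G S.r S.Ub y, S.Rd y h (b h)⟩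

/-- The factor of a row which is not designated. -/
noncomputable def nsand (y : Q → Bool) (v : ι → Bool) (g : Row Q) : Sand Q :=
  ⟨g.U \ S.Ub, g.S, g.G S.r S.Ub y, g.mix (((pinFr g.U S.Ub y *
    (S.X.map (fun h => tauG S.r g (S.col h) (v h))).prod : ℝ) : ℂ) • (1 : MM Q))⟩

/-- The list of the factors. -/
noncomputable def sands (y : Q → Bool) (b v : ι → Bool) : List (Sand Q) :=
  S.X.map (S.dsand y b) ++ S.nl.map (S.nsand y v)

theorem mix_scalar_mem (g : Row Q) (c : ℂ) : g.mix (c • (1 : MM Q)) ∈ SpanOn g.S := by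
  unfold Row.mix
  refine Submodule.add_mem _ (mul_mem_spanOn g.E0_mem ?_) (mul_mem_spanOn g.E1_mem ?_)
  · exact Submodule.sub_mem _ (one_mem_spanOn _) (Submodule.smul_mem _ _ (one_mem_spanOn _))
  · exact Submodule.smul_mem _ _ (one_mem_spanOn _)

theorem Rd_mem (y : Q → Bool) {h : ι} (hh : h ∈ S.X) (β : Bool) : S.Rd y h β ∈ SpanOn (S.col h).row.S := by
  unfold Rd DCol.R
  split_ifs with hU
  · exact mix_scalar_mem _ _
  · have hiS : {(S.col h).i} ⊆ (S.col h).row.S := by
      rw [Finset.singleton_subset_iff]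
      rcases Finset.mem_union.mp (S.hir h hh) with h1 | h1
      · exact h1
      · exact absurd h1 hU
    exact mul_mem_spanOn (mul_mem_spanOn (kb_mem_spanOn hiS _ _) (mix_scalar_mem _ _))
      (kb_mem_spanOn hiS _ _)

theorem uni_sands (y : Q → Bool) (b v : ι → Bool) : uni (S.sands y b v) Sand.C = S.CX := by
  ext q
  simp only [mem_uni, sands, List.mem_append, List.mem_map]
  constructor
  · rintro ⟨a, ⟨h, hh, rfl⟩ | ⟨g, hg, rfl⟩, hq⟩
    · have : q = (S.col h).i := by simpa [dsand] using hq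
      rw [this]
      exact S.i_mem_CX hh
    · have hq' : q ∈ g.U \ S.Ub := hq
      rw [S.nl_U_sdiff hg] at hq'
      exact (Finset.mem_inter.mp hq').2
  · intro hq
    obtain ⟨h, hh, hqh⟩ := S.mem_CX.mp hq
    rcases (S.col h).mem_C.mp hqh with rfl | hqA
    · exact ⟨S.dsand y b h, Or.inl ⟨h, hh, rfl⟩, by simp [dsand]⟩
    · obtain ⟨g, hg, hqg⟩ := S.hcov h hh q hqA
      refine ⟨S.nsand y v g, Or.inr ⟨g, hg, rfl⟩, ?_⟩
      show q ∈ g.U \ S.Ub
      rw [S.nl_U_sdiff hg]
      exact Finset.mem_inter.mpr ⟨hqg, hq⟩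

theorem dsand_sub (y : Q → Bool) (b : ι → Bool) {h : ι} (hh : h ∈ S.X) :
    (S.dsand y b h).C ∪ (S.dsand y b h).E ⊆ (S.col h).row.sites := by
  intro q hq
  rcases Finset.mem_union.mp hq with h1 | h1
  · have : q = (S.col h).i := by simpa [dsand] using h1
    rw [this]
    exact S.hir h hh
  · exact Finset.mem_union_left _ h1

theorem nsand_sub (y : Q → Bool) (v : ι → Bool) (g : Row Q) :
    (S.nsand y v g).C ∪ (S.nsand y v g).E ⊆ g.sites := by
  intro q hq
  rcases Finset.mem_union.mp hq with h1 | h1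
  · exact Finset.mem_union_right _ (Finset.mem_sdiff.mp h1).1
  · exact Finset.mem_union_left _ h1

theorem sands_pairwise (y : Q → Bool) (b v : ι → Bool) :
    (S.sands y b v).Pairwise (fun a c => Disjoint (a.C ∪ a.E) (c.C ∪ c.E)) := by
  unfold sands
  rw [List.pairwise_append]
  refine ⟨?_, ?_, ?_⟩
  · rw [List.pairwise_map]
    have := S.hXr
    refine (List.pairwise_iff_forall_sublist.mpr ?_)
    intro a c hsub
    have hmem := List.Sublist.subset hsub
    have ha : a ∈ S.X := hmem (by simp)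
    have hc : c ∈ S.X := hmem (by simp)
    have hac := List.pairwise_iff_forall_sublist.mp this hsub
    exact Finset.disjoint_of_subset_left (S.dsand_sub y b ha)
      (Finset.disjoint_of_subset_right (S.dsand_sub y b hc) hac)
  · rw [List.pairwise_map]
    exact List.Pairwise.imp (fun {g g'} hgg => Finset.disjoint_of_subset_left (S.nsand_sub y v g)
      (Finset.disjoint_of_subset_right (S.nsand_sub y v g') hgg)) S.hnl
  · intro a ha c hc
    obtain ⟨h, hh, rfl⟩ := List.mem_map.mp ha
    obtain ⟨g, hg, rfl⟩ := List.mem_map.mp hc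
    exact Finset.disjoint_of_subset_left (S.dsand_sub y b hh)
      (Finset.disjoint_of_subset_right (S.nsand_sub y v g) (S.hXnl h hh g hg))

theorem G_eq (g : Row Q) (r : Q → Bool → ℂ) (Ub : Finset Q) (y : Q → Bool) :
    g.G r Ub y = g.mix (((pinFr g.U Ub y : ℝ) : ℂ) • kb (g.U \ Ub) r r) := by
  unfold Row.G Row.Dp
  rw [pinF_eq]

/-- The identity for a designated row. -/
theorem dsand_id (y : Q → Bool) (b v : ι → Bool) {h : ι} (hh : h ∈ S.X) :
    kb (S.dsand y b h).C eK (wAll S.col S.X b v) * (S.dsand y b h).G *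
      kb (S.dsand y b h).C (wAll S.col S.X b v) eK =
    kb (S.dsand y b h).C eK eK * (S.dsand y b h).T := by
  set w := wAll S.col S.X b v with hw
  have hwi : w (S.col h).i = (S.col h).lit (b h) := by
    rw [hw, wAll_val S.col b v S.hXC hh ((S.col h).mem_C.mpr (Or.inl rfl)), (S.col h).ket_i]
  show kb {(S.col h).i} eK w * (S.col h).row.G S.r S.Ub y * kb {(S.col h).i} w eK =
    kb {(S.col h).i} eK eK * S.Rd y h (b h)
  set g := (S.col h).row with hg
  by_cases hU : (S.col h).i ∈ g.U
  · have hset : g.U \ S.Ub = {(S.col h).i} := by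
      apply Finset.Subset.antisymm (S.des_U_sdiff hh)
      rw [Finset.singleton_subset_iff]
      exact Finset.mem_sdiff.mpr ⟨hU, S.not_mem_Ub_of_CX (S.i_mem_CX hh)⟩
    rw [G_eq, hset]
    have hwu : UnitOn {(S.col h).i} w := by
      intro q hq
      rw [Finset.mem_singleton.mp hq, hwi]
      exact (S.col h).lit_unit _
    rw [Row.sand_U g (Finset.singleton_subset_iff.mpr hU) S.r w _ hwu]
    unfold Rd DCol.R
    rw [if_pos hU, Finset.prod_singleton, hwi]
  · have hset : g.U \ S.Ub = ∅ := by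
      rw [Finset.eq_empty_iff_forall_notMem]
      intro q hq
      have hq2 := S.des_U_sdiff hh hq
      rw [Finset.mem_singleton] at hq2
      exact hU (hq2 ▸ (Finset.mem_sdiff.mp hq).1)
    rw [G_eq, hset, kb_empty]
    unfold Rd DCol.R
    rw [if_neg hU]
    have e1 : kb {(S.col h).i} eK w = kb {(S.col h).i} eK (fun _ => (S.col h).lit (b h)) :=
      kb_singleton_congr _ _ _ _ _ rfl hwi
    have e2 : kb {(S.col h).i} w eK = kb {(S.col h).i} (fun _ => (S.col h).lit (b h)) eK :=
      kb_singleton_congr _ _ _ _ _ hwi rfl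
    have h0 : kb {(S.col h).i} eK eK * kb {(S.col h).i} eK (fun _ => (S.col h).lit (b h)) =
        kb {(S.col h).i} eK (fun _ => (S.col h).lit (b h)) := by
      rw [kb_mul, Finset.prod_congr rfl (eK_unit _)]
      simp
    rw [e1, e2]
    simp only [← Matrix.mul_assoc, h0]
    rfl

/-- The identity for a row which is not designated. -/
theorem nsand_id (y : Q → Bool) (b v : ι → Bool) {g : Row Q} (hg : g ∈ S.nl) :
    kb (S.nsand y v g).C eK (wAll S.col S.X b v) * (S.nsand y v g).G *
      kb (S.nsand y v g).C (wAll S.col S.X b v) eK =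
    kb (S.nsand y v g).C eK eK * (S.nsand y v g).T := by
  set w := wAll S.col S.X b v with hw
  show kb (g.U \ S.Ub) eK w * g.G S.r S.Ub y * kb (g.U \ S.Ub) w eK =
    kb (g.U \ S.Ub) eK eK * g.mix (((pinFr g.U S.Ub y *
    (S.X.map (fun h => tauG S.r g (S.col h) (v h))).prod : ℝ) : ℂ) • (1 : MM Q))
  have hwu : UnitOn (g.U \ S.Ub) w := by
    intro q hq
    rw [S.nl_U_sdiff hg] at hq
    exact wAll_unit S.col b v S.hXC q (Finset.mem_inter.mp hq).2
  rw [G_eq, Row.sand_U g Finset.sdiff_subset S.r w _ hwu, S.nl_U_sdiff hg]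
  have := wAll_prod S.r S.col b v g S.hXC (fun h hh => S.i_not_nl hh hg)
  rw [show uni S.X (fun h => (S.col h).C) = S.CX from rfl] at this
  rw [← hw] at this
  rw [this]

theorem G_mem_d (y : Q → Bool) {h : ι} (hh : h ∈ S.X) :
    (S.col h).row.G S.r S.Ub y ∈ SpanOn ({(S.col h).i} ∪ (S.col h).row.S) := by
  refine spanOn_mono ?_ ((S.col h).row.G_mem S.r S.Ub y)
  intro q hq
  rcases Finset.mem_union.mp hq with h1 | h1
  · exact Finset.mem_union_right _ h1
  · exact Finset.mem_union_left _ (S.des_U_sdiff hh h1)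

/-- The base of the recursion. -/
theorem base_eq (y : Q → Bool) {K : MM Q} {T' : Finset Q} (hd : Disjoint T' S.CX)
    (hK : K ∈ SpanOn T') (b v : ι → Bool) :
    (((S.X.map (fun h => (S.col h).row.G S.r S.Ub y)).prod * (S.nl.map (fun g => g.G S.r S.Ub y)).prod) *
        (S.X.map (fun h => (S.col h).rho (b h) (v h))).prod * K).trace =
      ((S.X.map (fun h => S.Rd y h (b h))).prod * S.Fv y v * (K * kb S.CX eK eK)).trace := by
  set w := wAll S.col S.X b v with hw
  have hdone : (S.X.map (fun h => (S.col h).rho (b h) (v h))).prod = kb S.CX w w :=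
    done_eq S.col b v S.hXC
  rw [hdone, trace_kb_ket hd hK]
  have hGl : (S.X.map (fun h => (S.col h).row.G S.r S.Ub y)).prod *
      (S.nl.map (fun g => g.G S.r S.Ub y)).prod = ((S.sands y b v).map Sand.G).prod := by
    unfold sands
    rw [List.map_append, List.prod_append, List.map_map, List.map_map]
    rfl
  have hTl : (S.X.map (fun h => S.Rd y h (b h))).prod * S.Fv y v = ((S.sands y b v).map Sand.T).prod := by
    unfold sands Fv
    rw [List.map_append, List.prod_append, List.map_map, List.map_map]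
    rfl
  have hsand := sand_prod w (S.sands y b v) (S.sands_pairwise y b v)
    (by
      intro a ha
      rcases List.mem_append.mp ha with h1 | h1
      · obtain ⟨h, hh, rfl⟩ := List.mem_map.mp h1
        exact S.G_mem_d y hh
      · obtain ⟨g, hg, rfl⟩ := List.mem_map.mp h1
        exact spanOn_mono (by
          show g.S ∪ (g.U \ S.Ub) ⊆ (g.U \ S.Ub) ∪ g.S
          rw [Finset.union_comm]) (g.G_mem S.r S.Ub y))
    (by
      intro a ha
      rcases List.mem_append.mp ha with h1 | h1
      · obtain ⟨h, hh, rfl⟩ := List.mem_map.mp h1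
        exact S.Rd_mem y hh _
      · obtain ⟨g, hg, rfl⟩ := List.mem_map.mp h1
        exact mix_scalar_mem _ _)
    (by
      intro a ha
      rcases List.mem_append.mp ha with h1 | h1
      · obtain ⟨h, hh, rfl⟩ := List.mem_map.mp h1
        exact S.dsand_id y b v hh
      · obtain ⟨g, hg, rfl⟩ := List.mem_map.mp h1
        exact S.nsand_id y b v hg)
  rw [S.uni_sands y b v] at hsand
  rw [hGl, hsand, hTl]
  rw [Matrix.trace_mul_comm (kb S.CX eK eK * ((S.sands y b v).map Sand.T).prod) K]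
  rw [← Matrix.mul_assoc K, Matrix.trace_mul_comm (K * kb S.CX eK eK), ]

/-- The projector on the input of the aligned part of a column commutes with the rows. -/
theorem pi_comm_row (y : Q → Bool) {h : ι} (hh : h ∈ S.X) (g : Row Q)
    (hdS : Disjoint (S.col h).A g.S) :
    g.G S.r S.Ub y * kb (S.col h).A (S.col h).psi (S.col h).psi =
      kb (S.col h).A (S.col h).psi (S.col h).psi * g.G S.r S.Ub y := by
  set π := kb (S.col h).A (S.col h).psi (S.col h).psi with hπ
  symm
  unfold Row.G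
  refine g.mix_comm ?_ ?_ ?_
  · exact commute_spanOn hdS (kb_mem_spanOn (Finset.Subset.refl _) _ _) g.E0_mem
  · exact commute_spanOn hdS (kb_mem_spanOn (Finset.Subset.refl _) _ _) g.E1_mem
  · unfold Row.Dp
    rw [Matrix.mul_smul, Matrix.smul_mul]
    congr 1
    refine kb_comm_of_site (fun q hq _ => ?_)
    exact aligned_comm (S.hr q) (S.halign h hh q hq)

theorem A_disj_S {h : ι} (hh : h ∈ S.X) (a : ι) (ha : a ∈ S.X) :
    Disjoint (S.col h).A (S.col a).row.S := by
  by_cases hne : h = a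
  · subst hne
    exact Finset.disjoint_of_subset_right Finset.subset_union_left (S.hAr h hh)
  · exact Finset.disjoint_of_subset_left (Finset.subset_insert _ _)
      (Finset.disjoint_of_subset_right Finset.subset_union_left (S.hXo h hh a ha hne))

theorem pi_comm_all (y : Q → Bool) {h : ι} (hh : h ∈ S.X) :
    ((S.X.map (fun h => (S.col h).row.G S.r S.Ub y)).prod * (S.nl.map (fun g => g.G S.r S.Ub y)).prod) *
        kb (S.col h).A (S.col h).psi (S.col h).psi =
      kb (S.col h).A (S.col h).psi (S.col h).psi *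
        ((S.X.map (fun h => (S.col h).row.G S.r S.Ub y)).prod * (S.nl.map (fun g => g.G S.r S.Ub y)).prod) := by
  have h1 : (S.X.map (fun h => (S.col h).row.G S.r S.Ub y)).prod *
      kb (S.col h).A (S.col h).psi (S.col h).psi =
      kb (S.col h).A (S.col h).psi (S.col h).psi * (S.X.map (fun h => (S.col h).row.G S.r S.Ub y)).prod :=
    prod_commute_of (fun a ha => S.pi_comm_row y hh _ (S.A_disj_S hh a ha))
  have h2 : (S.nl.map (fun g => g.G S.r S.Ub y)).prod * kb (S.col h).A (S.col h).psi (S.col h).psi =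
      kb (S.col h).A (S.col h).psi (S.col h).psi * (S.nl.map (fun g => g.G S.r S.Ub y)).prod :=
    prod_commute_of (fun g hg => S.pi_comm_row y hh g
      (Finset.disjoint_of_subset_left (Finset.subset_insert _ _) (S.hnlS h hh g hg)))
  rw [Matrix.mul_assoc, h2, ← Matrix.mul_assoc, h1, Matrix.mul_assoc]

end DSys

/-- The square of the overlap through the one site projector. -/
theorem norm_ip_of_ketbra {a b : Bool → ℂ} (h : ketbra a a = ketbra b b) (x : Bool → ℂ) :
    ‖ip a x‖ = ‖ip b x‖ := by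
  have key : ∀ c : Bool → ℂ, ((‖ip c x‖ ^ 2 : ℝ) : ℂ) =
      ∑ i, ∑ j, star (x i) * ketbra c c i j * x j := by
    intro c
    rw [← ip_mul_ip_swap' c x]
    simp only [ip, ketbra, Fintype.sum_bool]
    ring
  have h1 := key a
  have h2 := key b
  rw [h] at h1
  rw [← h2] at h1
  have h3 : ‖ip a x‖ ^ 2 = ‖ip b x‖ ^ 2 := by exact_mod_cast h1
  exact (pow_left_inj₀ (norm_nonneg _) (norm_nonneg _) (by norm_num)).mp h3

/-- Bernoulli for a finite product. -/
theorem one_sub_sum_le_prod {α : Type*} [DecidableEq α] (B : Finset α) (t : α → ℝ) (h0 : ∀ q ∈ B, 0 ≤ t q)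
    (h1 : ∀ q ∈ B, t q ≤ 1) : 1 - ∑ q ∈ B, t q ≤ ∏ q ∈ B, (1 - t q) := by
  induction B using Finset.induction_on with
  | empty => simp
  | insert a B ha ih =>
    rw [Finset.sum_insert ha, Finset.prod_insert ha]
    have i1 := ih (fun q hq => h0 q (Finset.mem_insert_of_mem hq))
      (fun q hq => h1 q (Finset.mem_insert_of_mem hq))
    have i2 : 0 ≤ ∏ q ∈ B, (1 - t q) :=
      Finset.prod_nonneg (fun q hq => by linarith [h1 q (Finset.mem_insert_of_mem hq)])
    have i3 : ∏ q ∈ B, (1 - t q) ≤ 1 :=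
      Finset.prod_le_one (fun q hq => by linarith [h1 q (Finset.mem_insert_of_mem hq)])
        (fun q hq => by linarith [h0 q (Finset.mem_insert_of_mem hq)])
    have i4 := h0 a (Finset.mem_insert_self _ _)
    have i5 := h1 a (Finset.mem_insert_self _ _)
    nlinarith

/-- The defect of a site of a column. -/
noncomputable def DCol.t (h : DCol Q) (q : Q) : ℝ := 1 - ‖ip (h.s q) (h.psi q)‖ ^ 2

theorem DCol.t_nonneg (h : DCol Q) {q : Q} (hq : q ∈ h.A) : 0 ≤ h.t q := by
  unfold DCol.t
  linarith [norm_ip_sq_le_one (h.hs q hq) (h.hpsi q hq)]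

theorem DCol.t_le (h : DCol Q) (q : Q) : h.t q ≤ 1 := by
  unfold DCol.t
  nlinarith [sq_nonneg ‖ip (h.s q) (h.psi q)‖]

theorem DCol.a2_eq (h : DCol Q) : h.a2 = ∏ q ∈ h.A, (1 - h.t q) := by
  unfold DCol.a2 DCol.aT DCol.t
  rw [norm_prod, ← Finset.prod_pow]
  refine Finset.prod_congr rfl (fun q _ => ?_)
  ring

/-- A row against a column, aligned. -/
theorem tauG_diff {r : Q → Bool → ℂ} (hr : ∀ q, ip (r q) (r q) = 1) (g : Row Q) (h : DCol Q)
    (halign : ∀ q ∈ h.A, ketbra (h.psi q) (h.psi q) = ketbra (r q) (r q) ∨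
      ketbra (h.psi q) (h.psi q) = ketbra (perp (r q)) (perp (r q))) :
    |tauG r g h false - tauG r g h true| ≤ ∑ q ∈ h.A ∩ g.U, h.t q := by
  have hk0 : h.k false = h.psi := rfl
  have hk1 : h.k true = h.s := rfl
  unfold tauG
  rw [hk0, hk1]
  set B := h.A ∩ g.U with hB
  have hBA : ∀ q ∈ B, q ∈ h.A := fun q hq => (Finset.mem_inter.mp hq).1
  have ht0 : ∀ q ∈ B, 0 ≤ h.t q := fun q hq => h.t_nonneg (hBA q hq)
  have ht1 : ∀ q ∈ B, h.t q ≤ 1 := fun q _ => h.t_le q
  by_cases hall : ∀ q ∈ B, ketbra (h.psi q) (h.psi q) = ketbra (r q) (r q)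
  · have e0 : ∏ q ∈ B, ‖ip (r q) (h.psi q)‖ ^ 2 = 1 := by
      refine Finset.prod_eq_one (fun q hq => ?_)
      rw [← norm_ip_of_ketbra (hall q hq) (h.psi q), h.hpsi q (hBA q hq)]
      simp
    have e1 : ∏ q ∈ B, ‖ip (r q) (h.s q)‖ ^ 2 = ∏ q ∈ B, (1 - h.t q) := by
      refine Finset.prod_congr rfl (fun q hq => ?_)
      rw [← norm_ip_of_ketbra (hall q hq) (h.s q), norm_ip_swap]
      unfold DCol.t
      ring
    rw [e0, e1]
    have i1 := one_sub_sum_le_prod B h.t ht0 ht1
    have i2 : ∏ q ∈ B, (1 - h.t q) ≤ 1 :=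
      Finset.prod_le_one (fun q hq => by linarith [ht1 q hq]) (fun q hq => by linarith [ht0 q hq])
    rw [abs_le]
    have i3 : 0 ≤ ∑ q ∈ B, h.t q := Finset.sum_nonneg ht0
    constructor <;> linarith
  · push_neg at hall
    obtain ⟨q0, hq0, hne⟩ := hall
    have hperp : ketbra (h.psi q0) (h.psi q0) = ketbra (perp (r q0)) (perp (r q0)) := by
      rcases halign q0 (hBA q0 hq0) with h1 | h1
      · exact absurd h1 hne
      · exact h1
    have e0 : ∏ q ∈ B, ‖ip (r q) (h.psi q)‖ ^ 2 = 0 := by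
      refine Finset.prod_eq_zero hq0 ?_
      rw [norm_ip_swap, norm_ip_of_ketbra hperp (r q0), ip_perp_left]
      simp
    rw [e0]
    have hval : ‖ip (r q0) (h.s q0)‖ ^ 2 = h.t q0 := by
      have h1 := norm_sq_ip_add_perp (h.s q0) (hr q0)
      rw [h.hs q0 (hBA q0 hq0)] at h1
      have h2 : ‖ip (h.s q0) (perp (r q0))‖ = ‖ip (h.s q0) (h.psi q0)‖ := by
        rw [norm_ip_swap, ← norm_ip_of_ketbra hperp, norm_ip_swap]
      rw [h2] at h1
      rw [norm_ip_swap]
      unfold DCol.t
      simp at h1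
      linarith
    have hle : ∏ q ∈ B, ‖ip (r q) (h.s q)‖ ^ 2 ≤ h.t q0 := by
      rw [← Finset.mul_prod_erase B _ hq0, hval]
      have h3 : ∏ x ∈ B.erase q0, ‖ip (r x) (h.s x)‖ ^ 2 ≤ 1 :=
        Finset.prod_le_one (fun q _ => by positivity) (fun q hq =>
          norm_ip_sq_le_one (hr q) (h.hs q (hBA q (Finset.mem_of_mem_erase hq))))
      have h4 := ht0 q0 hq0
      nlinarith
    have hpos : 0 ≤ ∏ q ∈ B, ‖ip (r q) (h.s q)‖ ^ 2 := Finset.prod_nonneg (fun q _ => by positivity)
    rw [zero_sub, abs_neg, abs_of_nonneg hpos]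
    exact hle.trans (Finset.single_le_sum ht0 hq0)

/-- The weight of a column over a list of rows. -/
noncomputable def wList (r : Q → Bool → ℂ) (nl : List (Row Q)) (h : DCol Q) : ℝ :=
  (nl.map (fun g => |tauG r g h false - tauG r g h true|)).sum

theorem wList_nonneg (r : Q → Bool → ℂ) (nl : List (Row Q)) (h : DCol Q) : 0 ≤ wList r nl h := by
  unfold wList
  induction nl with
  | nil => simp
  | cons g nl ih =>
    simp only [List.map_cons, List.sum_cons]
    have := abs_nonneg (tauG r g h false - tauG r g h true)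
    linarith

theorem wList_le {r : Q → Bool → ℂ} (hr : ∀ q, ip (r q) (r q) = 1) (h : DCol Q)
    (halign : ∀ q ∈ h.A, ketbra (h.psi q) (h.psi q) = ketbra (r q) (r q) ∨
      ketbra (h.psi q) (h.psi q) = ketbra (perp (r q)) (perp (r q))) {nl : List (Row Q)}
    (hnl : nl.Pairwise (fun g g' => Disjoint g.sites g'.sites)) :
    wList r nl h ≤ ∑ q ∈ h.A ∩ uni nl Row.U, h.t q := by
  unfold wList
  induction nl with
  | nil => simp [uni]
  | cons g nl ih =>
    rw [List.pairwise_cons] at hnl
    simp only [List.map_cons, List.sum_cons]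
    rw [uni_cons, Finset.inter_union_distrib_left, Finset.sum_union]
    · exact add_le_add (tauG_diff hr g h halign) (ih hnl.2)
    · refine Finset.disjoint_of_subset_left Finset.inter_subset_right
        (Finset.disjoint_of_subset_right Finset.inter_subset_right ?_)
      refine disjoint_uni_right (fun a ha => ?_)
      exact Finset.disjoint_of_subset_left Finset.subset_union_right
        (Finset.disjoint_of_subset_right Finset.subset_union_right (hnl.1 a ha))

theorem a2_mul_w {r : Q → Bool → ℂ} (hr : ∀ q, ip (r q) (r q) = 1) (h : DCol Q)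
    (halign : ∀ q ∈ h.A, ketbra (h.psi q) (h.psi q) = ketbra (r q) (r q) ∨
      ketbra (h.psi q) (h.psi q) = ketbra (perp (r q)) (perp (r q))) {nl : List (Row Q)}
    (hnl : nl.Pairwise (fun g g' => Disjoint g.sites g'.sites)) :
    h.a2 * wList r nl h ≤ 0.368 := by
  have h1 := wList_le hr h halign hnl
  have h2 : ∑ q ∈ h.A ∩ uni nl Row.U, h.t q ≤ ∑ q ∈ h.A, h.t q :=
    Finset.sum_le_sum_of_subset_of_nonneg Finset.inter_subset_left
      (fun q hq _ => h.t_nonneg hq)
  have h3 := sum_mul_prod_le h.A h.t (fun q hq => h.t_nonneg hq) (fun q _ => h.t_le q)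
  rw [h.a2_eq]
  have h4 : 0 ≤ ∏ q ∈ h.A, (1 - h.t q) :=
    Finset.prod_nonneg (fun q _ => by linarith [h.t_le q])
  calc (∏ q ∈ h.A, (1 - h.t q)) * wList r nl h
      ≤ (∏ q ∈ h.A, (1 - h.t q)) * (∑ q ∈ h.A, h.t q) := by
        apply mul_le_mul_of_nonneg_left (h1.trans h2) h4
    _ = (∑ q ∈ h.A, h.t q) * ∏ q ∈ h.A, (1 - h.t q) := mul_comm _ _
    _ ≤ _ := h3

/-- The operators of the rows which are not designated have bounded differences. -/
theorem bd_rows {r : Q → Bool → ℂ} (hr : ∀ q, ip (r q) (r q) = 1) (col : ι → DCol Q) {X : List ι}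
    (hX : X.Nodup) (f : Row Q → ℝ) (hf : ∀ g, f g = 0 ∨ f g = 1) (nl : List (Row Q)) :
    Bd (fun h => wList r nl (col h)) X 1 (fun v => (nl.map (fun g => g.mix
      (((f g * (X.map (fun h => tauG r g (col h) (v h))).prod : ℝ) : ℂ) • (1 : MM Q)))).prod) := by
  induction nl with
  | nil =>
    simp only [List.map_nil, List.prod_nil]
    refine Bd.const (fun h => wList_nonneg _ _ _) ?_
    exact projector_norm_le (by simp) (by simp)
  | cons g nl ih =>
    simp only [List.map_cons, List.prod_cons]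
    have hf01 : 0 ≤ f g ∧ f g ≤ 1 := by
      rcases hf g with h | h <;> rw [h] <;> norm_num
    have h1 := bd_row (ι := ι) g (W := fun h => |tauG r g (col h) false - tauG r g (col h) true|)
      (τ := fun h ν => tauG r g (col h) ν) (fun h b => tauG_bounds hr g (col h) b) (fun h => rfl)
      hX hf01.1 hf01.2
    have h2 := Bd.mul h1 ih
    rw [mul_one] at h2
    have e : (fun h => wList r (g :: nl) (col h)) = (fun h => |tauG r g (col h) false - tauG r g (col h) true| +
        wList r nl (col h)) := by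
      funext h
      unfold wList
      simp
    rw [e]
    exact h2

namespace DSys

variable (S : DSys Q ι)

theorem list_prod_le_pow {α : Type*} (l : List α) (c : α → ℝ) {d : ℝ} (h0 : ∀ a ∈ l, 0 ≤ c a)
    (h1 : ∀ a ∈ l, c a ≤ d) : (l.map c).prod ≤ d ^ l.length := by
  induction l with
  | nil => simp
  | cons a l ih =>
    simp only [List.map_cons, List.prod_cons, List.length_cons, pow_succ']
    have h2 := ih (fun b hb => h0 b (by simp [hb])) (fun b hb => h1 b (by simp [hb]))
    have h3 : 0 ≤ (l.map c).prod := list_prod_nonneg (fun b hb => h0 b (by simp [hb]))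
    have h4 := h1 a (by simp)
    have h5 := h0 a (by simp)
    exact mul_le_mul h4 h2 h3 (h5.trans h4)

/-- The estimate for a fixed pin. -/
theorem thmD_fixed (y : Q → Bool) {K : MM Q} {T' : Finset Q} (hd : Disjoint T' S.CX)
    (hKm : K ∈ SpanOn T') (hKp : K.PosSemidef) :
    ‖(((S.X.map (fun h => (S.col h).row.G S.r S.Ub y)).prod * (S.nl.map (fun g => g.G S.r S.Ub y)).prod) *
        (S.X.map (fun h => (S.col h).tau)).prod * K).trace‖ ≤
      0.99 ^ S.X.length * (kb S.CX eK eK * K).trace.re := by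
  set Gall := (S.X.map (fun h => (S.col h).row.G S.r S.Ub y)).prod * (S.nl.map (fun g => g.G S.r S.Ub y)).prod
    with hGall
  set Z := K * kb S.CX eK eK with hZ
  have hKc : ∀ h ∈ S.X, K * kb (S.col h).A (S.col h).psi (S.col h).psi =
      kb (S.col h).A (S.col h).psi (S.col h).psi * K := by
    intro h hh
    refine commute_spanOn (T' := (S.col h).A) ?_ hKm (kb_mem_spanOn (Finset.Subset.refl _) _ _)
    refine Finset.disjoint_of_subset_right ?_ hd
    intro q hq
    exact S.mem_CX.mpr ⟨h, hh, Finset.mem_insert_of_mem hq⟩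
  have hrec := val_rec S.col Gall K Z (S.Rd y) (S.Fv y) S.X S.hnd (fun h hh => S.pi_comm_all y hh) S.hXC
    hKc (fun b v => S.base_eq y hd hKm b v) S.X [] rfl (fun _ => false) (fun _ => false)
  simp only [List.map_nil, List.prod_nil, Matrix.mul_one, Matrix.one_mul] at hrec
  rw [hrec]
  have hZp : Z.PosSemidef := psd_mul_of_commute hKp (kb_psd (eK_unit _))
    (commute_spanOn hd hKm (kb_mem_spanOn (Finset.Subset.refl _) _ _))
  refine (norm_trace_mul_le hZp).trans ?_
  have hZtr : Z.trace = (kb S.CX eK eK * K).trace := Matrix.trace_mul_comm _ _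
  rw [hZtr]
  have hZre : 0 ≤ (kb S.CX eK eK * K).trace.re := by
    rw [← hZtr]
    have := hZp.trace_nonneg
    exact (Complex.le_def.mp this).1
  refine mul_le_mul_of_nonneg_right ?_ hZre
  -- the norm
  set a2 : ι → ℝ := fun h => (S.col h).a2 with ha2
  set Rs : ι → MM Q := fun h => (1 / 2 : ℂ) • (S.Rd y h false + S.Rd y h true) with hRs
  set Dd : ι → MM Q := fun h => S.Rd y h false - S.Rd y h true with hDd
  have hb := bdOp_norm_le (W := fun h => wList S.r S.nl (S.col h))
    (R0 := fun h => (S.col h).R0 (S.Rd y h)) (R1 := fun h => (S.col h).R1 (S.Rd y h))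
    (X := fun h => ((-(2 * a2 h) : ℝ) : ℂ) • Rs h)
    (Y0 := fun h => ((1 / 2 - a2 h : ℝ) : ℂ) • Dd h)
    (Y1 := fun h => ((a2 h : ℝ) : ℂ) • Dd h)
    (by
      intro h
      simp only [DCol.R0, DCol.coef, hRs, hDd, ha2]
      push_cast
      module)
    (by
      intro h
      simp only [DCol.R1, DCol.coef, hRs, hDd, ha2]
      push_cast
      module)
    S.hnd
    (bd_rows S.hr S.col S.hnd (fun g => pinFr g.U S.Ub y) (fun g => pinFr_cases _ _ _) S.nl)
    (fun _ => false)
  refine hb.trans ?_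
  rw [one_mul]
  refine list_prod_le_pow _ _ (fun h _ => add_nonneg (add_nonneg
    (mul_nonneg (norm_nonneg _) (wList_nonneg _ _ _)) (norm_nonneg _)) (norm_nonneg _)) (fun h hh => ?_)
  obtain ⟨c, hc0, hc1, hc2, hc3⟩ := (S.col h).R_bound (S.hr (S.col h).i)
    (pinFr_cases (S.col h).row.U S.Ub y) (S.hir h hh)
  have ha0 : 0 ≤ a2 h := by simp only [ha2]; unfold DCol.a2; positivity
  have e1 : ‖((-(2 * a2 h) : ℝ) : ℂ) • Rs h‖ = (2 * a2 h) * ‖Rs h‖ := by
    rw [norm_smul, Complex.norm_real, Real.norm_eq_abs, abs_neg, abs_of_nonneg (by positivity)]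
  have e2 : ‖((1 / 2 - a2 h : ℝ) : ℂ) • Dd h‖ = |1 / 2 - a2 h| * ‖Dd h‖ := by
    rw [norm_smul, Complex.norm_real, Real.norm_eq_abs]
  have e3 : ‖((a2 h : ℝ) : ℂ) • Dd h‖ = a2 h * ‖Dd h‖ := by
    rw [norm_smul, Complex.norm_real, Real.norm_eq_abs, abs_of_nonneg ha0]
  simp only [e1, e2, e3]
  exact cost_bound ha0 (S.ha2 h hh) (wList_nonneg _ _ _)
    (a2_mul_w S.hr (S.col h) (S.halign h hh) S.hnl) hc0 hc1 (norm_nonneg _) hc2 (norm_nonneg _) hc3

/-- The sites of `S` parts avoid the pinned sites. -/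
theorem Ub_disj_row (g : Row Q) (hg : (∃ h ∈ S.X, g = (S.col h).row) ∨ g ∈ S.nl) :
    Disjoint (g.S ∪ (g.U \ S.Ub)) S.Ub := by
  rw [Finset.disjoint_left]
  intro q hq hqU
  rcases Finset.mem_union.mp hq with h1 | h1
  · -- a site of `S` lies in no `U`
    have hq2 := (Finset.mem_sdiff.mp hqU).1
    have hgs : q ∈ g.sites := Finset.mem_union_left _ h1
    rcases Finset.mem_union.mp hq2 with h2 | h2
    · obtain ⟨a, ha, hqa⟩ := mem_uni.mp h2
      rcases hg with ⟨h, hh, rfl⟩ | hg
      · by_cases hne : a = h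
        · subst hne
          exact Finset.disjoint_left.mp (S.col a).row.disj h1 hqa
        · have hpw := S.hXr
          have hd : Disjoint (S.col a).row.sites (S.col h).row.sites := by
            have hsym : ∀ x y : ι, Disjoint (S.col x).row.sites (S.col y).row.sites →
                Disjoint (S.col y).row.sites (S.col x).row.sites := fun x y hxy => hxy.symm
            rcases pairwise_or_eq (R := fun x y : ι => Disjoint (S.col x).row.sites (S.col y).row.sites) hsym hpw a ha h hh with e | e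
            · exact absurd e hne
            · exact e
          exact Finset.disjoint_left.mp hd (Finset.mem_union_right _ hqa) hgs
      · exact Finset.disjoint_left.mp (S.hXnl a ha g hg) (Finset.mem_union_right _ hqa) hgs
    · obtain ⟨a, ha, hqa⟩ := mem_uni.mp h2
      rcases hg with ⟨h, hh, rfl⟩ | hg
      · exact Finset.disjoint_left.mp (S.hXnl h hh a ha) hgs (Finset.mem_union_right _ hqa)
      · by_cases hne : a = g
        · subst hne
          exact Finset.disjoint_left.mp a.disj h1 hqa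
        · have hd : Disjoint a.sites g.sites := by
            have hsym : ∀ x y : Row Q, Disjoint x.sites y.sites → Disjoint y.sites x.sites :=
              fun x y hxy => hxy.symm
            rcases pairwise_or_eq (R := fun x y : Row Q => Disjoint x.sites y.sites) hsym S.hnl a ha g hg with e | e
            · exact absurd e hne
            · exact e
          exact Finset.disjoint_left.mp hd (Finset.mem_union_right _ hqa) hgs
  · exact (Finset.mem_sdiff.mp h1).2 hqU

/-- The second main estimate. -/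
theorem thmD {K : MM Q} {TK : Finset Q} (hKm : K ∈ SpanOn TK) (hKp : K.PosSemidef)
    (hTK : Disjoint TK S.CX) :
    ‖((S.X.map (fun h => (S.col h).row.W S.r)).prod * (S.nl.map (fun g => g.W S.r)).prod *
        (S.X.map (fun h => (S.col h).tau)).prod * K).trace‖ ≤
      0.99 ^ S.X.length * ((S.X.map (fun h => kb (S.col h).C eK eK)).prod * K).trace.re := by
  set Ub := S.Ub with hUb
  set A := (S.X.map (fun h => (S.col h).row.W S.r)).prod with hA
  set B := (S.nl.map (fun g => g.W S.r)).prod with hB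
  set Tt := (S.X.map (fun h => (S.col h).tau)).prod with hTt
  have hrU : UnitOn Ub S.r := fun q _ => S.hr q
  have hCprod : (S.X.map (fun h => kb (S.col h).C eK eK)).prod = (kb S.CX eK eK : MM Q) :=
    prod_kb_union eK S.hXC
  rw [hCprod]
  have h1 : (A * B * Tt * K).trace =
      WS Ub (fun y => (A * B * kb Ub (pinKet S.r y) (pinKet S.r y) * Tt * K).trace) := by
    rw [← trace_WS]
    congr 1
    have h2 := WS_kb_pin hrU
    calc A * B * Tt * K = (A * B) * (WS Ub (fun y => kb Ub (pinKet S.r y) (pinKet S.r y))) * Tt * K := by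
          rw [h2, Matrix.mul_one]
      _ = _ := by rw [WS_mul_left, WS_mul_right, WS_mul_right]
  rw [h1]
  have hUbCX : Disjoint Ub S.CX := Finset.sdiff_disjoint
  have hTtm : Tt ∈ SpanOn S.CX := prod_mem_spanOn (fun h hh =>
    spanOn_mono (fun q hq => S.mem_CX.mpr ⟨h, hh, hq⟩) (S.col h).tau_mem)
  have hpt : ∀ y, ‖(A * B * kb Ub (pinKet S.r y) (pinKet S.r y) * Tt * K).trace‖ ≤
      0.99 ^ S.X.length * (kb S.CX eK eK * (kb Ub (pinKet S.r y) (pinKet S.r y) * K)).trace.re := by
    intro y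
    set Py := kb Ub (pinKet S.r y) (pinKet S.r y) with hPy
    set Gd := (S.X.map (fun h => (S.col h).row.G S.r S.Ub y)).prod with hGd
    set Gn := (S.nl.map (fun g => g.G S.r S.Ub y)).prod with hGn
    have hPy2 : Py * Py = Py := kb_idem (pinKet_unit hrU y)
    have hPym : Py ∈ SpanOn Ub := kb_mem_spanOn (Finset.Subset.refl _) _ _
    have hPyh : Pyᴴ = Py := kb_hermitian _ _
    have hPyC : ∀ {T : Finset Q} {Y : MM Q}, Disjoint T Ub → Y ∈ SpanOn T → Y * Py = Py * Y := by
      intro T Y hd hY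
      exact commute_spanOn hd hY hPym
    have hAP : A * Py = Gd * Py := by
      refine prod_mul_of_pin (l := S.X) (W := fun h => (S.col h).row.W S.r)
        (G := fun h => (S.col h).row.G S.r S.Ub y) (fun h _ => (S.col h).row.W_pin S.hr Ub y) (fun h hh => ?_)
      exact hPyC (S.Ub_disj_row _ (Or.inl ⟨h, hh, rfl⟩)) ((S.col h).row.G_mem S.r S.Ub y)
    have hBP : B * Py = Gn * Py := by
      refine prod_mul_of_pin (fun g _ => g.W_pin S.hr Ub y) (fun g hg => ?_)
      exact hPyC (S.Ub_disj_row _ (Or.inr hg)) (g.G_mem S.r S.Ub y)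
    have hGnP : Gn * Py = Py * Gn :=
      prod_commute_of (fun g hg => hPyC (S.Ub_disj_row _ (Or.inr hg)) (g.G_mem S.r S.Ub y))
    have hGdP : Gd * Py = Py * Gd :=
      prod_commute_of (fun h hh => hPyC (S.Ub_disj_row _ (Or.inl ⟨h, hh, rfl⟩)) ((S.col h).row.G_mem S.r S.Ub y))
    have hTtP : Tt * Py = Py * Tt := hPyC hUbCX.symm hTtm
    have e1 : A * B * Py = (Gd * Gn) * Py := by
      calc A * B * Py = A * (B * Py) := Matrix.mul_assoc _ _ _
        _ = A * (Py * Gn) := by rw [hBP, hGnP]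
        _ = (A * Py) * Gn := (Matrix.mul_assoc _ _ _).symm
        _ = Gd * (Py * Gn) := by rw [hAP, Matrix.mul_assoc]
        _ = Gd * Gn * Py := by rw [← hGnP, Matrix.mul_assoc]
    set Ky := Py * K * Py with hKy
    have hKyp : Ky.PosSemidef := by
      have := hKp.conjTranspose_mul_mul_same Py
      rwa [hPyh] at this
    have hKym : Ky ∈ SpanOn (Ub ∪ TK) :=
      mul_mem_spanOn (mul_mem_spanOn (spanOn_mono Finset.subset_union_left hPym)
        (spanOn_mono Finset.subset_union_right hKm)) (spanOn_mono Finset.subset_union_left hPym)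
    have hd' : Disjoint (Ub ∪ TK) S.CX := by
      rw [Finset.disjoint_union_left]
      exact ⟨hUbCX, hTK⟩
    have hfix := S.thmD_fixed y hd' hKym hKyp
    have e2 : (A * B * Py * Tt * K).trace = ((Gd * Gn) * Tt * Ky).trace := by
      rw [e1]
      have hcomm : (Gd * Gn) * Tt * Py = Py * ((Gd * Gn) * Tt) := by
        rw [Matrix.mul_assoc, hTtP, ← Matrix.mul_assoc, Matrix.mul_assoc Gd, hGnP, ← Matrix.mul_assoc, hGdP]
        simp only [Matrix.mul_assoc]
      calc ((Gd * Gn) * Py * Tt * K).trace = ((Gd * Gn) * (Py * Tt) * K).trace := by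
            simp only [Matrix.mul_assoc]
        _ = ((Gd * Gn) * Tt * (Py * Py) * K).trace := by
            rw [← hTtP, hPy2]
            simp only [Matrix.mul_assoc]
        _ = (((Gd * Gn) * Tt * Py) * (Py * K)).trace := by simp only [Matrix.mul_assoc]
        _ = ((Py * ((Gd * Gn) * Tt)) * (Py * K)).trace := by rw [hcomm]
        _ = (((Gd * Gn) * Tt) * (Py * K * Py)).trace := by
            rw [Matrix.mul_assoc Py, Matrix.trace_mul_comm Py]
            simp only [Matrix.mul_assoc]
    rw [e2]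
    refine hfix.trans ?_
    have e3 : (kb S.CX eK eK * Ky).trace = (kb S.CX eK eK * (Py * K)).trace := by
      have hιP : kb S.CX eK eK * Py = Py * kb S.CX eK eK :=
        commute_spanOn hUbCX.symm (kb_mem_spanOn (Finset.Subset.refl _) _ _) hPym
      calc (kb S.CX eK eK * (Py * K * Py)).trace = ((kb S.CX eK eK * (Py * K)) * Py).trace := by
            simp only [Matrix.mul_assoc]
        _ = (Py * (kb S.CX eK eK * (Py * K))).trace := Matrix.trace_mul_comm _ _
        _ = ((Py * kb S.CX eK eK) * (Py * K)).trace := by simp only [Matrix.mul_assoc]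
        _ = (kb S.CX eK eK * (Py * (Py * K))).trace := by rw [← hιP]; simp only [Matrix.mul_assoc]
        _ = _ := by rw [← Matrix.mul_assoc Py, hPy2]
    rw [e3]
  have hfinal := norm_WS_le Ub (fun y => (A * B * kb Ub (pinKet S.r y) (pinKet S.r y) * Tt * K).trace)
  refine hfinal.trans ((WS_real_le Ub hpt).trans (le_of_eq ?_))
  -- the sum over the pins
  have hW : WS Ub (fun y => 0.99 ^ S.X.length * (kb S.CX eK eK * (kb Ub (pinKet S.r y) (pinKet S.r y) * K)).trace.re) =
      0.99 ^ S.X.length * WS Ub (fun y => (kb S.CX eK eK * (kb Ub (pinKet S.r y) (pinKet S.r y) * K)).trace.re) := by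
    unfold WS
    rw [smul_eq_mul, smul_eq_mul, ← Finset.mul_sum]
    ring
  rw [hW, ← re_WS, ← trace_WS, ← WS_mul_left, ← WS_mul_right, WS_kb_pin hrU, Matrix.one_mul]

end DSys

end DSys

end Vale.Agent.Lib.P368

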