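import Vale.Agent.Lib.P368.D3.PartA

/-!
Near-perfect distinguishing of a product state and its reflection: the structure of the sites.
-/

set_option linter.unusedSectionVars false
set_option linter.unusedSimpArgs false
set_option linter.unusedVariables false

namespace Vale.Agent.Lib.P368

open Matrix
open scoped Matrix.Norms.L2Operator ComplexConjugate ComplexOrder

section NPsite

/-- The elementary inequality on one site. -/
theorem site_ineq {A B G D L : ℝ} (hA : 0 ≤ A) (hB : 0 ≤ B) (hG : 0 ≤ G) (hD : 0 ≤ D) (hBA : B ≤ A)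
    (h1 : A ^ 4 + B ^ 4 = 1) (h2 : G ^ 4 + D ^ 4 = 1) (hL : L = A ^ 2 * G ^ 2 + B ^ 2 * D ^ 2)
    (hL0 : 0 < L) :
    min (B ^ 4) (1 - L ^ 2) ≤ 11 * (1 - (A ^ 3 * G + B ^ 3 * D) ^ 2 / L) := by
  have e1 : 1 - L ^ 2 = (A * D - B * G) ^ 2 * (A * D + B * G) ^ 2 := by
    rw [hL]
    have : (1 : ℝ) = (A ^ 4 + B ^ 4) * (G ^ 4 + D ^ 4) := by rw [h1, h2]; norm_num
    rw [this]
    ring
  have hL1 : L ≤ 1 := by
    have h3 : 0 ≤ 1 - L ^ 2 := by
      rw [e1]
      positivity
    nlinarith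
  have e2 : 1 - (A ^ 3 * G + B ^ 3 * D) ^ 2 / L = A ^ 2 * B ^ 2 * (A * D - B * G) ^ 2 / L := by
    have hne : L ≠ 0 := hL0.ne'
    field_simp
    have : L = (A ^ 4 + B ^ 4) * (A ^ 2 * G ^ 2 + B ^ 2 * D ^ 2) := by rw [h1, one_mul, hL]
    rw [this]
    ring
  have e3 : A ^ 2 * B ^ 2 * (A * D - B * G) ^ 2 ≤ 1 - (A ^ 3 * G + B ^ 3 * D) ^ 2 / L := by
    rw [e2]
    rw [le_div_iff₀ hL0]
    have : 0 ≤ A ^ 2 * B ^ 2 * (A * D - B * G) ^ 2 := by positivity
    nlinarith
  by_cases hc : (A * D + B * G) ^ 2 ≤ 11 * (A ^ 2 * B ^ 2)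
  · refine (min_le_right _ _).trans ?_
    rw [e1]
    have h4 : 0 ≤ (A * D - B * G) ^ 2 := by positivity
    calc (A * D - B * G) ^ 2 * (A * D + B * G) ^ 2 ≤ (A * D - B * G) ^ 2 * (11 * (A ^ 2 * B ^ 2)) := by
          gcongr
      _ = 11 * (A ^ 2 * B ^ 2 * (A * D - B * G) ^ 2) := by ring
      _ ≤ _ := by linarith
  · refine (min_le_left _ _).trans ?_
    push_neg at hc
    -- bounds on `A` and `G`
    have hA4 : 1 / 2 ≤ A ^ 4 := by
      have : B ^ 4 ≤ A ^ 4 := pow_le_pow_left₀ hB hBA 4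
      linarith
    have hG1 : G ≤ 1 := by
      by_contra hcon
      push_neg at hcon
      have : 1 < G ^ 4 := one_lt_pow₀ hcon (by norm_num)
      have : 0 ≤ D ^ 4 := by positivity
      linarith
    have hA84 : 0.84 ≤ A := by
      by_contra hcon
      push_neg at hcon
      have : A ^ 4 < 0.84 ^ 4 := pow_lt_pow_left₀ hcon hA (by norm_num)
      norm_num at this
      linarith
    -- the square root of 11
    have hAB0 : 0 ≤ A * B := mul_nonneg hA hB
    have hs : 3.3 * (A * B) ≤ A * D + B * G := by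
      have h5 : 0 ≤ A * D + B * G := by positivity
      by_contra hcon
      push_neg at hcon
      have : (A * D + B * G) ^ 2 ≤ (3.3 * (A * B)) ^ 2 := pow_le_pow_left₀ h5 hcon.le 2
      nlinarith [mul_nonneg hAB0 hAB0, sq_nonneg (A * B)]
    have hd : 0.9 * (A * B) ≤ A * D - B * G := by
      have h6 : B * G ≤ B := by nlinarith
      have h7 : B ≤ 1.2 * (A * B) := by nlinarith
      nlinarith
    have hd2 : (0.9 * (A * B)) ^ 2 ≤ (A * D - B * G) ^ 2 :=
      pow_le_pow_left₀ (by positivity) hd 2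
    have h8 : A ^ 2 * B ^ 2 * (0.9 * (A * B)) ^ 2 ≤ A ^ 2 * B ^ 2 * (A * D - B * G) ^ 2 := by
      gcongr
    have h9 : A ^ 2 * B ^ 2 * (0.9 * (A * B)) ^ 2 = 0.81 * (A ^ 4 * B ^ 4) := by ring
    have hB4 : 0 ≤ B ^ 4 := by positivity
    have h10 : 0.5 * B ^ 4 ≤ A ^ 4 * B ^ 4 := by nlinarith
    nlinarith

theorem prod_one_sub_le_inv {α : Type*} [DecidableEq α] (B : Finset α) (t : α → ℝ) (h0 : ∀ q ∈ B, 0 ≤ t q)
    (h1 : ∀ q ∈ B, t q ≤ 1) : (∏ q ∈ B, (1 - t q)) * (1 + ∑ q ∈ B, t q) ≤ 1 := by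
  induction B using Finset.induction_on with
  | empty => simp
  | insert a B ha ih =>
    rw [Finset.sum_insert ha, Finset.prod_insert ha]
    have i1 := ih (fun q hq => h0 q (Finset.mem_insert_of_mem hq))
      (fun q hq => h1 q (Finset.mem_insert_of_mem hq))
    have i2 : 0 ≤ ∏ q ∈ B, (1 - t q) :=
      Finset.prod_nonneg (fun q hq => by linarith [h1 q (Finset.mem_insert_of_mem hq)])
    have i3 : 0 ≤ ∑ q ∈ B, t q := Finset.sum_nonneg (fun q hq => h0 q (Finset.mem_insert_of_mem hq))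
    have i4 := h0 a (Finset.mem_insert_self _ _)
    have i5 := h1 a (Finset.mem_insert_self _ _)
    have i6 : (1 - t a) * (1 + (t a + ∑ q ∈ B, t q)) ≤ 1 + ∑ q ∈ B, t q := by
      nlinarith [mul_nonneg i4 i3, mul_nonneg i4 i4]
    calc (1 - t a) * (∏ q ∈ B, (1 - t q)) * (1 + (t a + ∑ q ∈ B, t q))
        = (∏ q ∈ B, (1 - t q)) * ((1 - t a) * (1 + (t a + ∑ q ∈ B, t q))) := by ring
      _ ≤ (∏ q ∈ B, (1 - t q)) * (1 + ∑ q ∈ B, t q) := by gcongr
      _ ≤ 1 := i1

/-- If a product of numbers in `[0,1]` is close to one, the sum of the defects is small. -/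
theorem sum_defect_le {α : Type*} [DecidableEq α] (B : Finset α) (u : α → ℝ) (h0 : ∀ q ∈ B, 0 ≤ u q)
    (h1 : ∀ q ∈ B, u q ≤ 1) {e : ℝ} (he0 : 0 ≤ e) (he : e ≤ 1 / 2) (hp : 1 - e ≤ ∏ q ∈ B, u q) :
    ∑ q ∈ B, (1 - u q) ≤ 2 * e := by
  have h := prod_one_sub_le_inv B (fun q => 1 - u q) (fun q hq => by linarith [h1 q hq])
    (fun q hq => by linarith [h0 q hq])
  simp only [sub_sub_cancel] at h
  have h2 : 0 ≤ ∑ q ∈ B, (1 - u q) := Finset.sum_nonneg (fun q hq => by linarith [h1 q hq])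
  have h3 : (1 - e) * (1 + ∑ q ∈ B, (1 - u q)) ≤ 1 := by
    refine le_trans ?_ h
    gcongr
  nlinarith

end NPsite

section NP

variable {Q : Type*} [Fintype Q] [DecidableEq Q]

theorem sum_prod_T {R : Type*} [CommSemiring R] (T : Finset Q) (f : Q → Bool → R) :
    ∑ y : Q → Bool, ∏ q ∈ T, f q (y q) = (∏ q ∈ T, (f q false + f q true)) * 2 ^ (Tᶜ).card := by
  let g : Q → Bool → R := fun q b => if q ∈ T then f q b else 1
  have h1 : ∀ y : Q → Bool, ∏ q ∈ T, f q (y q) = ∏ q, g q (y q) := by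
    intro y
    simp only [g]
    rw [Finset.prod_ite_mem]
    simp
  have h2 := Finset.prod_univ_sum (fun _ : Q => (Finset.univ : Finset Bool)) (fun q b => g q b)
  rw [Fintype.piFinset_univ] at h2
  rw [Finset.sum_congr rfl (fun y _ => h1 y), ← h2]
  have h3 : ∀ q, ∑ b ∈ (Finset.univ : Finset Bool), g q b = if q ∈ T then f q false + f q true else 2 := by
    intro q
    by_cases hq : q ∈ T
    · simp [g, hq, Fintype.sum_bool, add_comm]
    · simp only [g, hq, if_false, Fintype.sum_bool]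
      norm_num
  rw [Finset.prod_congr rfl (fun q _ => h3 q)]
  rw [Finset.prod_ite]
  simp only [Finset.prod_const]
  have e1 : (Finset.univ.filter (fun x => x ∈ T)) = T := by ext q; simp
  have e2 : (Finset.univ.filter (fun x => x ∉ T)) = Tᶜ := by ext q; simp
  rw [e1, e2]

theorem WS_prod_real (T : Finset Q) (f : Q → Bool → ℝ) :
    WS T (fun y => ∏ q ∈ T, f q (y q)) = ∏ q ∈ T, (f q false + f q true) := by
  unfold WS
  rw [sum_prod_T, smul_eq_mul]
  have : ((2 : ℝ) ^ (Tᶜ).card) ≠ 0 := by positivity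
  field_simp

theorem WS_prod_complex (T : Finset Q) (f : Q → Bool → ℂ) :
    WS T (fun y => ∏ q ∈ T, f q (y q)) = ∏ q ∈ T, (f q false + f q true) := by
  unfold WS
  rw [sum_prod_T, Complex.real_smul]
  have : ((2 : ℂ) ^ (Tᶜ).card) ≠ 0 := by positivity
  push_cast
  field_simp

/-- The product basis on a site. -/
def wb (r : Q → Bool → ℂ) (q : Q) (b : Bool) : Bool → ℂ := if b then r q else perp (r q)

theorem pinKet_eq (r : Q → Bool → ℂ) (y : Q → Bool) (q : Q) : pinKet r y q = wb r q (y q) := rfl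

/-- Completeness of the basis. -/
theorem wb_complete (r : Q → Bool → ℂ) (q : Q) (hr : ip (r q) (r q) = 1) (u v : Bool → ℂ) :
    ip u (wb r q false) * ip (wb r q false) v + ip u (wb r q true) * ip (wb r q true) v = ip u v := by
  have hk := ketbra_add_perp hr
  have e : ∀ i j, r q i * star (r q j) + perp (r q) i * star (perp (r q) j) =
      (1 : Matrix Bool Bool ℂ) i j := by
    intro i j
    have := congrFun (congrFun hk i) j
    simpa [Matrix.add_apply, ketbra] using this
  have eff := e false false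
  have eft := e false true
  have etf := e true false
  have ett := e true true
  simp only [Matrix.one_apply, if_true, Bool.false_eq_true, Bool.true_eq_false, if_false] at eff eft etf ett
  simp only [wb, if_true, Bool.false_eq_true, if_false]
  simp only [ip, Fintype.sum_bool]
  linear_combination (star (u true) * v true) * ett + (star (u true) * v false) * etf +
      (star (u false) * v true) * eft + (star (u false) * v false) * eff

/-- The absolute amplitude of a ket on the basis. -/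
noncomputable def al (r u : Q → Bool → ℂ) (q : Q) (b : Bool) : ℝ := ‖ip (wb r q b) (u q)‖

theorem al_nonneg (r u : Q → Bool → ℂ) (q : Q) (b : Bool) : 0 ≤ al r u q b := norm_nonneg _

theorem al_sum (r u : Q → Bool → ℂ) (q : Q) (hr : ip (r q) (r q) = 1) (hu : ip (u q) (u q) = 1) :
    al r u q false ^ 2 + al r u q true ^ 2 = 1 := by
  have h := wb_complete r q hr (u q) (u q)
  rw [hu, ← ip_conj (wb r q false), ← ip_conj (wb r q true)] at h
  simp only [Complex.star_def, Complex.conj_mul'] at h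
  have h2 : ((‖ip (wb r q false) (u q)‖ ^ 2 + ‖ip (wb r q true) (u q)‖ ^ 2 : ℝ) : ℂ) = 1 := by
    push_cast
    exact h
  have h3 : ‖ip (wb r q false) (u q)‖ ^ 2 + ‖ip (wb r q true) (u q)‖ ^ 2 = 1 := by exact_mod_cast h2
  exact h3

/-- Amplitudes of a product ket on a pattern. -/
theorem norm_prodIp_pin (T : Finset Q) (r u : Q → Bool → ℂ) (y : Q → Bool) :
    ‖prodIp T (pinKet r y) u‖ = ∏ q ∈ T, al r u q (y q) := by
  unfold prodIp al
  rw [norm_prod]
  rfl

theorem WS_norm_sq (T : Finset Q) {r u : Q → Bool → ℂ} (hr : ∀ q, ip (r q) (r q) = 1)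
    (hu : UnitOn T u) : WS T (fun y => ‖prodIp T (pinKet r y) u‖ ^ 2) = 1 := by
  have h1 : ∀ y : Q → Bool, ‖prodIp T (pinKet r y) u‖ ^ 2 = ∏ q ∈ T, (al r u q (y q)) ^ 2 := by
    intro y
    rw [norm_prodIp_pin, Finset.prod_pow]
  simp only [h1]
  rw [WS_prod_real T (fun q b => al r u q b ^ 2)]
  exact Finset.prod_eq_one (fun q hq => al_sum r u q (hr q) (hu q hq))

theorem WS_cross (T : Finset Q) {r : Q → Bool → ℂ} (hr : ∀ q, ip (r q) (r q) = 1)
    (u v : Q → Bool → ℂ) :
    WS T (fun y => star (prodIp T (pinKet r y) u) * prodIp T (pinKet r y) v) = prodIp T u v := by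
  have h1 : ∀ y : Q → Bool, star (prodIp T (pinKet r y) u) * prodIp T (pinKet r y) v =
      ∏ q ∈ T, (ip (u q) (wb r q (y q)) * ip (wb r q (y q)) (v q)) := by
    intro y
    rw [star_prodIp, Finset.prod_mul_distrib]
    rfl
  simp only [h1]
  rw [WS_prod_complex T (fun q b => ip (u q) (wb r q b) * ip (wb r q b) (v q))]
  exact Finset.prod_congr rfl (fun q _ => wb_complete r q (hr q) _ _)


theorem abs_WS_le (T : Finset Q) (F : (Q → Bool) → ℝ) : |WS T F| ≤ WS T (fun y => |F y|) := by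
  unfold WS
  rw [smul_eq_mul, smul_eq_mul, abs_mul, abs_of_nonneg (by positivity)]
  gcongr
  exact Finset.abs_sum_le_sum_abs _ _

theorem WS_real_mul_left (T : Finset Q) (c : ℝ) (F : (Q → Bool) → ℝ) :
    WS T (fun y => c * F y) = c * WS T F := by
  unfold WS
  rw [smul_eq_mul, smul_eq_mul, ← Finset.mul_sum]
  ring

/-- The site inequality in terms of the absolute amplitudes. -/
theorem np_site {a0 a1 g0 g1 L : ℝ} (ha0 : 0 ≤ a0) (ha1 : 0 ≤ a1) (hg0 : 0 ≤ g0) (hg1 : 0 ≤ g1)
    (h1 : a0 ^ 2 + a1 ^ 2 = 1) (h2 : g0 ^ 2 + g1 ^ 2 = 1) (hL : L = a0 * g0 + a1 * g1) (hL0 : 0 < L) :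
    min (min (a0 ^ 2) (a1 ^ 2)) (1 - L ^ 2) ≤
      11 * (1 - ((Real.sqrt a0) ^ 3 * Real.sqrt g0 + (Real.sqrt a1) ^ 3 * Real.sqrt g1) ^ 2 / L) := by
  have s0 := Real.sq_sqrt ha0
  have s1 := Real.sq_sqrt ha1
  have t0 := Real.sq_sqrt hg0
  have t1 := Real.sq_sqrt hg1
  have p0 : Real.sqrt a0 ^ 4 = a0 ^ 2 := by
    calc Real.sqrt a0 ^ 4 = (Real.sqrt a0 ^ 2) ^ 2 := by ring
      _ = a0 ^ 2 := by rw [s0]
  have p1 : Real.sqrt a1 ^ 4 = a1 ^ 2 := by
    calc Real.sqrt a1 ^ 4 = (Real.sqrt a1 ^ 2) ^ 2 := by ring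
      _ = a1 ^ 2 := by rw [s1]
  have q0 : Real.sqrt g0 ^ 4 = g0 ^ 2 := by
    calc Real.sqrt g0 ^ 4 = (Real.sqrt g0 ^ 2) ^ 2 := by ring
      _ = g0 ^ 2 := by rw [t0]
  have q1 : Real.sqrt g1 ^ 4 = g1 ^ 2 := by
    calc Real.sqrt g1 ^ 4 = (Real.sqrt g1 ^ 2) ^ 2 := by ring
      _ = g1 ^ 2 := by rw [t1]
  rcases le_total a0 a1 with hle | hle
  · have h := site_ineq (A := Real.sqrt a1) (B := Real.sqrt a0) (G := Real.sqrt g1) (D := Real.sqrt g0)
      (L := L) (Real.sqrt_nonneg _) (Real.sqrt_nonneg _) (Real.sqrt_nonneg _) (Real.sqrt_nonneg _)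
      (Real.sqrt_le_sqrt hle) (by rw [p1, p0]; linarith) (by rw [q1, q0]; linarith)
      (by rw [s1, t1, s0, t0, hL]; ring) hL0
    rw [p0] at h
    have e : min (a0 ^ 2) (a1 ^ 2) = a0 ^ 2 := min_eq_left (pow_le_pow_left₀ ha0 hle 2)
    rw [e]
    have e2 : Real.sqrt a0 ^ 3 * Real.sqrt g0 + Real.sqrt a1 ^ 3 * Real.sqrt g1 =
        Real.sqrt a1 ^ 3 * Real.sqrt g1 + Real.sqrt a0 ^ 3 * Real.sqrt g0 := add_comm _ _
    rw [e2]
    exact h
  · have h := site_ineq (A := Real.sqrt a0) (B := Real.sqrt a1) (G := Real.sqrt g0) (D := Real.sqrt g1)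
      (L := L) (Real.sqrt_nonneg _) (Real.sqrt_nonneg _) (Real.sqrt_nonneg _) (Real.sqrt_nonneg _)
      (Real.sqrt_le_sqrt hle) (by rw [p1, p0]; linarith) (by rw [q1, q0]; linarith)
      (by rw [s1, t1, s0, t0, hL]) hL0
    rw [p1] at h
    have e : min (a0 ^ 2) (a1 ^ 2) = a1 ^ 2 := min_eq_right (pow_le_pow_left₀ ha1 hle 2)
    rw [e]
    exact h

/-- Cauchy-Schwarz for the amplitudes. -/
theorem np_cs {a0 a1 g0 g1 L : ℝ} (ha0 : 0 ≤ a0) (ha1 : 0 ≤ a1) (hg0 : 0 ≤ g0) (hg1 : 0 ≤ g1)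
    (h1 : a0 ^ 2 + a1 ^ 2 = 1) (hL : L = a0 * g0 + a1 * g1) :
    ((Real.sqrt a0) ^ 3 * Real.sqrt g0 + (Real.sqrt a1) ^ 3 * Real.sqrt g1) ^ 2 ≤ L := by
  have s0 := Real.sq_sqrt ha0
  have s1 := Real.sq_sqrt ha1
  have t0 := Real.sq_sqrt hg0
  have t1 := Real.sq_sqrt hg1
  set A := Real.sqrt a0
  set B := Real.sqrt a1
  set G := Real.sqrt g0
  set D := Real.sqrt g1
  have e : L = (A ^ 4 + B ^ 4) * (A ^ 2 * G ^ 2 + B ^ 2 * D ^ 2) := by
    have p0 : A ^ 4 = a0 ^ 2 := by
      calc A ^ 4 = (A ^ 2) ^ 2 := by ring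
        _ = a0 ^ 2 := by rw [s0]
    have p1 : B ^ 4 = a1 ^ 2 := by
      calc B ^ 4 = (B ^ 2) ^ 2 := by ring
        _ = a1 ^ 2 := by rw [s1]
    rw [p0, p1, h1, one_mul, s0, s1, t0, t1, hL]
  rw [e]
  nlinarith [sq_nonneg (A ^ 2 * (B * D) - B ^ 2 * (A * G))]

theorem min_add_le' {p x y : ℝ} (hy : 0 ≤ y) : min p (x + y) ≤ min p x + y := by
  rcases le_total p x with h | h
  · rw [min_eq_left h]
    exact (min_le_left _ _).trans (by linarith)
  · rw [min_eq_right h]
    exact (min_le_right _ _)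

theorem cs_two {a0 a1 g0 g1 : ℝ} (h1 : a0 ^ 2 + a1 ^ 2 = 1) (h2 : g0 ^ 2 + g1 ^ 2 = 1) :
    a0 * g0 + a1 * g1 ≤ 1 := by
  nlinarith [sq_nonneg (a0 - g0), sq_nonneg (a1 - g1)]

theorem np_prod2 {B u c κ H Lam : ℝ} (hB0 : 0 < B) (hB1 : B ≤ 0.0015) (hu_lo : 1 - B ≤ u)
    (hu_hi : u ≤ 1 + B) (hu : u = c * Lam) (hc : 0 < c) (hLam : 0 < Lam) (hκ2 : κ ^ 2 = c)
    (hκ0 : 0 ≤ κ) (hH0 : 0 ≤ H) (hgeom : (1 + u - B) / 2 ≤ κ * H) : 1 - 2 * B ≤ H ^ 2 / Lam := by
  rw [le_div_iff₀ hLam]
  have hu_pos : 0 < u := by linarith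
  have h1 : 0 ≤ (1 + u - B) / 2 := by linarith
  have h2 : ((1 + u - B) / 2) ^ 2 ≤ c * H ^ 2 := by
    calc ((1 + u - B) / 2) ^ 2 ≤ (κ * H) ^ 2 := pow_le_pow_left₀ h1 hgeom 2
      _ = c * H ^ 2 := by rw [mul_pow, hκ2]
  have h3 : (1 + u - B) ^ 2 ≥ 4 * u * (1 - 2 * B) := by
    nlinarith [sq_nonneg (1 - u), mul_pos hB0 hu_pos]
  have h4 : u * (1 - 2 * B) ≤ c * H ^ 2 := by nlinarith
  have h5 : c * ((1 - 2 * B) * Lam) ≤ c * H ^ 2 := by
    calc c * ((1 - 2 * B) * Lam) = u * (1 - 2 * B) := by rw [hu]; ring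
      _ ≤ _ := h4
  exact le_of_mul_le_mul_left h5 hc

theorem np_prod3 {B u a Lam : ℝ} (hB0 : 0 < B) (hB1 : B ≤ 0.0015) (ha : 0 < a)
    (hfirst : |1 - 2 * a ^ 2| ≤ B) (hu : u = 2 * a * Lam) (hu_pos : 0 < u) (hu_hi : u ≤ 1 + B)
    (hLam : 0 < Lam) : 1 - 4 * B ≤ a ^ 2 / Lam ^ 2 := by
  rw [le_div_iff₀ (pow_pos hLam 2)]
  set d := 2 * a ^ 2 with hd
  have hd_lo : 1 - B ≤ d := by linarith [(abs_le.mp hfirst).2]
  have hud : u ^ 2 = 2 * d * Lam ^ 2 := by
    rw [hu, hd]
    ring
  have h1 : (1 - 4 * B) * u ^ 2 ≤ d ^ 2 := by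
    have h2 : (1 - 4 * B) * (1 + B) ^ 2 ≤ (1 - B) ^ 2 := by nlinarith [mul_pos hB0 hB0, pow_pos hB0 3]
    have h3 : u ^ 2 ≤ (1 + B) ^ 2 := pow_le_pow_left₀ hu_pos.le hu_hi 2
    have h4 : (1 - B) ^ 2 ≤ d ^ 2 := pow_le_pow_left₀ (by linarith) hd_lo 2
    have h5 : 0 ≤ 1 - 4 * B := by linarith
    calc (1 - 4 * B) * u ^ 2 ≤ (1 - 4 * B) * (1 + B) ^ 2 := by gcongr
      _ ≤ d ^ 2 := h2.trans h4
  rw [hud] at h1
  have hd_pos : 0 < d := by linarith
  have h6 : d * ((1 - 4 * B) * Lam ^ 2) ≤ d * a ^ 2 := by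
    have h7 : d * a ^ 2 = d ^ 2 / 2 := by rw [hd]; ring
    rw [h7]
    calc d * ((1 - 4 * B) * Lam ^ 2) = (1 / 2) * ((1 - 4 * B) * (2 * d * Lam ^ 2)) := by ring
      _ ≤ (1 / 2) * d ^ 2 := by
          apply mul_le_mul_of_nonneg_left h1 (by norm_num)
      _ = d ^ 2 / 2 := by ring
  exact le_of_mul_le_mul_left h6 hd_pos

theorem np_bc_pt {u v e : ℝ} (he0 : 0 < e) (hu : 0 ≤ u) (hv : 0 ≤ v) :
    u * v ≤ (1 / (2 * e)) * min (u ^ 2) (v ^ 2) + (e / 2) * (u ^ 2 + v ^ 2) := by
  have hne : e ≠ 0 := he0.ne'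
  rcases le_total (u ^ 2) (v ^ 2) with h | h
  · rw [min_eq_left h]
    have h1 : u * v ≤ (1 / (2 * e)) * u ^ 2 + (e / 2) * v ^ 2 := by
      have h2 : (1 / (2 * e)) * u ^ 2 + (e / 2) * v ^ 2 - u * v = (u - e * v) ^ 2 / (2 * e) := by
        field_simp
        ring
      have h3 : 0 ≤ (u - e * v) ^ 2 / (2 * e) := by positivity
      linarith
    have h4 : 0 ≤ (e / 2) * u ^ 2 := by positivity
    nlinarith
  · rw [min_eq_right h]
    have h1 : u * v ≤ (1 / (2 * e)) * v ^ 2 + (e / 2) * u ^ 2 := by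
      have h2 : (1 / (2 * e)) * v ^ 2 + (e / 2) * u ^ 2 - u * v = (v - e * u) ^ 2 / (2 * e) := by
        field_simp
        ring
      have h3 : 0 ≤ (v - e * u) ^ 2 / (2 * e) := by positivity
      linarith
    have h4 : 0 ≤ (e / 2) * v ^ 2 := by positivity
    nlinarith

theorem np_min_pt {p q κg : ℝ} (hp : 0 ≤ p) (hq : 0 ≤ q) (hr0 : 0 ≤ κg) (hpq : p * q = κg ^ 2) :
    (p + q - |p - q|) / 2 ≤ κg := by
  rcases abs_cases (p - q) with ⟨h1, h2⟩ | ⟨h1, h2⟩
  · rw [h1]
    have : q ≤ κg := by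
      have h3 : q ^ 2 ≤ κg ^ 2 := by
        rw [← hpq]
        nlinarith
      exact (abs_le_of_sq_le_sq' h3 hr0).2
    linarith
  · rw [h1]
    have : p ≤ κg := by
      have h3 : p ^ 2 ≤ κg ^ 2 := by
        rw [← hpq]
        nlinarith
      exact (abs_le_of_sq_le_sq' h3 hr0).2
    linarith

/-- The contribution of a site to the final sum. -/
theorem np_site_final {a0 a1 g0 g1 L s : ℝ} (ha0 : 0 ≤ a0) (ha1 : 0 ≤ a1) (hg0 : 0 ≤ g0) (hg1 : 0 ≤ g1)
    (h1 : a0 ^ 2 + a1 ^ 2 = 1) (h2 : g0 ^ 2 + g1 ^ 2 = 1) (hL : L = a0 * g0 + a1 * g1) (hL0 : 0 < L)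
    (hs0 : 0 ≤ s) (hsL : s ≤ L) :
    min (min (a0 ^ 2) (a1 ^ 2)) (1 - s ^ 2) ≤
      11 * (1 - ((Real.sqrt a0) ^ 3 * Real.sqrt g0 + (Real.sqrt a1) ^ 3 * Real.sqrt g1) ^ 2 / L) +
      (1 - s ^ 2 / L ^ 2) := by
  have hL1 : L ≤ 1 := by rw [hL]; exact cs_two h1 h2
  have hsite := np_site ha0 ha1 hg0 hg1 h1 h2 hL hL0
  have hy : 0 ≤ L ^ 2 - s ^ 2 := by nlinarith
  have e : 1 - s ^ 2 = (1 - L ^ 2) + (L ^ 2 - s ^ 2) := by ring
  rw [e]
  refine (min_add_le' hy).trans ?_
  have h3 : L ^ 2 - s ^ 2 ≤ 1 - s ^ 2 / L ^ 2 := by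
    have hL2 : 0 < L ^ 2 := by positivity
    have h4 : L ^ 2 - s ^ 2 = L ^ 2 * (1 - s ^ 2 / L ^ 2) := by
      field_simp
    rw [h4]
    have h5 : 0 ≤ 1 - s ^ 2 / L ^ 2 := by
      rw [sub_nonneg, div_le_one hL2]
      nlinarith
    have h6 : L ^ 2 ≤ 1 := by nlinarith
    nlinarith
  linarith

end NP

end Vale.Agent.Lib.P368

/-!
Near-perfect distinguishing of a product state and its reflection: the main statement.
-/

set_option linter.unusedSectionVars false
set_option linter.unusedSimpArgs false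
set_option linter.unusedVariables false

namespace Vale.Agent.Lib.P368

open Matrix
open scoped Matrix.Norms.L2Operator ComplexConjugate ComplexOrder

section NP

variable {Q : Type*} [Fintype Q] [DecidableEq Q]

/-- The structure of the sites when a product ket and its reflection are almost orthogonal on
patterns. -/
theorem np_main (T : Finset Q) {r ψ s : Q → Bool → ℂ} (hr : ∀ q, ip (r q) (r q) = 1)
    (hψ : UnitOn T ψ) (hs : UnitOn T s) {e : ℝ} (he0 : 0 < e) (he : e ≤ 1 / 1000)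
    (hmin : WS T (fun y => min (‖prodIp T (pinKet r y) ψ‖ ^ 2)
      (‖prodIp T (pinKet r y) ψ - ((2 : ℂ) * prodIp T s ψ) * prodIp T (pinKet r y) s‖ ^ 2)) ≤ e ^ 2) :
    |1 - 2 * ‖prodIp T s ψ‖ ^ 2| ≤ (3 / 2) * e ∧
      ∑ q ∈ T, min (min (al r ψ q false ^ 2) (al r ψ q true ^ 2)) (1 - ‖ip (s q) (ψ q)‖ ^ 2) ≤ 78 * e := by
  set a := prodIp T s ψ with ha
  set ψy : (Q → Bool) → ℂ := fun y => prodIp T (pinKet r y) ψ with hψy
  set sy : (Q → Bool) → ℂ := fun y => prodIp T (pinKet r y) s with hsy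
  set wy : (Q → Bool) → ℂ := fun y => ψy y - ((2 : ℂ) * a) * sy y with hwy
  have hx1 : WS T (fun y => ‖ψy y‖ ^ 2) = 1 := WS_norm_sq T hr hψ
  have hs1 : WS T (fun y => ‖sy y‖ ^ 2) = 1 := WS_norm_sq T hr hs
  have hstar_a : prodIp T ψ s = star a := by
    rw [ha, star_prodIp]
  have haa : a * star a = ((‖a‖ ^ 2 : ℝ) : ℂ) := by
    rw [Complex.star_def, Complex.mul_conj']
    push_cast
    rfl
  have hc1 : WS T (fun y => star (ψy y) * ψy y) = 1 := by
    have := WS_cross T hr ψ ψ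
    rw [prodIp_self hψ] at this
    exact this
  have hc2 : WS T (fun y => star (ψy y) * sy y) = star a := by
    rw [← hstar_a]
    exact WS_cross T hr ψ s
  have hc3 : WS T (fun y => star (sy y) * ψy y) = a := WS_cross T hr s ψ
  have hc4 : WS T (fun y => star (sy y) * sy y) = 1 := by
    have := WS_cross T hr s s
    rw [prodIp_self hs] at this
    exact this
  -- the total mass of the reflected ket
  have hz1 : WS T (fun y => ‖wy y‖ ^ 2) = 1 := by
    have h1 : ∀ y, ‖wy y‖ ^ 2 = (star (wy y) * wy y).re := by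
      intro y
      rw [Complex.star_def, Complex.conj_mul']
      norm_cast
    simp only [h1]
    rw [← re_WS]
    have h2 : ∀ y, star (wy y) * wy y = star (ψy y) * ψy y - ((2 : ℂ) * a) • (star (ψy y) * sy y) -
        (star ((2 : ℂ) * a)) • (star (sy y) * ψy y) + ((2 : ℂ) * a * star ((2 : ℂ) * a)) • (star (sy y) * sy y) := by
      intro y
      simp only [hwy, star_sub, star_mul', smul_eq_mul]
      ring
    simp only [h2]
    have h3 : ∀ (c : ℂ) (F : (Q → Bool) → ℂ), WS T (fun y => c • F y) = c • WS T F := by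
      intro c F
      unfold WS
      rw [← Finset.smul_sum, smul_comm]
    rw [WS_add, WS_sub, WS_sub, h3, h3, h3, hc1, hc2, hc3, hc4]
    have h4 : ((2 : ℂ) * a) • star a = 2 * (a * star a) := by
      simp only [smul_eq_mul]
      ring
    have h5 : star ((2 : ℂ) * a) • a = 2 * (a * star a) := by
      simp only [star_mul', smul_eq_mul, star_ofNat]
      ring
    have h6 : ((2 : ℂ) * a * star ((2 : ℂ) * a)) • (1 : ℂ) = 4 * (a * star a) := by
      simp only [star_mul', smul_eq_mul, star_ofNat]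
      ring
    rw [h4, h5, h6]
    have : (1 : ℂ) - 2 * (a * star a) - 2 * (a * star a) + 4 * (a * star a) = 1 := by ring
    rw [this]
    simp
  have hmin' : WS T (fun y => min (‖ψy y‖ ^ 2) (‖wy y‖ ^ 2)) ≤ e ^ 2 := hmin
  -- the overlap of the two amplitudes
  set BC := WS T (fun y => ‖ψy y‖ * ‖wy y‖) with hBC
  set B : ℝ := (3 / 2) * e with hB
  have hB0 : 0 < B := by positivity
  have hB1 : B ≤ 0.0015 := by rw [hB]; linarith
  have hBCle : BC ≤ B := by
    have hpt : ∀ y, ‖ψy y‖ * ‖wy y‖ ≤ (1 / (2 * e)) * min (‖ψy y‖ ^ 2) (‖wy y‖ ^ 2) +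
        (e / 2) * (‖ψy y‖ ^ 2 + ‖wy y‖ ^ 2) := fun y => np_bc_pt he0 (norm_nonneg _) (norm_nonneg _)
    have h1 := WS_real_le T hpt
    rw [WS_add, WS_real_mul_left, WS_real_mul_left, WS_add, hx1, hz1] at h1
    have h2 : (1 / (2 * e)) * WS T (fun y => min (‖ψy y‖ ^ 2) (‖wy y‖ ^ 2)) ≤ (1 / (2 * e)) * e ^ 2 := by
      gcongr
    have h3 : (1 / (2 * e)) * e ^ 2 = e / 2 := by
      field_simp
    rw [h3] at h2
    rw [hB]
    linarith
  -- the first claim
  have hfirst : |1 - 2 * ‖a‖ ^ 2| ≤ BC := by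
    have h1 : WS T (fun y => star (ψy y) * wy y) = ((1 - 2 * ‖a‖ ^ 2 : ℝ) : ℂ) := by
      have h2 : ∀ y, star (ψy y) * wy y = star (ψy y) * ψy y - ((2 : ℂ) * a) • (star (ψy y) * sy y) := by
        intro y
        simp only [hwy, smul_eq_mul]
        ring
      simp only [h2]
      have h3 : WS T (fun y => ((2 : ℂ) * a) • (star (ψy y) * sy y)) = ((2 : ℂ) * a) • star a := by
        rw [← hc2]
        unfold WS
        rw [← Finset.smul_sum, smul_comm]
      rw [WS_sub, hc1, h3, smul_eq_mul, mul_assoc, haa]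
      push_cast
      ring
    have h2 := norm_WS_le T (fun y => star (ψy y) * wy y)
    rw [h1, Complex.norm_real, Real.norm_eq_abs] at h2
    refine h2.trans (le_of_eq ?_)
    rw [hBC]
    congr 1
    funext y
    rw [norm_mul, norm_star]
  have hfirst' : |1 - 2 * ‖a‖ ^ 2| ≤ B := hfirst.trans hBCle
  refine ⟨hfirst', ?_⟩
  clear_value BC
  -- the amplitudes
  set c : ℝ := 2 * ‖a‖ with hc
  set om : (Q → Bool) → ℝ := fun y => ‖ψy y‖ * ‖sy y‖ with hom
  set BCd := WS T (fun y => |‖ψy y‖ ^ 2 - c * om y|) with hBCd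
  have hBCd_le : BCd ≤ B := by
    have h0 : BCd ≤ WS T (fun y => ‖ψy y‖ * ‖wy y‖) := by
      refine WS_real_le T (fun y => ?_)
      have h1 : ‖ψy y‖ ^ 2 - c * om y = ‖ψy y‖ * (‖ψy y‖ - ‖((2 : ℂ) * a) * sy y‖) := by
        simp only [hom, hc, norm_mul, Complex.norm_ofNat]
        ring
      rw [h1, abs_mul, abs_of_nonneg (norm_nonneg _)]
      exact mul_le_mul_of_nonneg_left (abs_norm_sub_norm_le _ _) (norm_nonneg _)
    rw [hBC] at hBCle
    exact h0.trans hBCle
  set lam : Q → ℝ := fun q => al r ψ q false * al r s q false + al r ψ q true * al r s q true with hlam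
  set Lam : ℝ := ∏ q ∈ T, lam q with hLam
  have hWSom : WS T om = Lam := by
    have h1 : om = fun y => ∏ q ∈ T, (al r ψ q (y q) * al r s q (y q)) := by
      funext y
      simp only [hom, hψy, hsy, norm_prodIp_pin]
      rw [Finset.prod_mul_distrib]
    rw [h1, WS_prod_real T (fun q b => al r ψ q b * al r s q b)]
  set u : ℝ := c * Lam with hu
  have hu1 : |1 - u| ≤ B := by
    have h1 : WS T (fun y => ‖ψy y‖ ^ 2 - c * om y) = 1 - u := by
      rw [WS_sub, hx1, WS_real_mul_left, hWSom]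
    rw [← h1]
    exact (abs_WS_le _ _).trans hBCd_le
  -- the geometric sum
  set hq : Q → Bool → ℝ := fun q b => (Real.sqrt (al r ψ q b)) ^ 3 * Real.sqrt (al r s q b) with hhq
  set g : (Q → Bool) → ℝ := fun y => ∏ q ∈ T, hq q (y q) with hg
  have hgsq : ∀ y, g y ^ 2 = ‖ψy y‖ ^ 2 * om y := by
    intro y
    simp only [hg, hom, hψy, hsy, norm_prodIp_pin]
    rw [← Finset.prod_pow, ← Finset.prod_pow, ← Finset.prod_mul_distrib, ← Finset.prod_mul_distrib]
    refine Finset.prod_congr rfl (fun q _ => ?_)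
    simp only [hhq]
    have s0 := Real.sq_sqrt (al_nonneg r ψ q (y q))
    have s1 := Real.sq_sqrt (al_nonneg r s q (y q))
    calc (Real.sqrt (al r ψ q (y q)) ^ 3 * Real.sqrt (al r s q (y q))) ^ 2
        = (Real.sqrt (al r ψ q (y q)) ^ 2) ^ 3 * Real.sqrt (al r s q (y q)) ^ 2 := by ring
      _ = _ := by rw [s0, s1]; ring
  set H : ℝ := ∏ q ∈ T, (hq q false + hq q true) with hH
  have hWSg : WS T g = H := WS_prod_real T hq
  have hg0 : ∀ y, 0 ≤ g y := fun y => Finset.prod_nonneg (fun q _ => by simp only [hhq]; positivity)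
  have hH0 : 0 ≤ H := Finset.prod_nonneg (fun q _ => by simp only [hhq]; positivity)
  have hc0 : 0 ≤ c := by rw [hc]; positivity
  set κ := Real.sqrt c with hκ
  have hκ0 : 0 ≤ κ := Real.sqrt_nonneg _
  have hκ2 : κ ^ 2 = c := Real.sq_sqrt hc0
  have hminpt : ∀ y, (‖ψy y‖ ^ 2 + c * om y - |‖ψy y‖ ^ 2 - c * om y|) / 2 ≤ κ * g y := by
    intro y
    refine np_min_pt (by positivity) (mul_nonneg hc0 (mul_nonneg (norm_nonneg _) (norm_nonneg _)))
      (mul_nonneg hκ0 (hg0 y)) ?_
    rw [mul_pow, hκ2, hgsq]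
    ring
  have hgeom : (1 + u - B) / 2 ≤ κ * H := by
    have h1 := WS_real_le T hminpt
    have h2 : WS T (fun y => (‖ψy y‖ ^ 2 + c * om y - |‖ψy y‖ ^ 2 - c * om y|) / 2) = (1 + u - BCd) / 2 := by
      have e1 : ∀ y, (‖ψy y‖ ^ 2 + c * om y - |‖ψy y‖ ^ 2 - c * om y|) / 2 =
          (1 / 2) * (‖ψy y‖ ^ 2 + c * om y - |‖ψy y‖ ^ 2 - c * om y|) := fun y => by ring
      simp only [e1]
      rw [WS_real_mul_left, WS_sub, WS_add, hx1, WS_real_mul_left, hWSom]
      ring
    rw [h2, WS_real_mul_left, hWSg] at h1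
    linarith
  -- positivity of the site overlaps
  have ha2 : 0.49 ≤ ‖a‖ ^ 2 := by
    have := (abs_le.mp hfirst').2
    linarith
  have ha_pos : 0 < ‖a‖ := by
    by_contra hcon
    have h0 : ‖a‖ = 0 := le_antisymm (not_lt.mp hcon) (norm_nonneg _)
    rw [h0] at ha2
    norm_num at ha2
  have hanorm : ‖a‖ = ∏ q ∈ T, ‖ip (s q) (ψ q)‖ := by
    rw [ha]
    unfold prodIp
    rw [norm_prod]
  have hsite_pos : ∀ q ∈ T, 0 < ‖ip (s q) (ψ q)‖ := by
    intro q hq'
    by_contra hcon
    have h0 : ‖ip (s q) (ψ q)‖ = 0 := le_antisymm (not_lt.mp hcon) (norm_nonneg _)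
    have : ‖a‖ = 0 := by
      rw [hanorm]
      exact Finset.prod_eq_zero hq' h0
    linarith
  have hlamge : ∀ q, ‖ip (s q) (ψ q)‖ ≤ lam q := by
    intro q
    have h1 := wb_complete r q (hr q) (s q) (ψ q)
    rw [← h1]
    refine (norm_add_le _ _).trans ?_
    rw [norm_mul, norm_mul, norm_ip_swap (s q) (wb r q false), norm_ip_swap (s q) (wb r q true)]
    show _ ≤ al r ψ q false * al r s q false + al r ψ q true * al r s q true
    simp only [al]
    apply le_of_eq
    ring
  have hlam_pos : ∀ q ∈ T, 0 < lam q := fun q hq' => lt_of_lt_of_le (hsite_pos q hq') (hlamge q)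
  have hLam_pos : 0 < Lam := Finset.prod_pos hlam_pos
  have hal : ∀ q ∈ T, al r ψ q false ^ 2 + al r ψ q true ^ 2 = 1 := fun q hq' => al_sum r ψ q (hr q) (hψ q hq')
  have hga : ∀ q ∈ T, al r s q false ^ 2 + al r s q true ^ 2 = 1 := fun q hq' => al_sum r s q (hr q) (hs q hq')
  have hc_pos : 0 < c := by rw [hc]; positivity
  have hu_pos : 0 < u := mul_pos hc_pos hLam_pos
  have hu_lo : 1 - B ≤ u := by linarith [(abs_le.mp hu1).2]
  have hu_hi : u ≤ 1 + B := by linarith [(abs_le.mp hu1).1]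
  -- the first product of site ratios
  set u2 : Q → ℝ := fun q => (hq q false + hq q true) ^ 2 / lam q with hu2
  have hu2_le : ∀ q ∈ T, u2 q ≤ 1 := by
    intro q hq'
    show (hq q false + hq q true) ^ 2 / lam q ≤ 1
    rw [div_le_one (hlam_pos q hq')]
    exact np_cs (al_nonneg _ _ _ _) (al_nonneg _ _ _ _) (al_nonneg _ _ _ _) (al_nonneg _ _ _ _)
      (hal q hq') rfl
  have hu2_nn : ∀ q ∈ T, 0 ≤ u2 q := by
    intro q hq'
    have := hlam_pos q hq'
    show 0 ≤ (hq q false + hq q true) ^ 2 / lam q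
    positivity
  have hprod2 : ∏ q ∈ T, u2 q = H ^ 2 / Lam := by
    show ∏ q ∈ T, ((hq q false + hq q true) ^ 2 / lam q) = (∏ q ∈ T, (hq q false + hq q true)) ^ 2 / ∏ q ∈ T, lam q
    rw [Finset.prod_div_distrib, Finset.prod_pow]
  have hprod2_lo : 1 - 2 * B ≤ ∏ q ∈ T, u2 q := by
    rw [hprod2]
    exact np_prod2 hB0 hB1 hu_lo hu_hi hu hc_pos hLam_pos hκ2 hκ0 hH0 hgeom
  have hsum2 : ∑ q ∈ T, (1 - u2 q) ≤ 2 * (2 * B) :=
    sum_defect_le T u2 hu2_nn hu2_le (by positivity) (by linarith) hprod2_lo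
  -- the second product of site ratios
  set u3 : Q → ℝ := fun q => ‖ip (s q) (ψ q)‖ ^ 2 / lam q ^ 2 with hu3
  have hu3_le : ∀ q ∈ T, u3 q ≤ 1 := by
    intro q hq'
    show ‖ip (s q) (ψ q)‖ ^ 2 / lam q ^ 2 ≤ 1
    rw [div_le_one (pow_pos (hlam_pos q hq') 2)]
    exact pow_le_pow_left₀ (norm_nonneg _) (hlamge q) 2
  have hu3_nn : ∀ q ∈ T, 0 ≤ u3 q := by
    intro q hq'
    show 0 ≤ ‖ip (s q) (ψ q)‖ ^ 2 / lam q ^ 2
    positivity
  have hprod3 : ∏ q ∈ T, u3 q = ‖a‖ ^ 2 / Lam ^ 2 := by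
    show ∏ q ∈ T, (‖ip (s q) (ψ q)‖ ^ 2 / lam q ^ 2) = ‖a‖ ^ 2 / (∏ q ∈ T, lam q) ^ 2
    rw [hanorm, Finset.prod_div_distrib, Finset.prod_pow, Finset.prod_pow]
  have hprod3_lo : 1 - 4 * B ≤ ∏ q ∈ T, u3 q := by
    rw [hprod3]
    refine np_prod3 hB0 hB1 ha_pos hfirst' (by rw [hu, hc]) hu_pos hu_hi hLam_pos
  have hsum3 : ∑ q ∈ T, (1 - u3 q) ≤ 2 * (4 * B) :=
    sum_defect_le T u3 hu3_nn hu3_le (by positivity) (by linarith) hprod3_lo
  -- the final sum
  have hpt : ∀ q ∈ T, min (min (al r ψ q false ^ 2) (al r ψ q true ^ 2)) (1 - ‖ip (s q) (ψ q)‖ ^ 2) ≤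
      11 * (1 - u2 q) + (1 - u3 q) := by
    intro q hq'
    exact np_site_final (al_nonneg _ _ _ _) (al_nonneg _ _ _ _) (al_nonneg _ _ _ _) (al_nonneg _ _ _ _)
      (hal q hq') (hga q hq') rfl (hlam_pos q hq') (norm_nonneg _) (hlamge q)
  refine (Finset.sum_le_sum hpt).trans ?_
  rw [Finset.sum_add_distrib, ← Finset.mul_sum]
  have hB78 : 78 * e = 52 * B := by rw [hB]; ring
  rw [hB78]
  linarith

end NP

end Vale.Agent.Lib.P368

/-!
Two-term kets, reflections of product kets, and their distances.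
-/

set_option linter.unusedSectionVars false
set_option linter.unusedSimpArgs false
set_option linter.unusedVariables false

namespace Vale.Agent.Lib.P368

open Matrix
open scoped Matrix.Norms.L2Operator ComplexConjugate ComplexOrder

section TK

variable {Q : Type*} [Fintype Q] [DecidableEq Q]

/-- A two-term ket operator. -/
noncomputable def TK (C : Finset Q) (α β : ℂ) (v w : Q → Bool → ℂ) : MM Q :=
  α • kb C v eK + β • kb C w eK

theorem Kt_ket (C : Finset Q) (v : Q → Bool → ℂ) : IsKet C (kb C v eK) := by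
  refine ⟨kb_mem_spanOn (Finset.Subset.refl _) _ _, ?_⟩
  rw [kb_mul, Finset.prod_congr rfl (eK_unit _)]
  simp

theorem IsKet.add {C : Finset Q} {X Y : MM Q} (hX : IsKet C X) (hY : IsKet C Y) : IsKet C (X + Y) := by
  refine ⟨Submodule.add_mem _ hX.1 hY.1, ?_⟩
  rw [Matrix.add_mul, hX.2, hY.2]

theorem IsKet.sub {C : Finset Q} {X Y : MM Q} (hX : IsKet C X) (hY : IsKet C Y) : IsKet C (X - Y) := by
  refine ⟨Submodule.sub_mem _ hX.1 hY.1, ?_⟩
  rw [Matrix.sub_mul, hX.2, hY.2]

theorem IsKet.smul {C : Finset Q} {X : MM Q} (hX : IsKet C X) (c : ℂ) : IsKet C (c • X) := by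
  refine ⟨Submodule.smul_mem _ _ hX.1, ?_⟩
  rw [Matrix.smul_mul, hX.2]

theorem TK_ket (C : Finset Q) (α β : ℂ) (v w : Q → Bool → ℂ) : IsKet C (TK C α β v w) :=
  ((Kt_ket C v).smul α).add ((Kt_ket C w).smul β)

theorem TK_star_mul {C : Finset Q} {v w : Q → Bool → ℂ} (hv : UnitOn C v) (hw : UnitOn C w) (α β : ℂ) :
    (TK C α β v w)ᴴ * TK C α β v w = ((lamb α β (prodIp C v w) : ℝ) : ℂ) • kb C eK eK := by
  unfold TK
  rw [lamb_cast, star_prodIp]
  simp only [conjTranspose_add, conjTranspose_smul, kb_conjTranspose, Matrix.add_mul, Matrix.mul_add,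
    Matrix.smul_mul, Matrix.mul_smul, kb_mul', prodIp_self hv, prodIp_self hw, one_smul, smul_smul]
  module

theorem TK_norm_sq {C : Finset Q} {v w : Q → Bool → ℂ} (hv : UnitOn C v) (hw : UnitOn C w) (α β : ℂ) :
    ‖TK C α β v w‖ ^ 2 = lamb α β (prodIp C v w) := by
  have h1 := (TK_ket C α β v w).star_mul
  rw [TK_star_mul hv hw] at h1
  have h5 := smul_left_injective ℂ (kb_ne_zero (eK_unit C)) h1
  exact_mod_cast h5.symm

theorem Kt_star_mul {C : Finset Q} {v : Q → Bool → ℂ} (hv : UnitOn C v) :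
    (kb C v eK)ᴴ * kb C v eK = kb C eK eK := by
  rw [kb_conjTranspose, kb_mul', prodIp_self hv, one_smul]

theorem Kt_norm {C : Finset Q} {v : Q → Bool → ℂ} (hv : UnitOn C v) : ‖kb C v eK‖ = 1 :=
  norm_of_unit (Kt_ket C v) (Kt_star_mul hv)

/-- The reflection of a product ket, with a flag. -/
noncomputable def GK (C : Finset Q) (f : ℂ) (v w : Q → Bool → ℂ) : MM Q :=
  TK C 1 (-((2 : ℂ) * f * prodIp C w v)) v w

theorem GK_ket (C : Finset Q) (f : ℂ) (v w : Q → Bool → ℂ) : IsKet C (GK C f v w) := TK_ket _ _ _ _ _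

theorem GK_zero (C : Finset Q) (v w : Q → Bool → ℂ) : GK C 0 v w = kb C v eK := by
  unfold GK TK
  simp

theorem norm_mul_star_sq (x : ℂ) : ((x * star x).re) = ‖x‖ ^ 2 := by
  rw [Complex.star_def, Complex.mul_conj']
  norm_cast

theorem GK_norm {C : Finset Q} {v w : Q → Bool → ℂ} (hv : UnitOn C v) (hw : UnitOn C w) {f : ℂ}
    (hf : f = 0 ∨ f = 1) : ‖GK C f v w‖ = 1 := by
  rcases hf with rfl | rfl
  · rw [GK_zero]
    exact Kt_norm hv
  · have h := TK_norm_sq hv hw 1 (-((2 : ℂ) * 1 * prodIp C w v))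
    have e : lamb 1 (-((2 : ℂ) * 1 * prodIp C w v)) (prodIp C v w) = 1 := by
      unfold lamb
      rw [← star_prodIp C w v]
      set x := prodIp C w v
      have h1 : star (1 : ℂ) * (-((2 : ℂ) * 1 * x)) * star x = -((2 : ℝ) : ℂ) * (x * star x) := by
        simp only [star_one, one_mul, mul_one]
        push_cast
        ring
      rw [h1]
      rw [Complex.mul_re]
      simp only [Complex.neg_re, Complex.ofReal_re, Complex.neg_im, Complex.ofReal_im, neg_zero, zero_mul,
        sub_zero]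
      rw [norm_mul_star_sq, norm_neg, norm_mul, norm_mul, norm_one]
      simp
      ring
    unfold GK at *
    rw [e] at h
    have h2 := norm_nonneg (TK C 1 (-((2 : ℂ) * 1 * prodIp C w v)) v w)
    nlinarith

/-- Removing the reflection. -/
theorem GK_one_sub_zero {C : Finset Q} {v w : Q → Bool → ℂ} (hw : UnitOn C w) :
    ‖GK C 1 v w - kb C v eK‖ ≤ 2 * ‖prodIp C w v‖ := by
  have e : GK C 1 v w - kb C v eK = (-((2 : ℂ) * prodIp C w v)) • kb C w eK := by
    unfold GK TK
    simp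
  rw [e, norm_smul, Kt_norm hw]
  simp

/-- Changing the ket of the reflection. -/
theorem GK_sub_w {C : Finset Q} {v w w' : Q → Bool → ℂ} (hw : UnitOn C w) (hw' : UnitOn C w') {z x' : ℂ}
    (hz : prodIp C w w' = z) (hx : prodIp C w v = z * x') (hx' : prodIp C w' v = x') (hnx' : ‖x'‖ ≤ 1) :
    ‖GK C 1 v w - GK C 1 v w'‖ ≤ 2 * Real.sqrt (1 - ‖z‖ ^ 2) := by
  have e : GK C 1 v w - GK C 1 v w' = ((2 : ℂ) * x') • TK C 1 (-z) w' w := by
    unfold GK TK
    rw [hx, hx']
    module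
  have h1 := TK_norm_sq hw' hw 1 (-z)
  have e2 : lamb 1 (-z) (prodIp C w' w) = 1 - ‖z‖ ^ 2 := by
    unfold lamb
    rw [← star_prodIp C w w', hz]
    have h3 : star (1 : ℂ) * (-z) * star z = -((1 : ℝ) : ℂ) * (z * star z) := by
      simp
    rw [h3, Complex.mul_re]
    simp only [Complex.neg_re, Complex.ofReal_re, Complex.neg_im, Complex.ofReal_im, neg_zero, zero_mul,
      sub_zero]
    rw [norm_mul_star_sq, norm_neg]
    simp
    ring
  rw [e2] at h1
  have h2 : ‖TK C 1 (-z) w' w‖ = Real.sqrt (1 - ‖z‖ ^ 2) := by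
    rw [← h1, Real.sqrt_sq (norm_nonneg _)]
  rw [e, norm_smul, h2, norm_mul]
  have h3 : ‖(2 : ℂ)‖ = 2 := by simp
  rw [h3]
  have h4 := Real.sqrt_nonneg (1 - ‖z‖ ^ 2)
  nlinarith

theorem GK_sub_w0 {C : Finset Q} {v w w' : Q → Bool → ℂ} (hw : UnitOn C w) (hx' : prodIp C w' v = 0) :
    ‖GK C 1 v w - GK C 1 v w'‖ ≤ 2 * ‖prodIp C w v‖ := by
  have e : GK C 1 v w - GK C 1 v w' = (-((2 : ℂ) * prodIp C w v)) • kb C w eK := by
    unfold GK TK
    rw [hx']
    simp
  rw [e, norm_smul, Kt_norm hw]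
  simp

/-- Changing the ket to which the reflection is applied. -/
theorem GK_sub_v {C : Finset Q} {v v' w : Q → Bool → ℂ} (hw : UnitOn C w) :
    ‖GK C 1 v w - GK C 1 v' w‖ ≤ 3 * ‖kb C v eK - kb C v' eK‖ := by
  set D := kb C v eK - kb C v' eK with hD
  have e1 : (kb C w eK)ᴴ * D = (prodIp C w v - prodIp C w v') • kb C eK eK := by
    rw [hD, Matrix.mul_sub, kb_conjTranspose, kb_mul', kb_mul', sub_smul]
  have h1 : ‖prodIp C w v - prodIp C w v'‖ ≤ ‖D‖ := by
    have h2 : ‖(kb C w eK)ᴴ * D‖ ≤ ‖(kb C w eK)ᴴ‖ * ‖D‖ := Matrix.l2_opNorm_mul _ _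
    rw [Matrix.l2_opNorm_conjTranspose, Kt_norm hw, one_mul, e1, norm_smul,
      norm_kb_eq_one (eK_unit C), mul_one] at h2
    exact h2
  have e : GK C 1 v w - GK C 1 v' w = D - ((2 : ℂ) * (prodIp C w v - prodIp C w v')) • kb C w eK := by
    unfold GK TK
    rw [hD]
    simp only [one_smul, mul_one, mul_sub, sub_smul, neg_smul]
    abel
  rw [e]
  refine (norm_sub_le _ _).trans ?_
  rw [norm_smul, Kt_norm hw, norm_mul]
  have h3 : ‖(2 : ℂ)‖ = 2 := by simp
  rw [h3]
  nlinarith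

/-- The distance of two product kets. -/
theorem Kt_sub_sq {C : Finset Q} {v v' : Q → Bool → ℂ} (hv : UnitOn C v) (hv' : UnitOn C v') :
    ‖kb C v eK - kb C v' eK‖ ^ 2 = 2 - 2 * (prodIp C v v').re := by
  have e : kb C v eK - kb C v' eK = TK C 1 (-1) v v' := by
    unfold TK
    simp [sub_eq_add_neg]
  rw [e, TK_norm_sq hv hv']
  unfold lamb
  simp
  ring

theorem prodIp_union {A B : Finset Q} (h : Disjoint A B) (a b : Q → Bool → ℂ) :
    prodIp (A ∪ B) a b = prodIp A a b * prodIp B a b := by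
  unfold prodIp
  rw [Finset.prod_union h]

theorem prodIp_congr {A : Finset Q} {a a' b b' : Q → Bool → ℂ} (h1 : ∀ q ∈ A, a q = a' q)
    (h2 : ∀ q ∈ A, b q = b' q) : prodIp A a b = prodIp A a' b' := by
  unfold prodIp
  refine Finset.prod_congr rfl (fun q hq => ?_)
  rw [h1 q hq, h2 q hq]

theorem prodIp_singleton (i : Q) (a b : Q → Bool → ℂ) : prodIp {i} a b = ip (a i) (b i) := by
  unfold prodIp
  simp

end TK

end Vale.Agent.Lib.P368

/-!
Replacing column operators by approximations: decompositions into rank one terms and the expansion.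
-/

set_option linter.unusedSectionVars false
set_option linter.unusedSimpArgs false
set_option linter.unusedVariables false

namespace Vale.Agent.Lib.P368

open Matrix
open scoped Matrix.Norms.L2Operator ComplexConjugate ComplexOrder

section Expand

variable {Q : Type*} [Fintype Q] [DecidableEq Q]

/-- A decomposition of the difference of two operators into rank one terms of small total weight. -/
def Dec (C : Finset Q) (τ τ' : MM Q) (d : ℝ) : Prop :=
  ∃ (c : Fin 4 → ℂ) (X : Fin 4 → MM Q), (∀ j, IsKet C (X j)) ∧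
    τ = τ' + ∑ j, c j • (X j * (X j)ᴴ) ∧ ∑ j, ‖c j‖ * ‖X j‖ ^ 2 ≤ d

theorem Dec.nonneg {C : Finset Q} {τ τ' : MM Q} {d : ℝ} (h : Dec C τ τ' d) : 0 ≤ d := by
  obtain ⟨c, X, _, _, h3⟩ := h
  refine le_trans (Finset.sum_nonneg (fun j _ => ?_)) h3
  positivity

theorem Dec.neg {C : Finset Q} {τ τ' : MM Q} {d : ℝ} (h : Dec C τ τ' d) : Dec C (-τ) (-τ') d := by
  obtain ⟨c, X, h1, h2, h3⟩ := h
  refine ⟨fun j => - c j, X, h1, ?_, ?_⟩
  · rw [h2, neg_add]
    congr 1
    simp only [neg_smul, Finset.sum_neg_distrib]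
  · simpa using h3

/-- The operators with all weight in the rank one terms. -/
theorem dec_zero {C : Finset Q} {A0 A1 : MM Q} (h0 : IsKet C A0) (h1 : IsKet C A1) (n0 : ‖A0‖ ≤ 1)
    (n1 : ‖A1‖ ≤ 1) : Dec C ((1 / 2 : ℂ) • (A0 * A0ᴴ - A1 * A1ᴴ)) 0 1 := by
  have hz : IsKet C (0 : MM Q) := ⟨Submodule.zero_mem _, by simp⟩
  refine ⟨![1 / 2, - 1 / 2, 0, 0], ![A0, A1, 0, 0], ?_, ?_, ?_⟩
  · intro j
    fin_cases j
    · exact h0
    · exact h1
    · exact hz
    · exact hz
  · simp only [Fin.sum_univ_four]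
    simp
    module
  · simp only [Fin.sum_univ_four]
    simp
    have h2 : ‖A0‖ ^ 2 ≤ 1 := by nlinarith [norm_nonneg A0]
    have h3 : ‖A1‖ ^ 2 ≤ 1 := by nlinarith [norm_nonneg A1]
    norm_num
    linarith

/-- Polarization. -/
theorem polar (A B : MM Q) {l m : ℝ} (hlm : l * m = 1) :
    A * Aᴴ - B * Bᴴ = (1 / 4 : ℂ) • (((l : ℂ) • (A - B) + (m : ℂ) • (A + B)) * ((l : ℂ) • (A - B) + (m : ℂ) • (A + B))ᴴ -
      ((l : ℂ) • (A - B) - (m : ℂ) • (A + B)) * ((l : ℂ) • (A - B) - (m : ℂ) • (A + B))ᴴ) := by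
  have hlm' : (l : ℂ) * (m : ℂ) = 1 := by exact_mod_cast hlm
  simp only [conjTranspose_add, conjTranspose_sub, conjTranspose_smul, Complex.star_def,
    Complex.conj_ofReal, Matrix.add_mul, Matrix.sub_mul, Matrix.mul_add, Matrix.mul_sub,
    Matrix.smul_mul, Matrix.mul_smul, smul_add, smul_sub, smul_smul]
  have e : ∀ z : ℂ, z = (l : ℂ) * (m : ℂ) → (z • A * 1) = z • A := by
    intro z _
    simp
  have h1 : (m : ℂ) * (l : ℂ) = 1 := by rw [mul_comm]; exact hlm'
  simp only [mul_assoc, mul_comm (m : ℂ) (l : ℂ), hlm', mul_one]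
  simp only [hlm', ← mul_assoc]
  module

theorem norm_polar_le {A B : MM Q} {l m δ s : ℝ} (hl : 0 ≤ l) (hm : 0 ≤ m) (hA : ‖A‖ ≤ 1) (hB : ‖B‖ ≤ 1)
    (hd : ‖A - B‖ ≤ δ) (hs0 : 0 ≤ s) (h1 : l * δ ≤ s) (h2 : m ≤ s / 2) :
    ‖(l : ℂ) • (A - B) + (m : ℂ) • (A + B)‖ ≤ 2 * s ∧ ‖(l : ℂ) • (A - B) - (m : ℂ) • (A + B)‖ ≤ 2 * s := by
  have e1 : ‖(l : ℂ) • (A - B)‖ ≤ s := by
    rw [norm_smul, Complex.norm_real, Real.norm_eq_abs, abs_of_nonneg hl]
    calc l * ‖A - B‖ ≤ l * δ := by gcongr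
      _ ≤ s := h1
  have e2 : ‖(m : ℂ) • (A + B)‖ ≤ s := by
    rw [norm_smul, Complex.norm_real, Real.norm_eq_abs, abs_of_nonneg hm]
    have h3 : ‖A + B‖ ≤ 2 := (norm_add_le _ _).trans (by linarith)
    calc m * ‖A + B‖ ≤ (s / 2) * 2 := mul_le_mul h2 h3 (norm_nonneg _) (by positivity)
      _ = s := by ring
  constructor
  · exact (norm_add_le _ _).trans (by linarith)
  · exact (norm_sub_le _ _).trans (by linarith)

/-- A decomposition from close kets. -/
theorem dec_of_approx {C : Finset Q} {A0 A1 B0 B1 : MM Q} {δ : ℝ} (hδ : 0 < δ) (h0 : IsKet C A0)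
    (h1 : IsKet C A1) (k0 : IsKet C B0) (k1 : IsKet C B1) (n0 : ‖A0‖ ≤ 1) (n1 : ‖A1‖ ≤ 1)
    (m0 : ‖B0‖ ≤ 1) (m1 : ‖B1‖ ≤ 1) (d0 : ‖A0 - B0‖ ≤ δ) (d1 : ‖A1 - B1‖ ≤ δ) :
    Dec C ((1 / 2 : ℂ) • (A0 * A0ᴴ - A1 * A1ᴴ)) ((1 / 2 : ℂ) • (B0 * B0ᴴ - B1 * B1ᴴ)) (4 * δ) := by
  set s := Real.sqrt (2 * δ) with hs
  have hs0 : 0 < s := Real.sqrt_pos.mpr (by positivity)
  have hs2 : s ^ 2 = 2 * δ := Real.sq_sqrt (by positivity)
  set l := 2 / s with hl
  set m := s / 2 with hm
  have hlm : l * m = 1 := by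
    rw [hl, hm]
    field_simp
  have hl0 : 0 ≤ l := by positivity
  have hm0 : 0 ≤ m := by positivity
  have hlδ : l * δ ≤ s := by
    rw [hl]
    have : 2 / s * δ = s := by
      field_simp
      linarith
    rw [this]
  obtain ⟨a1, a2⟩ := norm_polar_le hl0 hm0 n0 m0 d0 hs0.le hlδ (le_refl _)
  obtain ⟨b1, b2⟩ := norm_polar_le hl0 hm0 n1 m1 d1 hs0.le hlδ (le_refl _)
  set X0p := (l : ℂ) • (A0 - B0) + (m : ℂ) • (A0 + B0) with hX0p
  set X0m := (l : ℂ) • (A0 - B0) - (m : ℂ) • (A0 + B0) with hX0m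
  set X1p := (l : ℂ) • (A1 - B1) + (m : ℂ) • (A1 + B1) with hX1p
  set X1m := (l : ℂ) • (A1 - B1) - (m : ℂ) • (A1 + B1) with hX1m
  have bound : ∀ X : MM Q, ‖X‖ ≤ 2 * s → ‖X‖ ^ 2 ≤ 8 * δ := by
    intro X hX
    have : ‖X‖ ^ 2 ≤ (2 * s) ^ 2 := pow_le_pow_left₀ (norm_nonneg _) hX 2
    nlinarith
  refine ⟨![1 / 8, - 1 / 8, - 1 / 8, 1 / 8], ![X0p, X0m, X1p, X1m], ?_, ?_, ?_⟩
  · intro j
    fin_cases j
    · exact ((h0.sub k0).smul _).add ((h0.add k0).smul _)
    · exact ((h0.sub k0).smul _).sub ((h0.add k0).smul _)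
    · exact ((h1.sub k1).smul _).add ((h1.add k1).smul _)
    · exact ((h1.sub k1).smul _).sub ((h1.add k1).smul _)
  · have e0 := polar A0 B0 hlm
    have e1 := polar A1 B1 hlm
    rw [← hX0p, ← hX0m] at e0
    rw [← hX1p, ← hX1m] at e1
    have e2 : A0 * A0ᴴ = B0 * B0ᴴ + (1 / 4 : ℂ) • (X0p * X0pᴴ - X0m * X0mᴴ) := by
      rw [← e0]; abel
    have e3 : A1 * A1ᴴ = B1 * B1ᴴ + (1 / 4 : ℂ) • (X1p * X1pᴴ - X1m * X1mᴴ) := by
      rw [← e1]; abel
    rw [e2, e3]
    simp only [Fin.sum_univ_four]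
    simp
    module
  · simp only [Fin.sum_univ_four]
    simp
    have h5 := bound _ a1
    have h6 := bound _ a2
    have h7 := bound _ b1
    have h8 := bound _ b2
    norm_num
    linarith

theorem trace_ket_K {C' U T : Finset Q} {X K : MM Q} (hX : IsKet C' X) (hU : Disjoint U C')
    (hT : Disjoint T C') (hK : K ∈ SpanOn T) :
    (kb U eK eK * (X * Xᴴ * K)).trace = ((‖X‖ ^ 2 : ℝ) : ℂ) * (kb (U ∪ C') eK eK * K).trace := by
  have c1 : K * Xᴴ = Xᴴ * K := commute_spanOn hT hK (conjTranspose_mem_spanOn hX.1)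
  have c2 : kb U eK eK * Xᴴ = Xᴴ * kb U eK eK :=
    commute_spanOn hU (kb_mem_spanOn (Finset.Subset.refl _) _ _) (conjTranspose_mem_spanOn hX.1)
  have h1 := hX.star_mul
  calc (kb U eK eK * (X * Xᴴ * K)).trace = ((kb U eK eK * (X * (Xᴴ * K)))).trace := by
        simp only [Matrix.mul_assoc]
    _ = (kb U eK eK * (X * (K * Xᴴ))).trace := by rw [c1]
    _ = ((kb U eK eK * X * K) * Xᴴ).trace := by simp only [Matrix.mul_assoc]
    _ = (Xᴴ * (kb U eK eK * X * K)).trace := Matrix.trace_mul_comm _ _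
    _ = ((Xᴴ * kb U eK eK) * X * K).trace := by simp only [Matrix.mul_assoc]
    _ = (kb U eK eK * (Xᴴ * X) * K).trace := by
        rw [← c2]
        simp only [Matrix.mul_assoc]
    _ = _ := by
        rw [h1, Matrix.mul_smul, Matrix.smul_mul, Matrix.trace_smul, smul_eq_mul,
          kb_mul_disjoint hU, merge_self]

variable {ι : Type*}

theorem uni_append (L M : List ι) (f : ι → Finset Q) : uni (L ++ M) f = uni L f ∪ uni M f := by
  ext q
  simp only [mem_uni, Finset.mem_union, List.mem_append]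
  constructor
  · rintro ⟨a, ha | ha, hq⟩
    · exact Or.inl ⟨a, ha, hq⟩
    · exact Or.inr ⟨a, ha, hq⟩
  · rintro (⟨a, ha, hq⟩ | ⟨a, ha, hq⟩)
    · exact ⟨a, Or.inl ha, hq⟩
    · exact ⟨a, Or.inr ha, hq⟩

theorem Dec.sum_le {C : Finset Q} {τ τ' : MM Q} {d : ℝ} (h : Dec C τ τ' d) : True := trivial

/-- The expansion. -/
theorem expand (Pi : MM Q) (C : ι → Finset Q) (τ τ' : ι → MM Q) (θ d : ι → ℝ) (X : List ι)
    (hC : X.Pairwise (fun a b => Disjoint (C a) (C b)))
    (hτ : ∀ h ∈ X, τ h ∈ SpanOn (C h))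
    (hτ' : ∀ h ∈ X, τ' h ∈ SpanOn (C h))
    (hdec : ∀ h ∈ X, Dec (C h) (τ h) (τ' h) (d h)) (hθ : ∀ h ∈ X, 0 ≤ θ h)
    (hbase : ∀ L, L.Sublist X → ∀ (K : MM Q) (T : Finset Q), K ∈ SpanOn T → K.PosSemidef →
      Disjoint T (uni L C) → ‖(Pi * (L.map τ').prod * K).trace‖ ≤
        (L.map θ).prod * (kb (uni L C) eK eK * K).trace.re) :
    ∀ (K : MM Q) (T : Finset Q), K ∈ SpanOn T → K.PosSemidef → Disjoint T (uni X C) →
      ‖(Pi * (X.map τ).prod * K).trace‖ ≤
        (X.map (fun h => θ h + d h)).prod * (kb (uni X C) eK eK * K).trace.re := by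
  have main : ∀ (X₂ L : List ι), (L ++ X₂).Sublist X → ∀ (K : MM Q) (T : Finset Q), K ∈ SpanOn T →
      K.PosSemidef → Disjoint T (uni (L ++ X₂) C) →
      ‖(Pi * (L.map τ').prod * (X₂.map τ).prod * K).trace‖ ≤
        (L.map θ).prod * (X₂.map (fun h => θ h + d h)).prod *
          (kb (uni (L ++ X₂) C) eK eK * K).trace.re := by
    intro X₂
    induction X₂ with
    | nil =>
      intro L hL K T hK hKp hT
      simp only [List.append_nil] at hL hT ⊢
      simp only [List.map_nil, List.prod_nil, Matrix.mul_one, mul_one]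
      exact hbase L hL K T hK hKp hT
    | cons h X₂ ih =>
      intro L hL K T hK hKp hT
      have hmem : ∀ a ∈ L ++ h :: X₂, a ∈ X := fun a ha => hL.subset ha
      have hhX : h ∈ X := hmem h (by simp)
      have hL1 : ((L ++ [h]) ++ X₂).Sublist X := by
        rw [List.append_assoc]
        exact hL
      have hL2 : (L ++ X₂).Sublist X := by
        refine List.Sublist.trans ?_ hL
        exact List.Sublist.append_left (List.sublist_cons_self _ _) _
      have hpw : (L ++ h :: X₂).Pairwise (fun a b => Disjoint (C a) (C b)) := hC.sublist hL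
      have hd1 : ∀ a ∈ L, Disjoint (C a) (C h) := fun a ha =>
        (List.pairwise_append.mp hpw).2.2 a ha h (by simp)
      have hd2 : ∀ a ∈ X₂, Disjoint (C h) (C a) := fun a ha =>
        (List.pairwise_cons.mp (List.pairwise_append.mp hpw).2.1).1 a ha
      have hUh : Disjoint (uni (L ++ X₂) C) (C h) := by
        rw [disjoint_comm]
        refine disjoint_uni_right (fun a ha => ?_)
        rcases List.mem_append.mp ha with ha | ha
        · exact (hd1 a ha).symm
        · exact hd2 a ha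
      have hunion : uni (L ++ X₂) C ∪ C h = uni (L ++ h :: X₂) C := by
        ext q
        simp only [mem_uni, Finset.mem_union, List.mem_append, List.mem_cons]
        constructor
        · rintro (⟨a, ha | ha, hq⟩ | hq)
          · exact ⟨a, Or.inl ha, hq⟩
          · exact ⟨a, Or.inr (Or.inr ha), hq⟩
          · exact ⟨h, Or.inr (Or.inl rfl), hq⟩
        · rintro ⟨a, ha | rfl | ha, hq⟩
          · exact Or.inl ⟨a, Or.inl ha, hq⟩
          · exact Or.inr hq
          · exact Or.inl ⟨a, Or.inr ha, hq⟩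
      have hTh : Disjoint T (C h) := by
        refine Finset.disjoint_of_subset_right ?_ hT
        rw [← hunion]
        exact Finset.subset_union_right
      have hTU : Disjoint T (uni (L ++ X₂) C) := by
        refine Finset.disjoint_of_subset_right ?_ hT
        rw [← hunion]
        exact Finset.subset_union_left
      obtain ⟨c, Xj, hXj, heq, hsum⟩ := hdec h hhX
      set P := Pi * (L.map τ').prod with hP
      set R := (X₂.map τ).prod with hR
      set Pθ := (L.map θ).prod with hPθ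
      set P2 := (X₂.map (fun h => θ h + d h)).prod with hP2
      have hdn : 0 ≤ d h := (hdec h hhX).nonneg
      have hPθ0 : 0 ≤ Pθ := list_prod_nonneg (fun a ha => hθ a (hmem a (by simp [ha])))
      have hP20 : 0 ≤ P2 := list_prod_nonneg (fun a ha =>
        add_nonneg (hθ a (hmem a (by simp [ha]))) (hdec a (hmem a (by simp [ha]))).nonneg)
      -- the first term
      have hfirst := ih (L ++ [h]) hL1 K T hK hKp (by
        rw [List.append_assoc]
        exact hT)
      rw [List.append_assoc, List.singleton_append] at hfirst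
      rw [List.map_append, List.prod_append] at hfirst
      simp only [List.map_cons, List.map_nil, List.prod_cons, List.prod_nil, Matrix.mul_one] at hfirst
      rw [List.map_append, List.prod_append] at hfirst
      simp only [List.map_cons, List.map_nil, List.prod_cons, List.prod_nil, Matrix.mul_one, mul_one] at hfirst
      rw [← hPθ] at hfirst
      -- the other terms
      have hRm : R ∈ SpanOn (uni X₂ C) := prod_mem_spanOn (fun a ha =>
        spanOn_mono (fun q hq => mem_uni.mpr ⟨a, ha, hq⟩) (hτ a (hmem a (by simp [ha]))))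
      have hRd : Disjoint (C h) (uni X₂ C) := disjoint_uni_right hd2
      have hj : ∀ j, ‖(P * (Xj j * (Xj j)ᴴ) * R * K).trace‖ ≤
          Pθ * P2 * (‖Xj j‖ ^ 2 * (kb (uni (L ++ h :: X₂) C) eK eK * K).trace.re) := by
        intro j
        have hXm : Xj j * (Xj j)ᴴ ∈ SpanOn (C h) :=
          mul_mem_spanOn (hXj j).1 (conjTranspose_mem_spanOn (hXj j).1)
        have hcK : Xj j * (Xj j)ᴴ * K = K * (Xj j * (Xj j)ᴴ) :=
          (commute_spanOn hTh hK hXm).symm
        have hXp : (Xj j * (Xj j)ᴴ).PosSemidef := by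
          have := posSemidef_conjTranspose_mul_self (Xj j)ᴴ
          rwa [conjTranspose_conjTranspose] at this
        have hKj : (Xj j * (Xj j)ᴴ * K).PosSemidef := psd_mul_of_commute hXp hKp hcK
        have hKjm : Xj j * (Xj j)ᴴ * K ∈ SpanOn (T ∪ C h) :=
          mul_mem_spanOn (spanOn_mono Finset.subset_union_right hXm)
            (spanOn_mono Finset.subset_union_left hK)
        have hTj : Disjoint (T ∪ C h) (uni (L ++ X₂) C) := by
          rw [Finset.disjoint_union_left]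
          exact ⟨hTU, hUh.symm⟩
        have h3 := ih L hL2 (Xj j * (Xj j)ᴴ * K) (T ∪ C h) hKjm hKj hTj
        rw [← hPθ, ← hP] at h3
        have hcR : Xj j * (Xj j)ᴴ * R = R * (Xj j * (Xj j)ᴴ) := commute_spanOn hRd hXm hRm
        have e1 : (P * (Xj j * (Xj j)ᴴ) * R * K).trace = (P * R * (Xj j * (Xj j)ᴴ * K)).trace := by
          calc (P * (Xj j * (Xj j)ᴴ) * R * K).trace = (P * (Xj j * (Xj j)ᴴ * R) * K).trace := by
                simp only [Matrix.mul_assoc]
            _ = (P * (R * (Xj j * (Xj j)ᴴ)) * K).trace := by rw [hcR]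
            _ = _ := by simp only [Matrix.mul_assoc]
        rw [e1]
        refine h3.trans (le_of_eq ?_)
        have e2 := trace_ket_K (hXj j) hUh hTh hK
        rw [e2, hunion, Complex.re_ofReal_mul]
      -- putting together
      have hexp : (P * ((h :: X₂).map τ).prod * K).trace =
          (P * τ' h * R * K).trace + ∑ j, c j * (P * (Xj j * (Xj j)ᴴ) * R * K).trace := by
        have : ((h :: X₂).map τ).prod = (τ' h + ∑ j, c j • (Xj j * (Xj j)ᴴ)) * R := by
          simp only [List.map_cons, List.prod_cons]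
          rw [← heq]
        set S := ∑ j, c j • (Xj j * (Xj j)ᴴ) with hS
        rw [this]
        have e1 : P * ((τ' h + S) * R) * K = P * τ' h * R * K + P * S * R * K := by
          simp only [Matrix.add_mul, Matrix.mul_add, Matrix.mul_assoc]
        rw [e1, Matrix.trace_add]
        congr 1
        have e2 : P * S * R * K = ∑ j, c j • (P * (Xj j * (Xj j)ᴴ) * R * K) := by
          rw [hS, Finset.mul_sum, Finset.sum_mul, Finset.sum_mul]
          refine Finset.sum_congr rfl (fun j _ => ?_)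
          simp only [Matrix.mul_smul, Matrix.smul_mul]
        rw [e2, Matrix.trace_sum]
        refine Finset.sum_congr rfl (fun j _ => ?_)
        rw [Matrix.trace_smul, smul_eq_mul]
      rw [hexp]
      set Z := (kb (uni (L ++ h :: X₂) C) eK eK * K).trace.re with hZ
      have hZ0 : 0 ≤ Z := by
        rw [hZ]
        exact trace_psd_mul_re (kb_psd (eK_unit _)) hKp
      refine (norm_add_le _ _).trans ?_
      have hsumn : ‖∑ j, c j * (P * (Xj j * (Xj j)ᴴ) * R * K).trace‖ ≤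
          Pθ * P2 * ((∑ j, ‖c j‖ * ‖Xj j‖ ^ 2) * Z) := by
        refine (norm_sum_le _ _).trans ?_
        rw [Finset.sum_mul, Finset.mul_sum]
        refine Finset.sum_le_sum (fun j _ => ?_)
        rw [norm_mul]
        calc ‖c j‖ * ‖(P * (Xj j * (Xj j)ᴴ) * R * K).trace‖
            ≤ ‖c j‖ * (Pθ * P2 * (‖Xj j‖ ^ 2 * Z)) := by
              gcongr
              exact hj j
          _ = _ := by ring
      have hP3 : 0 ≤ Pθ * P2 * Z := by positivity
      have e5 : P * τ' h * R * K = Pi * ((L.map τ').prod * τ' h) * R * K := by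
        rw [hP]
        simp only [Matrix.mul_assoc]
      simp only [List.map_cons, List.prod_cons]
      calc ‖(P * τ' h * R * K).trace‖ + ‖∑ j, c j * (P * (Xj j * (Xj j)ᴴ) * R * K).trace‖
          ≤ Pθ * θ h * P2 * Z + Pθ * P2 * ((∑ j, ‖c j‖ * ‖Xj j‖ ^ 2) * Z) := by
            refine add_le_add ?_ hsumn
            rw [e5]
            exact hfirst
        _ ≤ Pθ * θ h * P2 * Z + Pθ * P2 * (d h * Z) := by
            gcongr
        _ = _ := by ring
  intro K T hK hKp hT
  have h := main X [] (by simp) K T hK hKp (by simpa using hT)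
  simpa using h

end Expand

end Vale.Agent.Lib.P368

/-!
General columns: reflection of a product ket with one literal; the weight of a column.
-/

set_option linter.unusedSectionVars false
set_option linter.unusedSimpArgs false
set_option linter.unusedVariables false

namespace Vale.Agent.Lib.P368

open Matrix
open scoped Matrix.Norms.L2Operator ComplexConjugate ComplexOrder

section GCol

variable {Q : Type*} [Fintype Q] [DecidableEq Q]

/-- A general column: a literal at `i`, a product ket on `A`, and a reflection with a flag. -/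
structure GCol (Q : Type*) [Fintype Q] [DecidableEq Q] where
  i : Q
  A : Finset Q
  hi : i ∉ A
  u : Bool → ℂ
  hu : ip u u = 1
  si : Bool → ℂ
  hsi : ip si si = 1
  psi : Q → Bool → ℂ
  s : Q → Bool → ℂ
  hpsi : UnitOn A psi
  hs : UnitOn A s
  f : ℂ
  hf : f = 0 ∨ f = 1

namespace GCol

variable (g : GCol Q)

/-- The two literal kets. -/
def lit (b : Bool) : Bool → ℂ := if b then perp g.u else g.u

theorem lit_false : g.lit false = g.u := by simp [lit]

theorem lit_true : g.lit true = perp g.u := by simp [lit]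

theorem lit_unit (b : Bool) : ip (g.lit b) (g.lit b) = 1 := by
  unfold lit
  cases b
  · simpa using g.hu
  · simpa [ip_perp_self] using g.hu

/-- The sites of the column. -/
def C : Finset Q := insert g.i g.A

theorem C_eq : g.C = {g.i} ∪ g.A := by
  unfold C
  rw [Finset.insert_eq]

theorem disj : Disjoint ({g.i} : Finset Q) g.A := by simpa using g.hi

theorem ne_of_mem {q : Q} (hq : q ∈ g.A) : q ≠ g.i := fun e => g.hi (e ▸ hq)

theorem mem_C {q : Q} : q ∈ g.C ↔ q = g.i ∨ q ∈ g.A := by simp [C]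

theorem A_sub : g.A ⊆ g.C := Finset.subset_insert _ _

theorem i_mem : g.i ∈ g.C := Finset.mem_insert_self _ _

/-- The input kets. -/
def vb (b : Bool) : Q → Bool → ℂ := merge {g.i} (fun _ => g.lit b) g.psi

/-- The kets of the reflection. -/
def wv : Q → Bool → ℂ := merge {g.i} (fun _ => g.si) g.s

theorem vb_i (b : Bool) : g.vb b g.i = g.lit b := by simp [vb, merge]

theorem vb_A (b : Bool) {q : Q} (hq : q ∈ g.A) : g.vb b q = g.psi q := by
  have := g.ne_of_mem hq
  simp [vb, merge, this]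

theorem wv_i : g.wv g.i = g.si := by simp [wv, merge]

theorem wv_A {q : Q} (hq : q ∈ g.A) : g.wv q = g.s q := by
  have := g.ne_of_mem hq
  simp [wv, merge, this]

theorem vb_unit (b : Bool) : UnitOn g.C (g.vb b) := by
  intro q hq
  rcases g.mem_C.mp hq with rfl | hq
  · rw [g.vb_i]
    exact g.lit_unit b
  · rw [g.vb_A b hq]
    exact g.hpsi q hq

theorem wv_unit : UnitOn g.C g.wv := by
  intro q hq
  rcases g.mem_C.mp hq with rfl | hq
  · rw [g.wv_i]
    exact g.hsi
  · rw [g.wv_A hq]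
    exact g.hs q hq

/-- The ket operators of the column. -/
noncomputable def Ket (b : Bool) : MM Q := GK g.C g.f (g.vb b) g.wv

/-- The operator of the column. -/
noncomputable def tau : MM Q := (1 / 2 : ℂ) • (g.Ket false * (g.Ket false)ᴴ - g.Ket true * (g.Ket true)ᴴ)

theorem Ket_ket (b : Bool) : IsKet g.C (g.Ket b) := GK_ket _ _ _ _

theorem Ket_norm (b : Bool) : ‖g.Ket b‖ = 1 := GK_norm (g.vb_unit b) g.wv_unit g.hf

theorem tau_mem : g.tau ∈ SpanOn g.C := by
  unfold tau
  refine Submodule.smul_mem _ _ (Submodule.sub_mem _ ?_ ?_)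
  · exact mul_mem_spanOn (g.Ket_ket false).1 (conjTranspose_mem_spanOn (g.Ket_ket false).1)
  · exact mul_mem_spanOn (g.Ket_ket true).1 (conjTranspose_mem_spanOn (g.Ket_ket true).1)

/-- The overlap of the gate with the literal. -/
def beta (b : Bool) : ℂ := ip g.si (g.lit b)

/-- The overlap of the gate with the input on the sites `A`. -/
def aT : ℂ := prodIp g.A g.s g.psi

theorem prodIp_wv_vb (b : Bool) : prodIp g.C g.wv (g.vb b) = g.beta b * g.aT := by
  rw [g.C_eq, prodIp_union g.disj, prodIp_singleton, g.vb_i, g.wv_i]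
  congr 1
  exact prodIp_congr (fun q hq => g.wv_A hq) (fun q hq => g.vb_A b hq)

theorem beta_sum : ‖g.beta false‖ ^ 2 + ‖g.beta true‖ ^ 2 = 1 := by
  unfold beta
  rw [g.lit_false, g.lit_true]
  exact sum_perp_one g.hsi g.hu

theorem norm_aT_le : ‖g.aT‖ ≤ 1 := norm_prodIp_le g.hs g.hpsi

theorem norm_beta_le (b : Bool) : ‖g.beta b‖ ≤ 1 := norm_ip_le g.hsi (g.lit_unit b)

/-- Detaching sites of the column. -/
def detach (D : Finset Q) : GCol Q :=
  { g with
    A := g.A \ D
    hi := fun h => g.hi (Finset.mem_sdiff.mp h).1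
    hpsi := fun q hq => g.hpsi q (Finset.mem_sdiff.mp hq).1
    hs := fun q hq => g.hs q (Finset.mem_sdiff.mp hq).1 }

/-- Dropping the reflection and all other sites. -/
def bare : GCol Q :=
  { g with
    A := ∅
    hi := by simp
    hpsi := by simp [UnitOn]
    hs := by simp [UnitOn]
    f := 0
    hf := Or.inl rfl }

end GCol

/-- A two-term ket times a product ket. -/
theorem GK_mul_Kt {C' D : Finset Q} (hd : Disjoint C' D) (f : ℂ) (v w ψ : Q → Bool → ℂ)
    (hψ : UnitOn D ψ) :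
    GK C' f v w * kb D ψ eK = GK (C' ∪ D) f (merge C' v ψ) (merge C' w ψ) := by
  unfold GK TK
  have e1 : prodIp (C' ∪ D) (merge C' w ψ) (merge C' v ψ) = prodIp C' w v := by
    rw [prodIp_union hd]
    have h1 : prodIp C' (merge C' w ψ) (merge C' v ψ) = prodIp C' w v := by
      refine prodIp_congr (fun q hq => ?_) (fun q hq => ?_) <;> simp [merge, hq]
    have h2 : prodIp D (merge C' w ψ) (merge C' v ψ) = prodIp D ψ ψ := by
      refine prodIp_congr (fun q hq => ?_) (fun q hq => ?_) <;>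
      · have : q ∉ C' := fun h => Finset.disjoint_left.mp hd h hq
        simp [merge, this]
    rw [h1, h2, prodIp_self hψ, mul_one]
  rw [e1, Matrix.add_mul, Matrix.smul_mul, Matrix.smul_mul, kb_mul_disjoint hd, kb_mul_disjoint hd]
  have e2 : merge C' (eK : Q → Bool → ℂ) eK = eK := merge_self _ _
  rw [e2]

namespace GCol

variable (g : GCol Q)

/-- The norm of the product ket of `D`. -/
theorem Ket_detach_mul {D : Finset Q} (hD : D ⊆ g.A) (b : Bool) :
    (g.detach D).Ket b * kb D g.psi eK =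
      GK g.C g.f (g.vb b) (merge (g.detach D).C g.wv g.psi) := by
  have hd : Disjoint (g.detach D).C D := by
    rw [Finset.disjoint_left]
    intro q hq hqD
    rcases (g.detach D).mem_C.mp hq with h1 | h1
    · exact g.hi (by rw [← show q = g.i from h1]; exact hD hqD)
    · exact (Finset.mem_sdiff.mp h1).2 hqD
  have hu : (g.detach D).C ∪ D = g.C := by
    ext q
    simp only [Finset.mem_union, (g.detach D).mem_C, g.mem_C]
    constructor
    · rintro ((h | h) | h)
      · exact Or.inl h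
      · exact Or.inr (Finset.mem_sdiff.mp h).1
      · exact Or.inr (hD h)
    · rintro (h | h)
      · exact Or.inl (Or.inl h)
      · by_cases h2 : q ∈ D
        · exact Or.inr h2
        · exact Or.inl (Or.inr (Finset.mem_sdiff.mpr ⟨h, h2⟩))
  unfold Ket
  rw [GK_mul_Kt hd _ _ _ _ (fun q hq => g.hpsi q (hD hq)), hu]
  have : merge (g.detach D).C ((g.detach D).vb b) g.psi = g.vb b := by
    funext q
    by_cases hq : q ∈ (g.detach D).C
    · simp only [merge, hq, if_true]
      rfl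
    · simp only [merge, hq, if_false]
      have hne : q ≠ g.i := fun e => hq (e ▸ Finset.mem_insert_self _ _)
      simp [vb, merge, hne]
  rw [this]
  rfl

/-- The approximation made by detaching sites. -/
theorem detach_dist (hf : g.f = 1) {D : Finset Q} (hD : D ⊆ g.A) (b : Bool) :
    ‖g.Ket b - (g.detach D).Ket b * kb D g.psi eK‖ ≤ 2 * Real.sqrt (1 - ‖prodIp D g.s g.psi‖ ^ 2) := by
  rw [g.Ket_detach_mul hD b]
  unfold Ket
  rw [hf]
  set C' := (g.detach D).C with hC'
  set w' := merge C' g.wv g.psi with hw'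
  have hCD : g.C = C' ∪ D := by
    ext q
    simp only [Finset.mem_union, hC', (g.detach D).mem_C, g.mem_C]
    constructor
    · rintro (h | h)
      · exact Or.inl (Or.inl h)
      · by_cases h2 : q ∈ D
        · exact Or.inr h2
        · exact Or.inl (Or.inr (Finset.mem_sdiff.mpr ⟨h, h2⟩))
    · rintro ((h | h) | h)
      · exact Or.inl h
      · exact Or.inr (Finset.mem_sdiff.mp h).1
      · exact Or.inr (hD h)
  have hd : Disjoint C' D := by
    rw [Finset.disjoint_left]
    intro q hq hqD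
    rcases (g.detach D).mem_C.mp hq with h1 | h1
    · exact g.hi (by rw [← show q = g.i from h1]; exact hD hqD)
    · exact (Finset.mem_sdiff.mp h1).2 hqD
  have hqD_ne : ∀ q ∈ D, q ∉ C' := fun q hq h => Finset.disjoint_left.mp hd h hq
  have hw'u : UnitOn g.C w' := by
    intro q hq
    by_cases h1 : q ∈ C'
    · simp only [hw', merge, h1, if_true]
      exact g.wv_unit q hq
    · simp only [hw', merge, h1, if_false]
      rw [hCD] at hq
      rcases Finset.mem_union.mp hq with h2 | h2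
      · exact absurd h2 h1
      · exact g.hpsi q (hD h2)
  set z := prodIp D g.s g.psi with hz
  have hz1 : prodIp g.C g.wv w' = z := by
    rw [hCD, prodIp_union hd]
    have h1 : prodIp C' g.wv w' = 1 := by
      rw [prodIp_congr (a' := g.wv) (b' := g.wv) (fun q _ => rfl)
        (fun q hq => by simp [hw', merge, hq])]
      exact prodIp_self (fun q hq => g.wv_unit q (by rw [hCD]; exact Finset.mem_union_left _ hq))
    rw [h1, one_mul, hz]
    refine prodIp_congr (fun q hq => ?_) (fun q hq => ?_)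
    · exact g.wv_A (hD hq)
    · simp [hw', merge, hqD_ne q hq]
  have hx' : prodIp g.C w' (g.vb b) = prodIp C' g.wv (g.vb b) := by
    rw [hCD, prodIp_union hd]
    have h1 : prodIp C' w' (g.vb b) = prodIp C' g.wv (g.vb b) := by
      refine prodIp_congr (fun q hq => ?_) (fun q _ => rfl)
      simp [hw', merge, hq]
    have h2 : prodIp D w' (g.vb b) = 1 := by
      rw [prodIp_congr (a' := g.psi) (b' := g.psi) (fun q hq => by simp [hw', merge, hqD_ne q hq])
        (fun q hq => g.vb_A b (hD hq))]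
      exact prodIp_self (fun q hq => g.hpsi q (hD hq))
    rw [h1, h2, mul_one]
  have hx : prodIp g.C g.wv (g.vb b) = z * prodIp g.C w' (g.vb b) := by
    rw [hx']
    conv_lhs => rw [hCD, prodIp_union hd]
    have h2 : prodIp D g.wv (g.vb b) = z := by
      rw [hz]
      exact prodIp_congr (fun q hq => g.wv_A (hD hq)) (fun q hq => g.vb_A b (hD hq))
    rw [h2, mul_comm]
  have hnx : ‖prodIp g.C w' (g.vb b)‖ ≤ 1 := norm_prodIp_le hw'u (g.vb_unit b)
  exact GK_sub_w g.wv_unit hw'u hz1 hx rfl hnx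

/-- The approximation made by removing the reflection and detaching all sites. -/
theorem bare_dist (b : Bool) (hf : g.f = 1) :
    ‖g.Ket b - g.bare.Ket b * kb g.A g.psi eK‖ ≤ 2 * ‖g.aT‖ := by
  have hb : g.bare.Ket b * kb g.A g.psi eK = kb g.C (g.vb b) eK := by
    have h1 : g.bare.Ket b = kb {g.i} (fun _ => g.lit b) eK := by
      show GK ((insert g.i ∅ : Finset Q)) 0 _ _ = _
      rw [GK_zero]
      refine kb_congr (fun q hq => ?_) (fun q hq => rfl)
      have : q = g.i := by simpa using hq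
      subst this
      simp [vb, merge, lit, bare]
    rw [h1, kb_mul_disjoint g.disj, g.C_eq]
    have e2 : merge {g.i} (eK : Q → Bool → ℂ) eK = eK := merge_self _ _
    rw [e2]
    rfl
  rw [hb]
  unfold Ket
  rw [hf]
  refine (GK_one_sub_zero g.wv_unit).trans ?_
  rw [g.prodIp_wv_vb, norm_mul]
  have := g.norm_beta_le b
  have h2 := norm_nonneg g.aT
  nlinarith

end GCol

end GCol

end Vale.Agent.Lib.P368

/-!
The weight of a general column, as an explicit formula.
-/

set_option linter.unusedSectionVars false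
set_option linter.unusedSimpArgs false
set_option linter.unusedVariables false

namespace Vale.Agent.Lib.P368

open Matrix
open scoped Matrix.Norms.L2Operator ComplexConjugate ComplexOrder

section ColBeta

variable {Q : Type*} [Fintype Q] [DecidableEq Q]

/-- The mass of a reflected ket. -/
theorem WS_refl_one (T : Finset Q) {r ψ s : Q → Bool → ℂ} (hr : ∀ q, ip (r q) (r q) = 1)
    (hψ : UnitOn T ψ) (hs : UnitOn T s) :
    WS T (fun y => ‖prodIp T (pinKet r y) ψ - ((2 : ℂ) * prodIp T s ψ) * prodIp T (pinKet r y) s‖ ^ 2) = 1 := by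
  set a := prodIp T s ψ with ha
  set ψy : (Q → Bool) → ℂ := fun y => prodIp T (pinKet r y) ψ with hψy
  set sy : (Q → Bool) → ℂ := fun y => prodIp T (pinKet r y) s with hsy
  set wy : (Q → Bool) → ℂ := fun y => ψy y - ((2 : ℂ) * a) * sy y with hwy
  have hstar_a : prodIp T ψ s = star a := by
    rw [ha, star_prodIp]
  have haa : a * star a = ((‖a‖ ^ 2 : ℝ) : ℂ) := by
    rw [Complex.star_def, Complex.mul_conj']
    push_cast
    rfl
  have hc1 : WS T (fun y => star (ψy y) * ψy y) = 1 := by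
    have := WS_cross T hr ψ ψ
    rw [prodIp_self hψ] at this
    exact this
  have hc2 : WS T (fun y => star (ψy y) * sy y) = star a := by
    rw [← hstar_a]
    exact WS_cross T hr ψ s
  have hc3 : WS T (fun y => star (sy y) * ψy y) = a := WS_cross T hr s ψ
  have hc4 : WS T (fun y => star (sy y) * sy y) = 1 := by
    have := WS_cross T hr s s
    rw [prodIp_self hs] at this
    exact this
  have h1 : ∀ y, ‖wy y‖ ^ 2 = (star (wy y) * wy y).re := by
    intro y
    rw [Complex.star_def, Complex.conj_mul']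
    norm_cast
  show WS T (fun y => ‖wy y‖ ^ 2) = 1
  simp only [h1]
  rw [← re_WS]
  have h2 : ∀ y, star (wy y) * wy y = star (ψy y) * ψy y - ((2 : ℂ) * a) • (star (ψy y) * sy y) -
      (star ((2 : ℂ) * a)) • (star (sy y) * ψy y) + ((2 : ℂ) * a * star ((2 : ℂ) * a)) • (star (sy y) * sy y) := by
    intro y
    simp only [hwy, star_sub, star_mul', smul_eq_mul]
    ring
  simp only [h2]
  have h3 : ∀ (c : ℂ) (F : (Q → Bool) → ℂ), WS T (fun y => c • F y) = c • WS T F := by
    intro c F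
    unfold WS
    rw [← Finset.smul_sum, smul_comm]
  rw [WS_add, WS_sub, WS_sub, h3, h3, h3, hc1, hc2, hc3, hc4]
  have h4 : ((2 : ℂ) * a) • star a = 2 * (a * star a) := by
    simp only [smul_eq_mul]
    ring
  have h5 : star ((2 : ℂ) * a) • a = 2 * (a * star a) := by
    simp only [star_mul', smul_eq_mul, star_ofNat]
    ring
  have h6 : ((2 : ℂ) * a * star ((2 : ℂ) * a)) • (1 : ℂ) = 4 * (a * star a) := by
    simp only [star_mul', smul_eq_mul, star_ofNat]
    ring
  rw [h4, h5, h6]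
  have : (1 : ℂ) - 2 * (a * star a) - 2 * (a * star a) + 4 * (a * star a) = 1 := by ring
  rw [this]
  simp

/-- A product projector times a product ket. -/
theorem kb_mul_Kt {J C : Finset Q} (hJ : J ⊆ C) (φ v : Q → Bool → ℂ) :
    kb J φ φ * kb C v eK = prodIp J φ v • kb C (merge J φ v) eK := by
  have hd : Disjoint J (C \ J) := Finset.disjoint_sdiff
  have hu : J ∪ (C \ J) = C := Finset.union_sdiff_of_subset hJ
  have e1 : kb C v eK = kb J v eK * kb (C \ J) v eK := by
    rw [kb_mul_disjoint hd, hu, merge_self, merge_self]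
  have e2 : kb C (merge J φ v) eK = kb J φ eK * kb (C \ J) v eK := by
    rw [kb_mul_disjoint hd, hu, merge_self]
  rw [e1, e2, ← Matrix.mul_assoc, kb_mul, Matrix.smul_mul]
  rfl

theorem kb_mul_TK {J C : Finset Q} (hJ : J ⊆ C) (φ : Q → Bool → ℂ) (α β : ℂ) (v w : Q → Bool → ℂ) :
    kb J φ φ * TK C α β v w =
      TK C (α * prodIp J φ v) (β * prodIp J φ w) (merge J φ v) (merge J φ w) := by
  unfold TK
  rw [Matrix.mul_add, Matrix.mul_smul, Matrix.mul_smul, kb_mul_Kt hJ, kb_mul_Kt hJ, smul_smul, smul_smul]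

theorem merge_unit {J C : Finset Q} {φ v : Q → Bool → ℂ} (hφ : UnitOn J φ) (hv : UnitOn C v) :
    UnitOn C (merge J φ v) := by
  intro q hq
  by_cases hqJ : q ∈ J
  · simp only [merge, hqJ, if_true]
    exact hφ q hqJ
  · simp only [merge, hqJ, if_false]
    exact hv q hq

theorem prodIp_merge {J C : Finset Q} (hJ : J ⊆ C) {φ : Q → Bool → ℂ} (hφ : UnitOn J φ)
    (v w : Q → Bool → ℂ) : prodIp C (merge J φ v) (merge J φ w) = prodIp (C \ J) v w := by
  have hd : Disjoint J (C \ J) := Finset.disjoint_sdiff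
  have hu : J ∪ (C \ J) = C := Finset.union_sdiff_of_subset hJ
  conv_lhs => rw [← hu]
  rw [prodIp_union hd]
  have h1 : prodIp J (merge J φ v) (merge J φ w) = 1 := by
    rw [prodIp_congr (a' := φ) (b' := φ) (fun q hq => by simp [merge, hq]) (fun q hq => by simp [merge, hq])]
    exact prodIp_self hφ
  rw [h1, one_mul]
  refine prodIp_congr (fun q hq => ?_) (fun q hq => ?_)
  · have := (Finset.mem_sdiff.mp hq).2
    simp [merge, this]
  · have := (Finset.mem_sdiff.mp hq).2
    simp [merge, this]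

/-- The squared norm of a pinned two-term ket. -/
theorem norm_P_TK {J C : Finset Q} (hJ : J ⊆ C) {φ v w : Q → Bool → ℂ} (hφ : UnitOn J φ) (hv : UnitOn C v)
    (hw : UnitOn C w) (α β : ℂ) :
    ‖kb J φ φ * TK C α β v w‖ ^ 2 =
      lamb (α * prodIp J φ v) (β * prodIp J φ w) (prodIp (C \ J) v w) := by
  rw [kb_mul_TK hJ, TK_norm_sq (merge_unit hφ hv) (merge_unit hφ hw), prodIp_merge hJ hφ]

/-- The algebraic identity for the pinned amplitudes. -/
theorem lamb_refl_id (X S p β a : ℂ) :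
    lamb (1 * X) (-((2 : ℂ) * 1 * (β * (p * a))) * S) (star β * star a) =
      ‖X‖ ^ 2 + ‖β‖ ^ 2 * ‖a‖ ^ 2 * (‖X - (2 : ℂ) * p * S‖ ^ 2 - ‖X‖ ^ 2) := by
  unfold lamb
  simp only [Complex.sq_norm, Complex.normSq_apply, Complex.mul_re, Complex.mul_im, Complex.sub_re, Complex.sub_im,
    Complex.neg_re, Complex.neg_im, Complex.star_def, Complex.conj_re, Complex.conj_im, map_mul, Complex.one_re,
    Complex.one_im, Complex.re_ofNat, Complex.im_ofNat, map_one, Complex.conj_ofNat]
  ring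

namespace GCol

variable (g : GCol Q)

/-- The rest of the sites of a column. -/
theorem C_sdiff {J : Finset Q} (hJ : J ⊆ g.A) : g.C \ J = {g.i} ∪ (g.A \ J) := by
  ext q
  simp only [Finset.mem_sdiff, g.mem_C, Finset.mem_union, Finset.mem_singleton]
  constructor
  · rintro ⟨h1 | h1, h2⟩
    · exact Or.inl h1
    · exact Or.inr ⟨h1, h2⟩
  · rintro (h1 | ⟨h1, h2⟩)
    · refine ⟨Or.inl h1, fun h => g.hi ?_⟩
      rw [← h1]
      exact hJ h
    · exact ⟨Or.inr h1, h2⟩

theorem disj_sdiff (J : Finset Q) : Disjoint ({g.i} : Finset Q) (g.A \ J) := by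
  simp only [Finset.disjoint_singleton_left, Finset.mem_sdiff, not_and, not_not]
  exact fun h => absurd h g.hi

/-- The squared norm of a pinned output. -/
theorem norm_P_Ket (hf : g.f = 1) {J : Finset Q} (hJ : J ⊆ g.A) {φ : Q → Bool → ℂ} (hφ : UnitOn J φ)
    (b : Bool) :
    ‖kb J φ φ * g.Ket b‖ ^ 2 =
      ‖prodIp J φ g.psi‖ ^ 2 + ‖g.beta b‖ ^ 2 * ‖prodIp (g.A \ J) g.s g.psi‖ ^ 2 *
        (‖prodIp J φ g.psi - (2 : ℂ) * prodIp J g.s g.psi * prodIp J φ g.s‖ ^ 2 - ‖prodIp J φ g.psi‖ ^ 2) := by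
  unfold Ket GK
  rw [hf]
  have hJC : J ⊆ g.C := hJ.trans g.A_sub
  rw [norm_P_TK hJC hφ (g.vb_unit b) g.wv_unit]
  have e1 : prodIp J φ (g.vb b) = prodIp J φ g.psi :=
    prodIp_congr (fun q _ => rfl) (fun q hq => g.vb_A b (hJ hq))
  have e2 : prodIp J φ g.wv = prodIp J φ g.s :=
    prodIp_congr (fun q _ => rfl) (fun q hq => g.wv_A (hJ hq))
  have e3 : prodIp g.C g.wv (g.vb b) = g.beta b * (prodIp J g.s g.psi * prodIp (g.A \ J) g.s g.psi) := by
    rw [g.prodIp_wv_vb]
    congr 1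
    unfold aT
    rw [← prodIp_union Finset.disjoint_sdiff, Finset.union_sdiff_of_subset hJ]
  have e4 : prodIp (g.C \ J) (g.vb b) g.wv = star (g.beta b) * star (prodIp (g.A \ J) g.s g.psi) := by
    rw [g.C_sdiff hJ, prodIp_union (g.disj_sdiff J), prodIp_singleton, g.vb_i, g.wv_i]
    congr 1
    · unfold beta
      exact (ip_conj _ _).symm
    · rw [star_prodIp]
      exact prodIp_congr (fun q hq => g.vb_A b (Finset.mem_sdiff.mp hq).1)
        (fun q hq => g.wv_A (Finset.mem_sdiff.mp hq).1)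
  rw [e1, e2, e3, e4]
  exact lamb_refl_id _ _ _ _ _

/-- The column with its designated row. -/
noncomputable def mcol (ρ : Row Q) (Us : Finset Q) : MCol Q where
  C := g.C
  Gp := insert g.i (g.A ∩ ρ.sites)
  PU := (g.A \ ρ.sites) ∩ Us
  NS := (g.A \ ρ.sites) \ Us
  A0 := g.Ket false
  A1 := g.Ket true
  hA0 := g.Ket_ket false
  hA1 := g.Ket_ket true
  row := ρ
  hC := by
    ext q
    simp only [Finset.mem_union, Finset.mem_insert, Finset.mem_inter, Finset.mem_sdiff, g.mem_C]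
    tauto
  hd1 := by
    rw [Finset.disjoint_left]
    intro q h1 h2
    simp only [Finset.mem_insert, Finset.mem_inter, Finset.mem_sdiff] at h1 h2
    rcases h1 with rfl | h1
    · exact g.hi h2.1.1
    · exact h2.1.2 h1.2
  hd2 := by
    rw [Finset.disjoint_left]
    intro q h1 h2
    simp only [Finset.mem_insert, Finset.mem_inter, Finset.mem_sdiff] at h1 h2
    rcases h1 with rfl | h1
    · exact g.hi h2.1.1
    · exact h2.1.2 h1.2
  hd3 := by
    rw [Finset.disjoint_left]
    intro q h1 h2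
    simp only [Finset.mem_inter, Finset.mem_sdiff] at h1 h2
    exact h2.2 h1.2
  hrow := by
    rw [Finset.disjoint_left]
    intro q h1 h2
    simp only [Finset.mem_sdiff, g.mem_C, Finset.mem_insert, Finset.mem_inter, not_or, not_and] at h1
    rcases h1.1 with h3 | h3
    · exact h1.2.1 h3
    · exact h1.2.2 h3 h2

theorem mcol_tau (ρ : Row Q) (Us : Finset Q) : (g.mcol ρ Us).tau = g.tau := rfl

theorem mcol_C (ρ : Row Q) (Us : Finset Q) : (g.mcol ρ Us).C = g.C := rfl

theorem mcol_row (ρ : Row Q) (Us : Finset Q) : (g.mcol ρ Us).row = ρ := rfl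

theorem mcol_PU (ρ : Row Q) (Us : Finset Q) : (g.mcol ρ Us).PU = (g.A \ ρ.sites) ∩ Us := rfl

theorem mcol_NS (ρ : Row Q) (Us : Finset Q) : (g.mcol ρ Us).NS = (g.A \ ρ.sites) \ Us := rfl

theorem mcol_Gp (ρ : Row Q) (Us : Finset Q) : (g.mcol ρ Us).Gp = insert g.i (g.A ∩ ρ.sites) := rfl

/-- The pattern values of a column. -/
noncomputable def xv (J : Finset Q) (r : Q → Bool → ℂ) (y : Q → Bool) : ℝ :=
  ‖prodIp J (pinKet r y) g.psi‖ ^ 2

noncomputable def zv (J : Finset Q) (r : Q → Bool → ℂ) (y : Q → Bool) : ℝ :=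
  ‖prodIp J (pinKet r y) g.psi - (2 : ℂ) * prodIp J g.s g.psi * prodIp J (pinKet r y) g.s‖ ^ 2

theorem xv_nonneg (J : Finset Q) (r : Q → Bool → ℂ) (y : Q → Bool) : 0 ≤ g.xv J r y := by
  unfold xv; positivity

theorem zv_nonneg (J : Finset Q) (r : Q → Bool → ℂ) (y : Q → Bool) : 0 ≤ g.zv J r y := by
  unfold zv; positivity

/-- The bias of a literal. -/
noncomputable def zeta : ℝ := |‖g.beta false‖ ^ 2 - ‖g.beta true‖ ^ 2|

/-- The mass outside the pinned sites. -/
noncomputable def nu (J : Finset Q) : ℝ := ‖prodIp (g.A \ J) g.s g.psi‖ ^ 2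

theorem zeta_nonneg : 0 ≤ g.zeta := abs_nonneg _

theorem nu_nonneg (J : Finset Q) : 0 ≤ g.nu J := by
  unfold nu; positivity

theorem zeta_le_one : g.zeta ≤ 1 := by
  unfold zeta
  have h := g.beta_sum
  have h0 := sq_nonneg ‖g.beta false‖
  have h1 := sq_nonneg ‖g.beta true‖
  rw [abs_le]
  constructor <;> linarith

theorem nu_le_one (J : Finset Q) : g.nu J ≤ 1 := by
  unfold nu
  have h : ‖prodIp (g.A \ J) g.s g.psi‖ ≤ 1 :=
    norm_prodIp_le (fun q hq => g.hs q (Finset.mem_sdiff.mp hq).1)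
      (fun q hq => g.hpsi q (Finset.mem_sdiff.mp hq).1)
  have h0 := norm_nonneg (prodIp (g.A \ J) g.s g.psi)
  nlinarith

/-- The maximum over the two branches. -/
theorem max_branches {x z f0 f1 n : ℝ} (h : f0 + f1 = 1) :
    max (x + f0 * n * (z - x)) (x + f1 * n * (z - x)) =
      x + (1 / 2) * n * (z - x) + (1 / 2) * |f0 - f1| * |n| * |z - x| := by
  have e : ∀ u v : ℝ, max u v = (u + v + |u - v|) / 2 := by
    intro u v
    rcases le_total u v with h1 | h1
    · rw [max_eq_right h1, abs_of_nonpos (by linarith)]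
      ring
    · rw [max_eq_left h1, abs_of_nonneg (by linarith)]
      ring
  rw [e]
  have e2 : (x + f0 * n * (z - x)) - (x + f1 * n * (z - x)) = (f0 - f1) * (n * (z - x)) := by ring
  rw [e2, abs_mul, abs_mul]
  have e3 : f1 = 1 - f0 := by linarith
  rw [e3]
  ring

/-- The value of a column on a pattern. -/
theorem mcol_cval (hf : g.f = 1) (ρ : Row Q) (Us : Finset Q) {r : Q → Bool → ℂ}
    (hr : ∀ q, ip (r q) (r q) = 1) (y : Q → Bool) :
    (g.mcol ρ Us).cval r y = (1 / 2) * (g.xv ((g.A \ ρ.sites) ∩ Us) r y +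
      (1 / 2) * g.nu ((g.A \ ρ.sites) ∩ Us) * (g.zv ((g.A \ ρ.sites) ∩ Us) r y - g.xv ((g.A \ ρ.sites) ∩ Us) r y) +
      (1 / 2) * g.zeta * g.nu ((g.A \ ρ.sites) ∩ Us) *
        |g.zv ((g.A \ ρ.sites) ∩ Us) r y - g.xv ((g.A \ ρ.sites) ∩ Us) r y|) := by
  set J := (g.A \ ρ.sites) ∩ Us with hJ
  have hJA : J ⊆ g.A := fun q hq => (Finset.mem_sdiff.mp (Finset.mem_inter.mp hq).1).1
  have hφ : UnitOn J (pinKet r y) := pinKet_unit (fun q _ => hr q) y
  unfold MCol.cval MCol.P
  show (1 / 2) * max (‖kb J (pinKet r y) (pinKet r y) * g.Ket false‖ ^ 2)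
    (‖kb J (pinKet r y) (pinKet r y) * g.Ket true‖ ^ 2) = _
  rw [g.norm_P_Ket hf hJA hφ, g.norm_P_Ket hf hJA hφ]
  have e1 := max_branches (x := g.xv J r y) (z := g.zv J r y) (n := g.nu J) g.beta_sum
  rw [abs_of_nonneg (g.nu_nonneg J)] at e1
  unfold xv zv nu at e1
  rw [e1]
  unfold zeta xv zv nu
  rfl

/-- The weight of a column. -/
theorem mcol_beta (hf : g.f = 1) (ρ : Row Q) (Us : Finset Q) {r : Q → Bool → ℂ}
    (hr : ∀ q, ip (r q) (r q) = 1) :
    (g.mcol ρ Us).beta r = (1 / 2) * (1 + g.zeta * g.nu ((g.A \ ρ.sites) ∩ Us) *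
      (1 - WS ((g.A \ ρ.sites) ∩ Us) (fun y => min (g.xv ((g.A \ ρ.sites) ∩ Us) r y) (g.zv ((g.A \ ρ.sites) ∩ Us) r y)))) := by
  set J := (g.A \ ρ.sites) ∩ Us with hJ
  have hJA : J ⊆ g.A := fun q hq => (Finset.mem_sdiff.mp (Finset.mem_inter.mp hq).1).1
  have hpsi : UnitOn J g.psi := fun q hq => g.hpsi q (hJA hq)
  have hs : UnitOn J g.s := fun q hq => g.hs q (hJA hq)
  have hx : WS J (g.xv J r) = 1 := WS_norm_sq J hr hpsi
  have hz : WS J (g.zv J r) = 1 := WS_refl_one J hr hpsi hs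
  unfold MCol.beta
  show WS J ((g.mcol ρ Us).cval r) = _
  have h1 : (g.mcol ρ Us).cval r = fun y => (1 / 2) * (g.xv J r y +
      (1 / 2) * g.nu J * (g.zv J r y - g.xv J r y) +
      (1 / 2) * g.zeta * g.nu J * |g.zv J r y - g.xv J r y|) := by
    funext y
    exact g.mcol_cval hf ρ Us hr y
  rw [h1]
  have hab : ∀ y, |g.zv J r y - g.xv J r y| = g.zv J r y + g.xv J r y - 2 * min (g.xv J r y) (g.zv J r y) := by
    intro y
    rcases le_total (g.xv J r y) (g.zv J r y) with h2 | h2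
    · rw [abs_of_nonneg (by linarith), min_eq_left h2]
      ring
    · rw [abs_of_nonpos (by linarith), min_eq_right h2]
      ring
  simp only [hab]
  have h3 : ∀ y, (1 / 2) * (g.xv J r y + (1 / 2) * g.nu J * (g.zv J r y - g.xv J r y) +
      (1 / 2) * g.zeta * g.nu J * (g.zv J r y + g.xv J r y - 2 * min (g.xv J r y) (g.zv J r y))) =
      ((1 / 2) * (1 - (1 / 2) * g.nu J + (1 / 2) * g.zeta * g.nu J)) * g.xv J r y +
      (((1 / 2) * ((1 / 2) * g.nu J + (1 / 2) * g.zeta * g.nu J)) * g.zv J r y -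
        ((1 / 2) * g.zeta * g.nu J) * min (g.xv J r y) (g.zv J r y)) := by
    intro y
    ring
  simp only [h3]
  rw [WS_add, WS_sub, WS_real_mul_left, WS_real_mul_left, WS_real_mul_left, hx, hz]
  ring

/-- The dichotomy for a column. -/
theorem mcol_dichotomy (hf : g.f = 1) (ρ : Row Q) (Us : Finset Q) {r : Q → Bool → ℂ}
    (hr : ∀ q, ip (r q) (r q) = 1) {η : ℝ} (hη : 0 < η) (hη1 : η < 1) :
    (g.mcol ρ Us).beta r ≤ 1 - η / 2 ∨
      (1 - η < g.zeta ∧ 1 - η < g.nu ((g.A \ ρ.sites) ∩ Us) ∧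
        WS ((g.A \ ρ.sites) ∩ Us) (fun y => min (g.xv ((g.A \ ρ.sites) ∩ Us) r y) (g.zv ((g.A \ ρ.sites) ∩ Us) r y)) < η) := by
  set J := (g.A \ ρ.sites) ∩ Us with hJ
  have hJA : J ⊆ g.A := fun q hq => (Finset.mem_sdiff.mp (Finset.mem_inter.mp hq).1).1
  have hpsi : UnitOn J g.psi := fun q hq => g.hpsi q (hJA hq)
  have hx : WS J (g.xv J r) = 1 := WS_norm_sq J hr hpsi
  set m := WS J (fun y => min (g.xv J r y) (g.zv J r y)) with hm
  have hm0 : 0 ≤ m := WS_real_nonneg J (fun y => le_min (g.xv_nonneg J r y) (g.zv_nonneg J r y))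
  have hm1 : m ≤ 1 := by
    rw [← hx]
    exact WS_real_le J (fun y => min_le_left _ _)
  have hb := g.mcol_beta hf ρ Us hr
  rw [← hJ, ← hm] at hb
  have hz0 := g.zeta_nonneg
  have hz1 := g.zeta_le_one
  have hn0 := g.nu_nonneg J
  have hn1 := g.nu_le_one J
  by_cases h1 : 1 - η < g.zeta ∧ 1 - η < g.nu J ∧ m < η
  · exact Or.inr h1
  · left
    rw [hb]
    have hprod : g.zeta * g.nu J * (1 - m) ≤ 1 - η := by
      by_cases h2 : 1 - η < g.zeta
      · by_cases h3 : 1 - η < g.nu J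
        · have h4 : η ≤ m := by
            by_contra h5
            exact h1 ⟨h2, h3, not_le.mp h5⟩
          have h6 : g.zeta * g.nu J ≤ 1 := by nlinarith
          have h7 : 0 ≤ g.zeta * g.nu J := by positivity
          nlinarith
        · have h6 : g.nu J ≤ 1 - η := not_lt.mp h3
          have h7 : 0 ≤ 1 - m := by linarith
          calc g.zeta * g.nu J * (1 - m) ≤ 1 * (1 - η) * 1 := by gcongr; linarith
            _ = 1 - η := by ring
      · have h6 : g.zeta ≤ 1 - η := not_lt.mp h2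
        have h7 : 0 ≤ 1 - m := by linarith
        calc g.zeta * g.nu J * (1 - m) ≤ (1 - η) * 1 * 1 := by gcongr; linarith
          _ = 1 - η := by ring
    linarith

/-- The weight of a bare column. -/
theorem bare_beta (ρ : Row Q) (Us : Finset Q) (r : Q → Bool → ℂ) (hr : ∀ q, ip (r q) (r q) = 1) :
    (g.bare.mcol ρ Us).beta r = 1 / 2 := by
  have hPU : (g.bare.mcol ρ Us).PU = ∅ := by
    rw [mcol_PU]
    show ((∅ : Finset Q) \ ρ.sites) ∩ Us = ∅
    simp
  have hn : ∀ b, ‖g.bare.Ket b‖ = 1 := fun b => g.bare.Ket_norm b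
  unfold MCol.beta
  rw [hPU]
  have h1 : (g.bare.mcol ρ Us).cval r = fun _ => 1 / 2 := by
    funext y
    unfold MCol.cval MCol.P
    rw [hPU, kb_empty, Matrix.one_mul, Matrix.one_mul]
    show (1 / 2) * max (‖g.bare.Ket false‖ ^ 2) (‖g.bare.Ket true‖ ^ 2) = _
    rw [hn, hn]
    norm_num
  rw [h1]
  exact WS_empty_const _

end GCol

end ColBeta

end Vale.Agent.Lib.P368

/-!
Columns with almost all sites aligned are close to columns in exact form.
-/

set_option linter.unusedSectionVars false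
set_option linter.unusedSimpArgs false
set_option linter.unusedVariables false

namespace Vale.Agent.Lib.P368

open Matrix
open scoped Matrix.Norms.L2Operator ComplexConjugate ComplexOrder

section ColD

variable {Q : Type*} [Fintype Q] [DecidableEq Q]

theorem ip_smul_left (c : ℂ) (a b : Bool → ℂ) : ip (c • a) b = star c * ip a b := by
  simp only [ip, Pi.smul_apply, smul_eq_mul, star_mul', Fintype.sum_bool]
  ring

theorem ip_smul_right (c : ℂ) (a b : Bool → ℂ) : ip a (c • b) = c * ip a b := by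
  simp only [ip, Pi.smul_apply, smul_eq_mul, Fintype.sum_bool]
  ring

theorem ketbra_smul (c : ℂ) (a : Bool → ℂ) (h : c * star c = 1) :
    ketbra (c • a) (c • a) = ketbra a a := by
  ext i j
  simp only [ketbra, Pi.smul_apply, smul_eq_mul, star_mul']
  calc c * a i * (star c * star (a j)) = (c * star c) * (a i * star (a j)) := by ring
    _ = _ := by rw [h, one_mul]

/-- The phase of a complex number. -/
noncomputable def phase (m : ℂ) : ℂ := if m = 0 then 1 else m / (‖m‖ : ℂ)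

theorem phase_mul_star (m : ℂ) : phase m * star (phase m) = 1 := by
  unfold phase
  by_cases h : m = 0
  · simp [h]
  · rw [if_neg h, Complex.star_def, map_div₀, Complex.conj_ofReal]
    have h1 : (‖m‖ : ℂ) ≠ 0 := by
      simpa using h
    field_simp
    rw [Complex.mul_conj']

theorem star_phase_mul (m : ℂ) : star (phase m) * m = (‖m‖ : ℂ) := by
  unfold phase
  by_cases h : m = 0
  · simp [h]
  · rw [if_neg h, Complex.star_def, map_div₀, Complex.conj_ofReal]
    have h1 : (‖m‖ : ℂ) ≠ 0 := by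
      simpa using h
    field_simp
    rw [Complex.conj_mul']

/-- The bit of largest amplitude. -/
noncomputable def majBit (r u : Q → Bool → ℂ) (q : Q) : Bool := decide (al r u q false ≤ al r u q true)

theorem al_maj_sq (r u : Q → Bool → ℂ) (q : Q) (hr : ip (r q) (r q) = 1) (hu : ip (u q) (u q) = 1) :
    al r u q (majBit r u q) ^ 2 = 1 - min (al r u q false ^ 2) (al r u q true ^ 2) := by
  have h := al_sum r u q hr hu
  unfold majBit
  by_cases h1 : al r u q false ≤ al r u q true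
  · have h2 : al r u q false ^ 2 ≤ al r u q true ^ 2 :=
      pow_le_pow_left₀ (al_nonneg _ _ _ _) h1 2
    rw [decide_eq_true h1, min_eq_left h2]
    linarith
  · have h1' : al r u q true ≤ al r u q false := (not_le.mp h1).le
    have h2 : al r u q true ^ 2 ≤ al r u q false ^ 2 :=
      pow_le_pow_left₀ (al_nonneg _ _ _ _) h1' 2
    rw [decide_eq_false h1, min_eq_right h2]
    linarith

/-- The aligned approximation of a ket. -/
noncomputable def tilde (r u : Q → Bool → ℂ) (q : Q) : Bool → ℂ :=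
  phase (ip (wb r q (majBit r u q)) (u q)) • wb r q (majBit r u q)

theorem wb_unit {r : Q → Bool → ℂ} {q : Q} (hr : ip (r q) (r q) = 1) (b : Bool) :
    ip (wb r q b) (wb r q b) = 1 := by
  unfold wb
  cases b
  · simp [ip_perp_self, hr]
  · simp [hr]

theorem tilde_unit {r : Q → Bool → ℂ} (u : Q → Bool → ℂ) {q : Q} (hr : ip (r q) (r q) = 1) :
    ip (tilde r u q) (tilde r u q) = 1 := by
  unfold tilde
  rw [ip_smul_left, ip_smul_right, wb_unit hr, mul_one, mul_comm, phase_mul_star]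

theorem ip_tilde (r u : Q → Bool → ℂ) (q : Q) :
    ip (tilde r u q) (u q) = ((al r u q (majBit r u q) : ℝ) : ℂ) := by
  unfold tilde
  rw [ip_smul_left, star_phase_mul]
  rfl

theorem ketbra_tilde (r u : Q → Bool → ℂ) (q : Q) :
    ketbra (tilde r u q) (tilde r u q) = ketbra (r q) (r q) ∨
      ketbra (tilde r u q) (tilde r u q) = ketbra (perp (r q)) (perp (r q)) := by
  unfold tilde
  rw [ketbra_smul _ _ (phase_mul_star _)]
  unfold wb
  cases majBit r u q
  · right
    simp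
  · left
    simp

/-- Comparing overlaps with two kets. -/
theorem norm_prodIp_sub_le {C : Finset Q} {v v' w : Q → Bool → ℂ} (hw : UnitOn C w) :
    ‖prodIp C w v - prodIp C w v'‖ ≤ ‖kb C v eK - kb C v' eK‖ := by
  set D := kb C v eK - kb C v' eK with hD
  have e1 : (kb C w eK)ᴴ * D = (prodIp C w v - prodIp C w v') • kb C eK eK := by
    rw [hD, Matrix.mul_sub, kb_conjTranspose, kb_mul', kb_mul', sub_smul]
  have h2 : ‖(kb C w eK)ᴴ * D‖ ≤ ‖(kb C w eK)ᴴ‖ * ‖D‖ := Matrix.l2_opNorm_mul _ _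
  rw [Matrix.l2_opNorm_conjTranspose, Kt_norm hw, one_mul, e1, norm_smul,
    norm_kb_eq_one (eK_unit C), mul_one] at h2
  exact h2

theorem sqrt_le_of {x c : ℝ} (hc : 0 ≤ c) (h : x ≤ c ^ 2) : Real.sqrt x ≤ c := by
  rw [Real.sqrt_le_left hc]
  exact h

namespace GCol

variable (g : GCol Q)

/-- Replacing the reflection ket at the literal. -/
def setSi : GCol Q := { g with si := g.u, hsi := g.hu }

theorem setSi_C : g.setSi.C = g.C := rfl

theorem setSi_Ket_dist (hf : g.f = 1) (b : Bool) :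
    ‖g.Ket b - g.setSi.Ket b‖ ≤ 2 * ‖g.beta true‖ := by
  have hf' : g.setSi.f = 1 := hf
  have hvb : g.setSi.vb b = g.vb b := rfl
  unfold Ket
  rw [hf, hf', setSi_C, hvb]
  have hw := g.wv_unit
  have hw' : UnitOn g.C g.setSi.wv := g.setSi.wv_unit
  cases b
  · -- the literal with the reflection
    have hz : prodIp g.C g.wv g.setSi.wv = g.beta false := by
      rw [g.C_eq, prodIp_union g.disj, prodIp_singleton, g.wv_i]
      have e1 : g.setSi.wv g.i = g.u := g.setSi.wv_i
      rw [e1]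
      have e2 : prodIp g.A g.wv g.setSi.wv = 1 := by
        rw [prodIp_congr (a' := g.s) (b' := g.s) (fun q hq => g.wv_A hq) (fun q hq => g.setSi.wv_A hq)]
        exact prodIp_self g.hs
      rw [e2, mul_one]
      unfold beta
      rw [g.lit_false]
    have hx' : prodIp g.C g.setSi.wv (g.vb false) = g.aT := by
      have := g.setSi.prodIp_wv_vb false
      have e : g.setSi.beta false = 1 := by
        show ip g.u (g.setSi.lit false) = 1
        rw [g.setSi.lit_false]
        exact g.hu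
      rw [e, one_mul] at this
      exact this
    have hx : prodIp g.C g.wv (g.vb false) = g.beta false * g.aT := g.prodIp_wv_vb false
    have hn : ‖g.aT‖ ≤ 1 := g.norm_aT_le
    have h1 := GK_sub_w hw hw' hz hx hx' hn
    have hs := g.beta_sum
    have h2 : 1 - ‖g.beta false‖ ^ 2 = ‖g.beta true‖ ^ 2 := by linarith
    rw [h2, Real.sqrt_sq (norm_nonneg _)] at h1
    exact h1
  · have hx' : prodIp g.C g.setSi.wv (g.vb true) = 0 := by
      have := g.setSi.prodIp_wv_vb true
      have e : g.setSi.beta true = 0 := by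
        show ip g.u (g.setSi.lit true) = 0
        rw [g.setSi.lit_true]
        exact ip_perp_right _
      rw [e, zero_mul] at this
      exact this
    have h1 := GK_sub_w0 (v := g.vb true) (w' := g.setSi.wv) hw hx'
    refine h1.trans ?_
    rw [g.prodIp_wv_vb, norm_mul]
    have h3 := g.norm_aT_le
    have h4 := norm_nonneg (g.beta true)
    have h5 := norm_nonneg g.aT
    nlinarith

/-- Replacing the input ket on `A`. -/
def setPsi (ψ' : Q → Bool → ℂ) (hψ' : UnitOn g.A ψ') : GCol Q := { g with psi := ψ', hpsi := hψ' }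

theorem setPsi_Ket_dist (hf : g.f = 1) (ψ' : Q → Bool → ℂ) (hψ' : UnitOn g.A ψ') (b : Bool) :
    ‖g.Ket b - (g.setPsi ψ' hψ').Ket b‖ ≤ 3 * Real.sqrt (2 - 2 * (prodIp g.A g.psi ψ').re) := by
  have hf' : (g.setPsi ψ' hψ').f = 1 := hf
  have hC : (g.setPsi ψ' hψ').C = g.C := rfl
  have hw : (g.setPsi ψ' hψ').wv = g.wv := rfl
  unfold Ket
  rw [hf, hf', hC, hw]
  refine (GK_sub_v g.wv_unit).trans ?_
  have hv := g.vb_unit b
  have hv' : UnitOn g.C ((g.setPsi ψ' hψ').vb b) := (g.setPsi ψ' hψ').vb_unit b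
  have h1 := Kt_sub_sq hv hv'
  have h2 : prodIp g.C (g.vb b) ((g.setPsi ψ' hψ').vb b) = prodIp g.A g.psi ψ' := by
    rw [g.C_eq, prodIp_union g.disj, prodIp_singleton, g.vb_i]
    have e1 : (g.setPsi ψ' hψ').vb b g.i = g.lit b := (g.setPsi ψ' hψ').vb_i b
    rw [e1, g.lit_unit, one_mul]
    exact prodIp_congr (fun q hq => g.vb_A b hq) (fun q hq => (g.setPsi ψ' hψ').vb_A b hq)
  rw [h2] at h1
  rw [← h1, Real.sqrt_sq (norm_nonneg _)]

/-- The column as a column in exact form. -/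
def toDCol (ρ : Row Q) : DCol Q where
  i := g.i
  A := g.A
  hi := g.hi
  l := g.u
  hl := g.hu
  psi := g.psi
  s := g.s
  hpsi := g.hpsi
  hs := g.hs
  row := ρ

theorem toDCol_C (ρ : Row Q) : (g.toDCol ρ).C = g.C := rfl

theorem toDCol_aT (ρ : Row Q) : (g.toDCol ρ).aT = g.aT := rfl

theorem toDCol_lit (ρ : Row Q) (b : Bool) : (g.toDCol ρ).lit b = g.lit b := rfl

theorem toDCol_A0 (hf : g.f = 1) (hs : g.si = g.u) (ρ : Row Q) : g.Ket false = (g.toDCol ρ).A0 := by
  have e1 : prodIp g.C g.wv (g.vb false) = g.aT := by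
    rw [g.prodIp_wv_vb]
    have : g.beta false = 1 := by
      unfold beta
      rw [g.lit_false, hs]
      exact g.hu
    rw [this, one_mul]
  have hK1 : kb {g.i} (fun _ => g.lit false) eK * kb g.A g.psi eK = kb g.C (g.vb false) eK := by
    rw [kb_mul_disjoint g.disj, ← g.C_eq, merge_self]
    rfl
  have hK2 : kb {g.i} (fun _ => g.lit false) eK * kb g.A g.s eK = kb g.C g.wv eK := by
    rw [kb_mul_disjoint g.disj, ← g.C_eq, merge_self]
    refine kb_congr (fun q _ => ?_) (fun q _ => rfl)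
    simp only [wv, hs, g.lit_false]
  show _ = kb {g.i} (fun _ => g.lit false) eK * (kb g.A g.psi eK - ((2 : ℂ) * g.aT) • kb g.A g.s eK)
  rw [Matrix.mul_sub, Matrix.mul_smul, hK1, hK2]
  unfold Ket GK TK
  rw [hf, e1]
  simp [sub_eq_add_neg]

theorem toDCol_A1 (hf : g.f = 1) (hs : g.si = g.u) (ρ : Row Q) : g.Ket true = (g.toDCol ρ).A1 := by
  have e1 : prodIp g.C g.wv (g.vb true) = 0 := by
    rw [g.prodIp_wv_vb]
    have : g.beta true = 0 := by
      unfold beta
      rw [g.lit_true, hs]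
      exact ip_perp_right _
    rw [this, zero_mul]
  have hK1 : kb {g.i} (fun _ => g.lit true) eK * kb g.A g.psi eK = kb g.C (g.vb true) eK := by
    rw [kb_mul_disjoint g.disj, ← g.C_eq, merge_self]
    rfl
  show _ = kb {g.i} (fun _ => g.lit true) eK * kb g.A g.psi eK
  rw [hK1]
  unfold Ket GK TK
  rw [hf, e1]
  simp

/-- A column whose parts are almost aligned is close to a column in exact form. -/
theorem toD (hf : g.f = 1) {J : Finset Q} (hJ : J ⊆ g.A) {r : Q → Bool → ℂ}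
    (hr : ∀ q, ip (r q) (r q) = 1) (ρ : Row Q)
    (hb : ‖g.beta true‖ ^ 2 ≤ (1 / 10 ^ 24) / 2)
    (hν : 1 - 1 / 10 ^ 24 < g.nu J)
    (hmin : WS J (fun y => min (g.xv J r y) (g.zv J r y)) < 1 / 10 ^ 24) :
    ∃ (D : DCol Q) (D2 : Finset Q), D.i = g.i ∧ D.A = g.A \ D2 ∧ D2 ⊆ g.A ∧ D.A ⊆ J ∧ D.row = ρ ∧
      (∀ q ∈ D.A, ketbra (D.psi q) (D.psi q) = ketbra (r q) (r q) ∨
        ketbra (D.psi q) (D.psi q) = ketbra (perp (r q)) (perp (r q))) ∧
      D.a2 ≤ 0.5001 ∧
      ‖g.Ket false - D.A0 * kb D2 g.psi eK‖ ≤ 56 / 10 ^ 6 ∧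
      ‖g.Ket true - D.A1 * kb D2 g.psi eK‖ ≤ 56 / 10 ^ 6 := by
  set ψ := g.psi with hψdef
  set s := g.s with hsdef
  have hψJ : UnitOn J ψ := fun q hq => g.hpsi q (hJ hq)
  have hsJ : UnitOn J s := fun q hq => g.hs q (hJ hq)
  obtain ⟨e, he⟩ : ∃ e : ℝ, e = 1 / 10 ^ 12 := ⟨_, rfl⟩
  have hmin' : WS J (fun y => min (‖prodIp J (pinKet r y) ψ‖ ^ 2)
      (‖prodIp J (pinKet r y) ψ - ((2 : ℂ) * prodIp J s ψ) * prodIp J (pinKet r y) s‖ ^ 2)) ≤ e ^ 2 := by
    have : e ^ 2 = 1 / 10 ^ 24 := by rw [he]; norm_num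
    rw [this]
    exact hmin.le
  obtain ⟨hn1, hn2⟩ := np_main J hr hψJ hsJ (e := e) (by rw [he]; norm_num) (by rw [he]; norm_num) hmin'
  set p : Q → ℝ := fun q => min (al r ψ q false ^ 2) (al r ψ q true ^ 2) with hp
  set t : Q → ℝ := fun q => 1 - ‖ip (s q) (ψ q)‖ ^ 2 with ht
  have ht0 : ∀ q ∈ J, 0 ≤ t q := fun q hq => by
    have := norm_ip_sq_le_one (hsJ q hq) (hψJ q hq)
    simp only [ht]
    linarith
  have ht1 : ∀ q, t q ≤ 1 := fun q => by
    simp only [ht]
    nlinarith [sq_nonneg ‖ip (s q) (ψ q)‖]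
  have hp0 : ∀ q, 0 ≤ p q := fun q => le_min (sq_nonneg _) (sq_nonneg _)
  have hp1 : ∀ q ∈ J, p q ≤ 1 := fun q hq => by
    have h1 := al_sum r ψ q (hr q) (hψJ q hq)
    have h2 := sq_nonneg (al r ψ q true)
    exact (min_le_left _ _).trans (by linarith)
  set De := J.filter (fun q => t q < p q) with hDe
  set Al := J.filter (fun q => ¬ t q < p q) with hAl
  have hAlJ : Al ⊆ J := Finset.filter_subset _ _
  have hDeJ : De ⊆ J := Finset.filter_subset _ _
  have hsplit : J = Al ∪ De := by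
    ext q
    simp only [hAl, hDe, Finset.mem_union, Finset.mem_filter]
    tauto
  have hAlDe : Disjoint Al De := by
    rw [Finset.disjoint_left]
    intro q h1 h2
    exact (Finset.mem_filter.mp h1).2 (Finset.mem_filter.mp h2).2
  have hsum : ∑ q ∈ De, t q + ∑ q ∈ Al, p q ≤ 78 * e := by
    refine le_trans (le_of_eq ?_) hn2
    rw [← Finset.sum_filter_add_sum_filter_not J (fun q => t q < p q)]
    congr 1
    · refine Finset.sum_congr rfl (fun q hq => ?_)
      have := (Finset.mem_filter.mp hq).2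
      exact (min_eq_right this.le).symm
    · refine Finset.sum_congr rfl (fun q hq => ?_)
      have := not_lt.mp (Finset.mem_filter.mp hq).2
      exact (min_eq_left this).symm
  have hsDe0 : 0 ≤ ∑ q ∈ De, t q := Finset.sum_nonneg (fun q hq => ht0 q (hDeJ hq))
  have hsAl0 : 0 ≤ ∑ q ∈ Al, p q := Finset.sum_nonneg (fun q _ => hp0 q)
  have hsDe : ∑ q ∈ De, t q ≤ 78 * e := by linarith
  have hsAl : ∑ q ∈ Al, p q ≤ 78 * e := by linarith
  -- the detached sites
  set D2 := g.A \ Al with hD2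
  have hAlA : Al ⊆ g.A := hAlJ.trans hJ
  have hD2A : D2 ⊆ g.A := Finset.sdiff_subset
  have hAD2 : g.A \ D2 = Al := Finset.sdiff_sdiff_eq_self hAlA
  have hD2split : D2 = (g.A \ J) ∪ De := by
    ext q
    simp only [hD2, Finset.mem_sdiff, Finset.mem_union, hsplit]
    constructor
    · rintro ⟨h1, h2⟩
      by_cases h3 : q ∈ De
      · exact Or.inr h3
      · exact Or.inl ⟨h1, fun h4 => h4.elim h2 h3⟩
    · rintro (⟨h1, h2⟩ | h1)
      · exact ⟨h1, fun h3 => h2 (Or.inl h3)⟩
      · exact ⟨hJ (hDeJ h1), fun h3 => Finset.disjoint_left.mp hAlDe h3 h1⟩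
  have hdD2 : Disjoint (g.A \ J) De := by
    rw [Finset.disjoint_left]
    intro q h1 h2
    exact (Finset.mem_sdiff.mp h1).2 (hDeJ h2)
  have hprodDe : ‖prodIp De s ψ‖ ^ 2 = ∏ q ∈ De, (1 - t q) := by
    unfold prodIp
    rw [norm_prod, ← Finset.prod_pow]
    refine Finset.prod_congr rfl (fun q _ => ?_)
    simp only [ht]
    ring
  have hprodDe1 : 1 - 78 * e ≤ ‖prodIp De s ψ‖ ^ 2 := by
    rw [hprodDe]
    have := one_sub_sum_le_prod De t (fun q hq => ht0 q (hDeJ hq)) (fun q _ => ht1 q)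
    linarith
  have hprodDe2 : ‖prodIp De s ψ‖ ^ 2 ≤ 1 := by
    have h := norm_prodIp_le (S := De) (φ := s) (r := ψ) (fun q hq => hsJ q (hDeJ hq)) (fun q hq => hψJ q (hDeJ hq))
    have h0 := norm_nonneg (prodIp De s ψ)
    nlinarith
  have hz : 1 - ‖prodIp D2 s ψ‖ ^ 2 ≤ 1 / 10 ^ 24 + 78 * e := by
    rw [hD2split, prodIp_union hdD2, norm_mul, mul_pow]
    have hnu : g.nu J = ‖prodIp (g.A \ J) s ψ‖ ^ 2 := rfl
    rw [← hnu]
    have hn0 := g.nu_nonneg J
    have hn1' := g.nu_le_one J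
    have h1 : (1 - g.nu J) * ‖prodIp De s ψ‖ ^ 2 ≤ (1 / 10 ^ 24) * 1 :=
      mul_le_mul (by linarith) hprodDe2 (by positivity) (by positivity)
    nlinarith
  have hzero : 0 ≤ ‖prodIp D2 s ψ‖ ^ 2 := by positivity
  -- step 1
  set g1 := g.detach D2 with hg1
  have step1 : ∀ b, ‖g.Ket b - g1.Ket b * kb D2 ψ eK‖ ≤ 2 * Real.sqrt (1 - ‖prodIp D2 s ψ‖ ^ 2) :=
    fun b => g.detach_dist hf hD2A b
  have hg1f : g1.f = 1 := hf
  have hg1A : g1.A = Al := hAD2
  -- step 2
  set g2 := g1.setSi with hg2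
  have step2 : ∀ b, ‖g1.Ket b - g2.Ket b‖ ≤ 2 * ‖g1.beta true‖ := fun b => g1.setSi_Ket_dist hg1f b
  have hg1b : g1.beta true = g.beta true := rfl
  -- step 3
  have hψ' : UnitOn g2.A (tilde r ψ) := fun q _ => tilde_unit ψ (hr q)
  set g3 := g2.setPsi (tilde r ψ) hψ' with hg3
  have hg2f : g2.f = 1 := hf
  have hg2A : g2.A = Al := hg1A
  have step3 : ∀ b, ‖g2.Ket b - g3.Ket b‖ ≤ 3 * Real.sqrt (2 - 2 * (prodIp g2.A g2.psi (tilde r ψ)).re) :=
    fun b => g2.setPsi_Ket_dist hg2f _ hψ' b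
  -- the real overlap
  set P : ℝ := ∏ q ∈ Al, al r ψ q (majBit r ψ q) with hP
  have hAlψ : ∀ q ∈ Al, ip (ψ q) (ψ q) = 1 := fun q hq => hψJ q (hAlJ hq)
  have hP0 : 0 ≤ P := Finset.prod_nonneg (fun q _ => al_nonneg _ _ _ _)
  have hal1 : ∀ q ∈ Al, al r ψ q (majBit r ψ q) ≤ 1 := by
    intro q hq
    have h1 := al_maj_sq r ψ q (hr q) (hAlψ q hq)
    have h2 := hp0 q
    have h3 := al_nonneg r ψ q (majBit r ψ q)
    have h4 : al r ψ q (majBit r ψ q) ^ 2 ≤ 1 := by
      rw [h1]
      have : 0 ≤ min (al r ψ q false ^ 2) (al r ψ q true ^ 2) := h2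
      linarith
    nlinarith
  have hP1 : P ≤ 1 := Finset.prod_le_one (fun q _ => al_nonneg _ _ _ _) hal1
  have hP2 : P ^ 2 = ∏ q ∈ Al, (1 - p q) := by
    rw [hP, ← Finset.prod_pow]
    exact Finset.prod_congr rfl (fun q hq => al_maj_sq r ψ q (hr q) (hAlψ q hq))
  have hPlow : 1 - 78 * e ≤ P ^ 2 := by
    rw [hP2]
    have := one_sub_sum_le_prod Al p (fun q _ => hp0 q) (fun q hq => hp1 q (hAlJ hq))
    linarith
  have hPlow2 : 2 - 2 * P ≤ 156 * e := by nlinarith
  have hov1 : prodIp Al (tilde r ψ) ψ = (P : ℂ) := by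
    unfold prodIp
    rw [hP]
    push_cast
    exact Finset.prod_congr rfl (fun q _ => ip_tilde r ψ q)
  have hov2 : prodIp Al ψ (tilde r ψ) = (P : ℂ) := by
    rw [← star_prodIp, hov1]
    simp
  have hsq3 : Real.sqrt (2 - 2 * P) ≤ 125 / 10 ^ 7 := by
    apply sqrt_le_of (by norm_num)
    refine hPlow2.trans ?_
    rw [he]
    norm_num
  have hg2ψ : g2.psi = ψ := rfl
  have step3' : ∀ b, ‖g2.Ket b - g3.Ket b‖ ≤ 3 * (125 / 10 ^ 7) := by
    intro b
    refine (step3 b).trans ?_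
    rw [hg2A, hg2ψ, hov2, Complex.ofReal_re]
    gcongr
  have step2' : ∀ b, ‖g1.Ket b - g2.Ket b‖ ≤ 2 * (71 / 10 ^ 14) := by
    intro b
    refine (step2 b).trans ?_
    rw [hg1b]
    have : ‖g.beta true‖ ≤ 71 / 10 ^ 14 := by
      have h1 := norm_nonneg (g.beta true)
      refine abs_le_of_sq_le_sq' ?_ (by norm_num) |>.2
      refine hb.trans ?_
      norm_num
    linarith
  have step1' : ∀ b, ‖g.Ket b - g1.Ket b * kb D2 ψ eK‖ ≤ 2 * (89 / 10 ^ 7) := by
    intro b
    refine (step1 b).trans ?_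
    have : Real.sqrt (1 - ‖prodIp D2 s ψ‖ ^ 2) ≤ 89 / 10 ^ 7 := by
      apply sqrt_le_of (by norm_num)
      refine hz.trans ?_
      rw [he]
      norm_num
    linarith
  -- the column in exact form
  set D := g3.toDCol ρ with hD
  have hDA : D.A = Al := hg2A
  have hKn : ‖kb D2 ψ eK‖ = 1 := Kt_norm (fun q hq => g.hpsi q (hD2A hq))
  have hs3 : g3.si = g3.u := rfl
  have hg3f : g3.f = 1 := hf
  have dist : ∀ b, ‖g.Ket b - g3.Ket b * kb D2 ψ eK‖ ≤ 56 / 10 ^ 6 := by
    intro b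
    have e1 : g.Ket b - g3.Ket b * kb D2 ψ eK = (g.Ket b - g1.Ket b * kb D2 ψ eK) +
        ((g1.Ket b - g2.Ket b) + (g2.Ket b - g3.Ket b)) * kb D2 ψ eK := by
      simp only [Matrix.add_mul, Matrix.sub_mul]
      abel
    rw [e1]
    refine (norm_add_le _ _).trans ?_
    have e2 : ‖((g1.Ket b - g2.Ket b) + (g2.Ket b - g3.Ket b)) * kb D2 ψ eK‖ ≤
        ‖(g1.Ket b - g2.Ket b) + (g2.Ket b - g3.Ket b)‖ * ‖kb D2 ψ eK‖ := Matrix.l2_opNorm_mul _ _
    rw [hKn, mul_one] at e2
    have e3 := norm_add_le (g1.Ket b - g2.Ket b) (g2.Ket b - g3.Ket b)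
    have e4 := step1' b
    have e5 := step2' b
    have e6 := step3' b
    have e7 : (2 : ℝ) * (89 / 10 ^ 7) + (2 * (71 / 10 ^ 14) + 3 * (125 / 10 ^ 7)) ≤ 56 / 10 ^ 6 := by norm_num
    linarith
  refine ⟨D, D2, rfl, ?_, hD2A, ?_, rfl, ?_, ?_, ?_, ?_⟩
  · rw [hDA, hAD2]
  · rw [hDA]
    exact hAlJ
  · intro q _
    exact ketbra_tilde r ψ q
  · -- the overlap of the exact column
    have hsA : D.s = s := rfl
    have hψA : D.psi = tilde r ψ := rfl
    have hea : D.aT = prodIp Al s (tilde r ψ) := by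
      show prodIp D.A D.s D.psi = _
      rw [hDA]
      rfl
    have hdist : ‖prodIp Al s ψ - prodIp Al s (tilde r ψ)‖ ≤ 125 / 10 ^ 7 := by
      refine (norm_prodIp_sub_le (fun q hq => hsJ q (hAlJ hq))).trans ?_
      have h1 := Kt_sub_sq (C := Al) (v := ψ) (v' := tilde r ψ) hAlψ (fun q _ => tilde_unit ψ (hr q))
      rw [hov2, Complex.ofReal_re] at h1
      rw [← Real.sqrt_sq (norm_nonneg (kb Al ψ eK - kb Al (tilde r ψ) eK)), h1]
      exact hsq3
    have hsplit2 : prodIp J s ψ = prodIp Al s ψ * prodIp De s ψ := by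
      rw [hsplit, prodIp_union hAlDe]
    have hx : ‖prodIp J s ψ‖ ^ 2 = ‖prodIp Al s ψ‖ ^ 2 * ‖prodIp De s ψ‖ ^ 2 := by
      rw [hsplit2, norm_mul, mul_pow]
    have hn1' := (abs_le.mp hn1).1
    have hxx : ‖prodIp Al s ψ‖ ≤ 70712 / 100000 := by
      have h1 : ‖prodIp Al s ψ‖ ^ 2 * (1 - 78 * e) ≤ ‖prodIp Al s ψ‖ ^ 2 * ‖prodIp De s ψ‖ ^ 2 := by
        gcongr
      have h2 : ‖prodIp Al s ψ‖ ^ 2 * (1 - 78 * e) ≤ (1 + (3 / 2) * e) / 2 := by
        rw [← hx] at h1
        linarith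
      have h3 : ‖prodIp Al s ψ‖ ^ 2 ≤ (70712 / 100000) ^ 2 := by
        rw [he] at h2
        norm_num at h2 ⊢
        nlinarith [sq_nonneg ‖prodIp Al s ψ‖]
      exact abs_le_of_sq_le_sq' h3 (by norm_num) |>.2
    have hy : ‖prodIp Al s (tilde r ψ)‖ ≤ 70714 / 100000 := by
      have h1 : ‖prodIp Al s (tilde r ψ)‖ ≤ ‖prodIp Al s ψ‖ + ‖prodIp Al s ψ - prodIp Al s (tilde r ψ)‖ := by
        have := norm_sub_norm_le (prodIp Al s (tilde r ψ)) (prodIp Al s ψ)
        rw [norm_sub_rev] at this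
        linarith
      have h2 : (125 : ℝ) / 10 ^ 7 ≤ 2 / 100000 := by norm_num
      linarith
    show ‖D.aT‖ ^ 2 ≤ _
    rw [hea]
    have h0 := norm_nonneg (prodIp Al s (tilde r ψ))
    calc ‖prodIp Al s (tilde r ψ)‖ ^ 2 ≤ (70714 / 100000) ^ 2 := pow_le_pow_left₀ h0 hy 2
      _ ≤ 0.5001 := by norm_num
  · rw [← g3.toDCol_A0 hg3f hs3 ρ]
    exact dist false
  · rw [← g3.toDCol_A1 hg3f hs3 ρ]
    exact dist true


end GCol

end ColD

end Vale.Agent.Lib.P368

/-!
Classification of columns.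
-/

set_option linter.unusedSectionVars false
set_option linter.unusedSimpArgs false
set_option linter.unusedVariables false

namespace Vale.Agent.Lib.P368

open Matrix
open scoped Matrix.Norms.L2Operator ComplexConjugate ComplexOrder

section ColClass

variable {Q : Type*} [Fintype Q] [DecidableEq Q]

theorem IsKet.mul_Kt {C₁ Det : Finset Q} (hd : Disjoint C₁ Det) {X : MM Q} (hX : IsKet C₁ X)
    (ψ : Q → Bool → ℂ) : IsKet (C₁ ∪ Det) (X * kb Det ψ eK) := by
  refine ⟨mul_mem_spanOn (spanOn_mono Finset.subset_union_left hX.1)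
    (kb_mem_spanOn Finset.subset_union_right _ _), ?_⟩
  have e1 : (kb (C₁ ∪ Det) eK eK : MM Q) = kb C₁ eK eK * kb Det eK eK := by
    rw [kb_mul_disjoint hd, merge_self]
  have e2 : kb Det ψ eK * kb Det eK eK = kb Det ψ eK := by
    rw [kb_mul, Finset.prod_congr rfl (eK_unit Det)]
    simp
  have e3 : kb Det ψ eK * kb C₁ eK eK = kb C₁ eK eK * kb Det ψ eK :=
    (kb_comm_disjoint hd _ _ _ _).symm
  rw [e1]
  calc X * kb Det ψ eK * (kb C₁ eK eK * kb Det eK eK)
      = X * (kb Det ψ eK * kb C₁ eK eK) * kb Det eK eK := by simp only [Matrix.mul_assoc]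
    _ = (X * kb C₁ eK eK) * (kb Det ψ eK * kb Det eK eK) := by rw [e3]; simp only [Matrix.mul_assoc]
    _ = _ := by rw [hX.2, e2]

theorem mul_Kt_mul_star {C₁ Det : Finset Q} (hd : Disjoint C₁ Det) {X : MM Q} (hX : IsKet C₁ X)
    {ψ : Q → Bool → ℂ} : (X * kb Det ψ eK) * (X * kb Det ψ eK)ᴴ = X * Xᴴ * kb Det ψ ψ := by
  rw [conjTranspose_mul, kb_conjTranspose]
  have e1 : kb Det ψ eK * kb Det eK ψ = kb Det ψ ψ := by
    rw [kb_mul, Finset.prod_congr rfl (eK_unit Det)]
    simp
  have e2 : kb Det ψ ψ * Xᴴ = Xᴴ * kb Det ψ ψ :=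
    commute_spanOn hd.symm (kb_mem_spanOn (Finset.Subset.refl _) _ _) (conjTranspose_mem_spanOn hX.1)
  calc X * kb Det ψ eK * (kb Det eK ψ * Xᴴ)
      = X * (kb Det ψ eK * kb Det eK ψ) * Xᴴ := by simp only [Matrix.mul_assoc]
    _ = X * (kb Det ψ ψ * Xᴴ) := by rw [e1]; simp only [Matrix.mul_assoc]
    _ = _ := by rw [e2]; simp only [Matrix.mul_assoc]

/-- A decomposition from approximations by kets times a product ket. -/
theorem dec_prod {C₁ Det : Finset Q} (hd : Disjoint C₁ Det) {ψ : Q → Bool → ℂ} (hψ : UnitOn Det ψ)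
    {A0 A1 X0 X1 : MM Q} {δ : ℝ} (hδ : 0 < δ) (h0 : IsKet (C₁ ∪ Det) A0) (h1 : IsKet (C₁ ∪ Det) A1)
    (n0 : ‖A0‖ ≤ 1) (n1 : ‖A1‖ ≤ 1) (k0 : IsKet C₁ X0) (k1 : IsKet C₁ X1) (m0 : ‖X0‖ ≤ 1) (m1 : ‖X1‖ ≤ 1)
    (d0 : ‖A0 - X0 * kb Det ψ eK‖ ≤ δ) (d1 : ‖A1 - X1 * kb Det ψ eK‖ ≤ δ) :
    Dec (C₁ ∪ Det) ((1 / 2 : ℂ) • (A0 * A0ᴴ - A1 * A1ᴴ))
      (((1 / 2 : ℂ) • (X0 * X0ᴴ - X1 * X1ᴴ)) * kb Det ψ ψ) (4 * δ) := by
  have hK : ‖kb Det ψ eK‖ = 1 := Kt_norm hψ
  have hnorm : ∀ X : MM Q, ‖X‖ ≤ 1 → ‖X * kb Det ψ eK‖ ≤ 1 := by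
    intro X hX
    calc ‖X * kb Det ψ eK‖ ≤ ‖X‖ * ‖kb Det ψ eK‖ := Matrix.l2_opNorm_mul _ _
      _ ≤ 1 := by rw [hK, mul_one]; exact hX
  have := dec_of_approx hδ h0 h1 (k0.mul_Kt hd ψ) (k1.mul_Kt hd ψ) n0 n1 (hnorm _ m0) (hnorm _ m1) d0 d1
  rw [mul_Kt_mul_star hd k0, mul_Kt_mul_star hd k1] at this
  have e : (1 / 2 : ℂ) • (X0 * X0ᴴ * kb Det ψ ψ - X1 * X1ᴴ * kb Det ψ ψ) =
      ((1 / 2 : ℂ) • (X0 * X0ᴴ - X1 * X1ᴴ)) * kb Det ψ ψ := by
    rw [Matrix.smul_mul, Matrix.sub_mul]
  rwa [e] at this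

/-- The constant of the classification. -/
noncomputable def theta0 : ℝ := 1 - (1 / 10 ^ 24) / 4

theorem theta0_pos : 0 < theta0 := by
  unfold theta0; norm_num

theorem theta0_lt : theta0 < 1 := by
  unfold theta0; norm_num

/-- The defect of a site in a column. -/
noncomputable def GCol.tq (g : GCol Q) (q : Q) : ℝ := 1 - ‖ip (g.s q) (g.psi q)‖ ^ 2

theorem GCol.tq_nonneg (g : GCol Q) {q : Q} (hq : q ∈ g.A) : 0 ≤ g.tq q := by
  unfold GCol.tq
  linarith [norm_ip_sq_le_one (g.hs q hq) (g.hpsi q hq)]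

theorem GCol.tq_le (g : GCol Q) (q : Q) : g.tq q ≤ 1 := by
  unfold GCol.tq
  nlinarith [sq_nonneg ‖ip (g.s q) (g.psi q)‖]

theorem GCol.norm_prodIp_sq (g : GCol Q) (D : Finset Q) :
    ‖prodIp D g.s g.psi‖ ^ 2 = ∏ q ∈ D, (1 - g.tq q) := by
  unfold prodIp GCol.tq
  rw [norm_prod, ← Finset.prod_pow]
  refine Finset.prod_congr rfl (fun q _ => ?_)
  ring

/-- The class of columns handled by the first estimate. -/
def ClassM (g : GCol Q) (ρ : Row Q) (Us Dh : Finset Q) (r : Q → Bool → ℂ) : Prop :=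
  ∃ (g' : GCol Q) (Det : Finset Q) (σ : ℂ) (d : ℝ), g'.i = g.i ∧ g'.A = g.A \ Det ∧ Det ⊆ g.A ∧
    Disjoint g'.A Dh ∧ ‖σ‖ = 1 ∧
    Dec g.C g.tau (σ • ((g'.mcol ρ Us).tau * kb Det g.psi g.psi)) d ∧
    (g'.mcol ρ Us).beta r + d ≤ theta0

/-- The class of columns handled by the second estimate. -/
def ClassD (g : GCol Q) (ρ : Row Q) (Us Dh : Finset Q) (r : Q → Bool → ℂ) : Prop :=
  ∃ (D : DCol Q) (Det : Finset Q) (σ : ℂ) (d : ℝ), D.i = g.i ∧ D.A = g.A \ Det ∧ Det ⊆ g.A ∧
    Disjoint D.A Dh ∧ D.A ⊆ Us ∧ Disjoint D.A ρ.sites ∧ D.row = ρ ∧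
    (∀ q ∈ D.A, ketbra (D.psi q) (D.psi q) = ketbra (r q) (r q) ∨
        ketbra (D.psi q) (D.psi q) = ketbra (perp (r q)) (perp (r q))) ∧
    D.a2 ≤ 0.5001 ∧ ‖σ‖ = 1 ∧
    Dec g.C g.tau (σ • (D.tau * kb Det g.psi g.psi)) d ∧
    0.99 + d ≤ theta0

namespace GCol

variable (g : GCol Q)

theorem detach_disj (D : Finset Q) (hD : D ⊆ g.A) : Disjoint (g.detach D).C D := by
  rw [Finset.disjoint_left]
  intro q hq hqD
  rcases (g.detach D).mem_C.mp hq with h1 | h1
  · exact g.hi (by rw [← show q = g.i from h1]; exact hD hqD)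
  · exact (Finset.mem_sdiff.mp h1).2 hqD

theorem detach_union (D : Finset Q) (hD : D ⊆ g.A) : (g.detach D).C ∪ D = g.C := by
  ext q
  simp only [Finset.mem_union, (g.detach D).mem_C, g.mem_C]
  constructor
  · rintro ((h | h) | h)
    · exact Or.inl h
    · exact Or.inr (Finset.mem_sdiff.mp h).1
    · exact Or.inr (hD h)
  · rintro (h | h)
    · exact Or.inl (Or.inl h)
    · by_cases h2 : q ∈ D
      · exact Or.inr h2
      · exact Or.inl (Or.inr (Finset.mem_sdiff.mpr ⟨h, h2⟩))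

theorem bare_mul (b : Bool) : g.bare.Ket b * kb g.A g.psi eK = kb g.C (g.vb b) eK := by
  have h1 : g.bare.Ket b = kb {g.i} (fun _ => g.lit b) eK := by
    show GK ((insert g.i ∅ : Finset Q)) 0 _ _ = _
    rw [GK_zero]
    refine kb_congr (fun q hq => ?_) (fun q hq => rfl)
    have : q = g.i := by simpa using hq
    subst this
    simp [vb, merge, lit, bare]
  rw [h1, kb_mul_disjoint g.disj, g.C_eq]
  have e2 : merge {g.i} (eK : Q → Bool → ℂ) eK = eK := merge_self _ _
  rw [e2]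
  rfl

/-- Columns with no reflection or with small overlap are of the first class. -/
theorem class_small (ρ : Row Q) (Us Dh : Finset Q) (r : Q → Bool → ℂ) (hr : ∀ q, ip (r q) (r q) = 1)
    (h : g.f = 0 ∨ ‖g.aT‖ < 1 / 100) : ClassM g ρ Us Dh r := by
  have hdist : ∀ b, ‖g.Ket b - g.bare.Ket b * kb g.A g.psi eK‖ ≤ 2 / 100 := by
    intro b
    rcases h with h | h
    · rw [g.bare_mul]
      unfold Ket
      rw [h, GK_zero, sub_self, norm_zero]
      norm_num
    · rcases g.hf with h0 | h1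
      · rw [g.bare_mul]
        unfold Ket
        rw [h0, GK_zero, sub_self, norm_zero]
        norm_num
      · refine (g.bare_dist b h1).trans ?_
        linarith
  have hd : Disjoint g.bare.C g.A := by
    show Disjoint (insert g.i ∅) g.A
    simpa using g.hi
  have hu : g.bare.C ∪ g.A = g.C := by
    show insert g.i ∅ ∪ g.A = _
    rw [g.C_eq]
    rfl
  have hdec := dec_prod hd g.hpsi (δ := 2 / 100) (by norm_num)
    (A0 := g.Ket false) (A1 := g.Ket true) (X0 := g.bare.Ket false) (X1 := g.bare.Ket true)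
    (by rw [hu]; exact g.Ket_ket false) (by rw [hu]; exact g.Ket_ket true)
    (g.Ket_norm false).le (g.Ket_norm true).le (g.bare.Ket_ket false) (g.bare.Ket_ket true)
    (g.bare.Ket_norm false).le (g.bare.Ket_norm true).le (hdist false) (hdist true)
  rw [hu] at hdec
  refine ⟨g.bare, g.A, 1, 4 * (2 / 100), rfl, ?_, Finset.Subset.refl _, ?_, by simp, ?_, ?_⟩
  · show (∅ : Finset Q) = _
    simp
  · show Disjoint ∅ Dh
    simp
  · rw [one_smul]
    exact hdec
  · rw [g.bare_beta ρ Us r hr]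
    unfold theta0
    norm_num

/-- The literal with the two kets exchanged. -/
def swap : GCol Q := { g with u := perp g.u, hu := by rw [ip_perp_self]; exact g.hu }

theorem swap_lit_false : g.swap.lit false = g.lit true := by
  rw [g.swap.lit_false, g.lit_true]
  rfl

theorem perp_perp (a : Bool → ℂ) : perp (perp a) = -a := by
  funext b
  cases b <;> simp [perp]

theorem swap_lit_true : g.swap.lit true = - g.lit false := by
  rw [g.swap.lit_true, g.lit_false]
  exact perp_perp _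

theorem swap_Ket_false : g.swap.Ket false = g.Ket true := by
  have hC : g.swap.C = g.C := rfl
  have hw : g.swap.wv = g.wv := rfl
  have hf : g.swap.f = g.f := rfl
  have hv : g.swap.vb false = g.vb true := by
    unfold vb
    rw [g.swap_lit_false]
    rfl
  unfold Ket
  rw [hC, hw, hf, hv]

theorem kb_merge_neg (C' : Finset Q) (i : Q) (hi : i ∈ C') (a : Bool → ℂ) (ψ : Q → Bool → ℂ) :
    kb C' (merge {i} (fun _ => -a) ψ) eK = - kb C' (merge {i} (fun _ => a) ψ) eK := by
  unfold kb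
  have h : ∀ q, (if q ∈ C' then ketbra (merge {i} (fun _ => -a) ψ q) (eK q) else (1 : Matrix Bool Bool ℂ)) =
      (if q = i then (-1 : ℂ) else 1) • (if q ∈ C' then ketbra (merge {i} (fun _ => a) ψ q) (eK q) else 1) := by
    intro q
    by_cases hq : q = i
    · subst hq
      simp only [hi, if_true, merge, Finset.mem_singleton]
      ext s t
      simp [ketbra]
    · simp only [hq, if_false, one_smul, merge, Finset.mem_singleton]
  rw [tensorMat_congr h, tensorMat_smul]
  have : ∏ q, (if q = i then (-1 : ℂ) else 1) = -1 := by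
    rw [Finset.prod_ite_eq' Finset.univ i (fun _ => (-1 : ℂ))]
    simp
  rw [this]
  simp

theorem swap_Ket_true : g.swap.Ket true = - g.Ket false := by
  have hC : g.swap.C = g.C := rfl
  have hw : g.swap.wv = g.wv := rfl
  have hf : g.swap.f = g.f := rfl
  have hv : g.swap.vb true = merge {g.i} (fun _ => - g.lit false) g.psi := by
    unfold vb
    rw [g.swap_lit_true]
    rfl
  unfold Ket GK TK
  rw [hC, hw, hf, hv]
  have e1 : g.vb false = merge {g.i} (fun _ => g.lit false) g.psi := rfl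
  rw [e1, kb_merge_neg g.C g.i g.i_mem]
  have e2 : prodIp g.C g.wv (merge {g.i} (fun _ => - g.lit false) g.psi) =
      - prodIp g.C g.wv (merge {g.i} (fun _ => g.lit false) g.psi) := by
    rw [g.C_eq, prodIp_union g.disj, prodIp_union g.disj, prodIp_singleton, prodIp_singleton]
    have e3 : prodIp g.A g.wv (merge {g.i} (fun _ => - g.lit false) g.psi) =
        prodIp g.A g.wv (merge {g.i} (fun _ => g.lit false) g.psi) := by
      refine prodIp_congr (fun q _ => rfl) (fun q hq => ?_)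
      have := g.ne_of_mem hq
      simp [merge, this]
    rw [e3]
    have e4 : ip (g.wv g.i) (merge {g.i} (fun _ => - g.lit false) g.psi g.i) =
        - ip (g.wv g.i) (merge {g.i} (fun _ => g.lit false) g.psi g.i) := by
      simp [merge, ip]
    rw [e4]
    ring
  rw [e2]
  simp only [mul_neg, neg_mul, neg_smul, smul_neg, neg_neg, smul_smul, mul_one, one_smul]
  abel

theorem swap_tau : g.swap.tau = - g.tau := by
  unfold tau
  rw [g.swap_Ket_false, g.swap_Ket_true, conjTranspose_neg]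
  simp only [Matrix.neg_mul, Matrix.mul_neg, neg_neg, ← smul_neg, neg_sub]

theorem swap_beta_false : g.swap.beta false = g.beta true := by
  unfold beta
  rw [g.swap_lit_false]
  rfl

theorem swap_beta_true : ‖g.swap.beta true‖ = ‖g.beta false‖ := by
  have e : g.swap.beta true = - g.beta false := by
    unfold beta
    rw [g.swap_lit_true]
    show ip g.si (- g.lit false) = _
    simp [ip]
  rw [e, norm_neg]

/-- Columns in exact form as general columns. -/
def _root_.Vale.Agent.Lib.P368.DCol.toG (D : DCol Q) : GCol Q where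
  i := D.i
  A := D.A
  hi := D.hi
  u := D.l
  hu := D.hl
  si := D.l
  hsi := D.hl
  psi := D.psi
  s := D.s
  hpsi := D.hpsi
  hs := D.hs
  f := 1
  hf := Or.inr rfl

theorem _root_.Vale.Agent.Lib.P368.DCol.A0_norm (D : DCol Q) : ‖D.A0‖ ≤ 1 := by
  have h := D.toG.toDCol_A0 rfl rfl D.row
  have e : D.toG.toDCol D.row = D := rfl
  rw [e] at h
  rw [← h]
  exact (D.toG.Ket_norm false).le

theorem _root_.Vale.Agent.Lib.P368.DCol.A1_norm (D : DCol Q) : ‖D.A1‖ ≤ 1 := by
  have h := D.toG.toDCol_A1 rfl rfl D.row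
  have e : D.toG.toDCol D.row = D := rfl
  rw [e] at h
  rw [← h]
  exact (D.toG.Ket_norm true).le

theorem class_large_aux (hf : g.f = 1) (ρ : Row Q) (Us Dh : Finset Q) {r : Q → Bool → ℂ}
    (hr : ∀ q, ip (r q) (r q) = 1) (hDh : Dh ⊆ g.A)
    (hμ : ∑ q ∈ Dh, g.tq q ≤ ((1 / 10 ^ 24) / 32) ^ 2)
    (hb : ‖g.beta true‖ ^ 2 ≤ ‖g.beta false‖ ^ 2) : ClassM g ρ Us Dh r ∨ ClassD g ρ Us Dh r := by
  set ψ := g.psi with hψdef
  set s := g.s with hsdef
  set g1 := g.detach Dh with hg1
  have hψh : UnitOn Dh ψ := fun q hq => g.hpsi q (hDh hq)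
  have hKh : ‖kb Dh ψ eK‖ = 1 := Kt_norm hψh
  have hf1 : g1.f = 1 := hf
  have hδ : ∀ b, ‖g.Ket b - g1.Ket b * kb Dh ψ eK‖ ≤ (1 / 10 ^ 24) / 16 := by
    intro b
    refine (g.detach_dist hf hDh b).trans ?_
    have h1 : 1 - ‖prodIp Dh s ψ‖ ^ 2 ≤ ((1 / 10 ^ 24) / 32) ^ 2 := by
      rw [g.norm_prodIp_sq Dh]
      have := one_sub_sum_le_prod Dh g.tq (fun q hq => g.tq_nonneg (hDh hq)) (fun q _ => g.tq_le q)
      linarith
    have h2 : Real.sqrt (1 - ‖prodIp Dh s ψ‖ ^ 2) ≤ (1 / 10 ^ 24) / 32 := sqrt_le_of (by norm_num) h1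
    calc 2 * Real.sqrt (1 - ‖prodIp Dh s ψ‖ ^ 2) ≤ 2 * ((1 / 10 ^ 24) / 32) := by gcongr
      _ = _ := by norm_num
  rcases g1.mcol_dichotomy hf1 ρ Us hr (η := 1 / 10 ^ 24) (by norm_num) (by norm_num) with h1 | ⟨hζ, hν, hmin⟩
  · left
    have hd := g.detach_disj Dh hDh
    have hu := g.detach_union Dh hDh
    have hdec := dec_prod hd hψh (δ := (1 / 10 ^ 24) / 16) (by norm_num)
      (A0 := g.Ket false) (A1 := g.Ket true) (X0 := g1.Ket false) (X1 := g1.Ket true)
      (by rw [hu]; exact g.Ket_ket false) (by rw [hu]; exact g.Ket_ket true)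
      (g.Ket_norm false).le (g.Ket_norm true).le (g1.Ket_ket false) (g1.Ket_ket true)
      (g1.Ket_norm false).le (g1.Ket_norm true).le (hδ false) (hδ true)
    rw [hu] at hdec
    refine ⟨g1, Dh, 1, 4 * ((1 / 10 ^ 24) / 16), rfl, rfl, hDh, Finset.sdiff_disjoint, by simp, ?_, ?_⟩
    · rw [one_smul]
      exact hdec
    · unfold theta0
      have : (1 : ℝ) - (1 / 10 ^ 24) / 2 + 4 * ((1 / 10 ^ 24) / 16) = 1 - (1 / 10 ^ 24) / 4 := by norm_num
      linarith
  · right
    have hJ : (g1.A \ ρ.sites) ∩ Us ⊆ g1.A := fun q hq => (Finset.mem_sdiff.mp (Finset.mem_inter.mp hq).1).1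
    have hs1 := g1.beta_sum
    have hb1 : ‖g1.beta true‖ ^ 2 ≤ ‖g1.beta false‖ ^ 2 := hb
    have hb2 : ‖g1.beta true‖ ^ 2 ≤ (1 / 10 ^ 24) / 2 := by
      have h3 : g1.zeta = ‖g1.beta false‖ ^ 2 - ‖g1.beta true‖ ^ 2 := by
        unfold zeta
        rw [abs_of_nonneg (by linarith)]
      rw [h3] at hζ
      linarith
    obtain ⟨D, D2, hi, hA, hD2, hDJ, hrow, halign, ha2, d0, d1⟩ := g1.toD hf1 hJ hr ρ hb2 hν hmin
    have hψ1 : g1.psi = ψ := rfl
    rw [hψ1] at d0 d1
    have hD2A : D2 ⊆ g.A := fun q hq => (Finset.mem_sdiff.mp (hD2 hq)).1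
    have hD2h : Disjoint D2 Dh := by
      rw [Finset.disjoint_left]
      intro q h1 h2
      exact (Finset.mem_sdiff.mp (hD2 h1)).2 h2
    set Det := D2 ∪ Dh with hDet
    have hDetA : Det ⊆ g.A := Finset.union_subset hD2A hDh
    have hψDet : UnitOn Det ψ := fun q hq => g.hpsi q (hDetA hq)
    have hKK : kb D2 ψ eK * kb Dh ψ eK = kb Det ψ eK := by
      rw [kb_mul_disjoint hD2h, merge_self, merge_self]
    have hAD : D.A = g.A \ Det := by
      rw [hA, hDet]
      show (g.A \ Dh) \ D2 = _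
      ext q
      simp only [Finset.mem_sdiff, Finset.mem_union]
      tauto
    have hdC : Disjoint D.C Det := by
      rw [Finset.disjoint_left]
      intro q h1 h2
      rcases D.mem_C.mp h1 with h3 | h3
      · have h4 : q = g.i := h3.trans hi
        exact g.hi (h4 ▸ hDetA h2)
      · rw [hAD] at h3
        exact (Finset.mem_sdiff.mp h3).2 h2
    have huC : D.C ∪ Det = g.C := by
      ext q
      simp only [Finset.mem_union, D.mem_C, g.mem_C, hAD, hi]
      show (q = g.i ∨ q ∈ g.A \ Det) ∨ q ∈ Det ↔ _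
      simp only [Finset.mem_sdiff]
      constructor
      · rintro ((h | h) | h)
        · exact Or.inl h
        · exact Or.inr h.1
        · exact Or.inr (hDetA h)
      · rintro (h | h)
        · exact Or.inl (Or.inl h)
        · by_cases h2 : q ∈ Det
          · exact Or.inr h2
          · exact Or.inl (Or.inr ⟨h, h2⟩)
    have hchain : ∀ (b : Bool) (X : MM Q), ‖g1.Ket b - X * kb D2 ψ eK‖ ≤ 56 / 10 ^ 6 →
        ‖g.Ket b - X * kb Det ψ eK‖ ≤ 6 / 10 ^ 5 := by
      intro b X hX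
      have e1 : g.Ket b - X * kb Det ψ eK = (g.Ket b - g1.Ket b * kb Dh ψ eK) +
          (g1.Ket b - X * kb D2 ψ eK) * kb Dh ψ eK := by
        rw [← hKK, Matrix.sub_mul, Matrix.mul_assoc]
        abel
      rw [e1]
      refine (norm_add_le _ _).trans ?_
      have e2 : ‖(g1.Ket b - X * kb D2 ψ eK) * kb Dh ψ eK‖ ≤
          ‖g1.Ket b - X * kb D2 ψ eK‖ * ‖kb Dh ψ eK‖ := Matrix.l2_opNorm_mul _ _
      rw [hKh, mul_one] at e2
      have e3 := hδ b
      have e4 : ((1 : ℝ) / 10 ^ 24) / 16 + 56 / 10 ^ 6 ≤ 6 / 10 ^ 5 := by norm_num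
      linarith
    have hdec := dec_prod hdC hψDet (δ := 6 / 10 ^ 5) (by norm_num)
      (A0 := g.Ket false) (A1 := g.Ket true) (X0 := D.A0) (X1 := D.A1)
      (by rw [huC]; exact g.Ket_ket false) (by rw [huC]; exact g.Ket_ket true)
      (g.Ket_norm false).le (g.Ket_norm true).le D.A0_ket D.A1_ket
      D.A0_norm D.A1_norm (hchain false _ d0) (hchain true _ d1)
    rw [huC] at hdec
    refine ⟨D, Det, 1, 4 * (6 / 10 ^ 5), hi, hAD, hDetA, ?_, ?_, ?_, hrow, halign, ha2, by simp, ?_, ?_⟩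
    · rw [hAD]
      rw [Finset.disjoint_left]
      intro q h1 h2
      exact (Finset.mem_sdiff.mp h1).2 (Finset.mem_union_right _ h2)
    · exact fun q hq => (Finset.mem_inter.mp (hDJ hq)).2
    · rw [Finset.disjoint_left]
      intro q h1 h2
      exact (Finset.mem_sdiff.mp (Finset.mem_inter.mp (hDJ h1)).1).2 h2
    · rw [one_smul]
      exact hdec
    · unfold theta0
      norm_num

/-- Columns with a reflection and detachable sites. -/
theorem class_large (hf : g.f = 1) (ρ : Row Q) (Us Dh : Finset Q) {r : Q → Bool → ℂ}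
    (hr : ∀ q, ip (r q) (r q) = 1) (hDh : Dh ⊆ g.A)
    (hμ : ∑ q ∈ Dh, g.tq q ≤ ((1 / 10 ^ 24) / 32) ^ 2) : ClassM g ρ Us Dh r ∨ ClassD g ρ Us Dh r := by
  by_cases hb : ‖g.beta true‖ ^ 2 ≤ ‖g.beta false‖ ^ 2
  · exact g.class_large_aux hf ρ Us Dh hr hDh hμ hb
  · have hb' : ‖g.swap.beta true‖ ^ 2 ≤ ‖g.swap.beta false‖ ^ 2 := by
      rw [g.swap_beta_true, g.swap_beta_false]
      exact (not_le.mp hb).le
    have hneg : ∀ (τ : MM Q) (d : ℝ) (σ : ℂ), Dec g.swap.C g.swap.tau (σ • τ) d →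
        Dec g.C g.tau ((-σ) • τ) d := by
      intro τ d σ h
      have h2 := h.neg
      rw [g.swap_tau, neg_neg, ← neg_smul] at h2
      exact h2
    rcases g.swap.class_large_aux hf ρ Us Dh hr hDh hμ hb' with h | h
    · left
      obtain ⟨g', Det, σ, d, h1, h2, h3, h4, h5, h6, h7⟩ := h
      exact ⟨g', Det, -σ, d, h1, h2, h3, h4, by rw [norm_neg]; exact h5, hneg _ _ _ h6, h7⟩
    · right
      obtain ⟨D, Det, σ, d, h1, h2, h3, h4, h5, h6, h7, h8, h9, h10, h11, h12⟩ := h
      exact ⟨D, Det, -σ, d, h1, h2, h3, h4, h5, h6, h7, h8, h9, by rw [norm_neg]; exact h10,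
        hneg _ _ _ h11, h12⟩


end GCol

end ColClass

end Vale.Agent.Lib.P368

/-!
Removing the detached product factors from a product of columns.
-/

set_option linter.unusedSectionVars false
set_option linter.unusedSimpArgs false
set_option linter.unusedVariables false

namespace Vale.Agent.Lib.P368

open Matrix
open scoped Matrix.Norms.L2Operator ComplexConjugate ComplexOrder

section Reduce

variable {Q : Type*} [Fintype Q] [DecidableEq Q] {ι : Type*}

theorem uni_congr {l : List ι} {f g : ι → Finset Q} (h : ∀ a ∈ l, f a = g a) : uni l f = uni l g := by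
  ext q
  simp only [mem_uni]
  constructor
  · rintro ⟨a, ha, hq⟩
    exact ⟨a, ha, by rw [← h a ha]; exact hq⟩
  · rintro ⟨a, ha, hq⟩
    exact ⟨a, ha, by rw [h a ha]; exact hq⟩

theorem uni_union (l : List ι) (f g : ι → Finset Q) : uni l (fun a => f a ∪ g a) = uni l f ∪ uni l g := by
  ext q
  simp only [mem_uni, Finset.mem_union]
  constructor
  · rintro ⟨a, ha, hq | hq⟩
    · exact Or.inl ⟨a, ha, hq⟩
    · exact Or.inr ⟨a, ha, hq⟩
  · rintro (⟨a, ha, hq⟩ | ⟨a, ha, hq⟩)
    · exact ⟨a, ha, Or.inl hq⟩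
    · exact ⟨a, ha, Or.inr hq⟩

theorem uni_subset {l : List ι} {f : ι → Finset Q} {a : ι} (ha : a ∈ l) : f a ⊆ uni l f :=
  fun q hq => mem_uni.mpr ⟨a, ha, hq⟩

theorem disjoint_uni_of {T : Finset Q} {l : List ι} {f : ι → Finset Q} (h : Disjoint T (uni l f))
    {a : ι} (ha : a ∈ l) : Disjoint T (f a) :=
  Finset.disjoint_of_subset_right (uni_subset ha) h

theorem prod_norm_one {l : List ι} {σ : ι → ℂ} (h : ∀ a ∈ l, ‖σ a‖ = 1) : ‖(l.map σ).prod‖ = 1 := by
  induction l with
  | nil => simp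
  | cons a l ih =>
    simp only [List.map_cons, List.prod_cons, norm_mul]
    rw [h a (by simp), ih (fun b hb => h b (by simp [hb])), one_mul]

theorem prod_kb_psd_mul {l : List ι} {Det : ι → Finset Q} {ψ : ι → Q → Bool → ℂ} {K : MM Q} {T : Finset Q}
    (hp : l.Pairwise (fun a b => Disjoint (Det a) (Det b)))
    (hψ : ∀ h ∈ l, UnitOn (Det h) (ψ h)) (hK : K ∈ SpanOn T) (hKp : K.PosSemidef)
    (hT : Disjoint T (uni l Det)) :
    ((l.map (fun h => kb (Det h) (ψ h) (ψ h))).prod * K).PosSemidef ∧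
      (l.map (fun h => kb (Det h) (ψ h) (ψ h))).prod * K ∈ SpanOn (T ∪ uni l Det) := by
  induction l with
  | nil =>
    simp only [List.map_nil, List.prod_nil, Matrix.one_mul]
    exact ⟨hKp, spanOn_mono Finset.subset_union_left hK⟩
  | cons h l ih =>
    rw [List.pairwise_cons] at hp
    rw [uni_cons, Finset.disjoint_union_right] at hT
    obtain ⟨ih1, ih2⟩ := ih hp.2 (fun a ha => hψ a (by simp [ha])) hT.2
    have hd : Disjoint (Det h) (T ∪ uni l Det) := by
      rw [Finset.disjoint_union_right]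
      exact ⟨hT.1.symm, disjoint_uni_right hp.1⟩
    simp only [List.map_cons, List.prod_cons]
    have hκ : kb (Det h) (ψ h) (ψ h) ∈ SpanOn (Det h) := kb_mem_spanOn (Finset.Subset.refl _) _ _
    have hc := commute_spanOn hd hκ ih2
    rw [Matrix.mul_assoc]
    constructor
    · exact psd_mul_of_commute (kb_psd (hψ h (by simp))) ih1 hc
    · rw [uni_cons]
      refine mul_mem_spanOn (spanOn_mono ?_ hκ) (spanOn_mono ?_ ih2)
      · exact fun q hq => Finset.mem_union_right _ (Finset.mem_union_left _ hq)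
      · intro q hq
        rcases Finset.mem_union.mp hq with h1 | h1
        · exact Finset.mem_union_left _ h1
        · exact Finset.mem_union_right _ (Finset.mem_union_right _ h1)

theorem trace_prod_kb {l : List ι} {Det : ι → Finset Q} {ψ : ι → Q → Bool → ℂ} {K : MM Q} {T : Finset Q}
    (hp : l.Pairwise (fun a b => Disjoint (Det a) (Det b)))
    (hψ : ∀ h ∈ l, UnitOn (Det h) (ψ h)) (hK : K ∈ SpanOn T) (hT : Disjoint T (uni l Det)) :
    ∀ U : Finset Q, Disjoint U (uni l Det) →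
      (kb U eK eK * ((l.map (fun h => kb (Det h) (ψ h) (ψ h))).prod * K)).trace =
        (kb (U ∪ uni l Det) eK eK * K).trace := by
  induction l with
  | nil =>
    intro U _
    simp [uni]
  | cons h l ih =>
    intro U hU
    rw [List.pairwise_cons] at hp
    rw [uni_cons, Finset.disjoint_union_right] at hT hU
    simp only [List.map_cons, List.prod_cons]
    set R := (l.map (fun h => kb (Det h) (ψ h) (ψ h))).prod with hR
    have hRm : R ∈ SpanOn (uni l Det) := prod_mem_spanOn (fun a ha =>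
      spanOn_mono (uni_subset ha) (kb_mem_spanOn (Finset.Subset.refl _) _ _))
    have hZ : R * K * kb U eK eK ∈ SpanOn (Det h)ᶜ := by
      refine mul_mem_spanOn (mul_mem_spanOn ?_ ?_) ?_
      · exact mem_spanOn_compl_of_disjoint (disjoint_uni_right hp.1) hRm
      · exact mem_spanOn_compl_of_disjoint hT.1.symm hK
      · exact mem_spanOn_compl_of_disjoint hU.1.symm (kb_mem_spanOn (Finset.Subset.refl _) _ _)
    have hsw := trace_kb_swap (hψ h (by simp)) (eK_unit (Det h)) hZ
    have e1 : (kb U eK eK * (kb (Det h) (ψ h) (ψ h) * R * K)).trace =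
        (kb (Det h) (ψ h) (ψ h) * (R * K * kb U eK eK)).trace := by
      calc (kb U eK eK * (kb (Det h) (ψ h) (ψ h) * R * K)).trace
          = ((kb (Det h) (ψ h) (ψ h) * R * K) * kb U eK eK).trace := Matrix.trace_mul_comm _ _
        _ = _ := by simp only [Matrix.mul_assoc]
    have e2 : (kb (Det h) eK eK * (R * K * kb U eK eK)).trace =
        (kb (U ∪ Det h) eK eK * (R * K)).trace := by
      rw [kb_union_same hU.1]
      calc (kb (Det h) eK eK * (R * K * kb U eK eK)).trace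
          = ((kb (Det h) eK eK * (R * K)) * kb U eK eK).trace := by simp only [Matrix.mul_assoc]
        _ = (kb U eK eK * (kb (Det h) eK eK * (R * K))).trace := Matrix.trace_mul_comm _ _
        _ = _ := by simp only [Matrix.mul_assoc]
    rw [e1, hsw, e2]
    have hdU : Disjoint (U ∪ Det h) (uni l Det) := by
      rw [Finset.disjoint_union_left]
      exact ⟨hU.2, disjoint_uni_right hp.1⟩
    have := ih hp.2 (fun a ha => hψ a (by simp [ha])) hT.2 (U ∪ Det h) hdU
    rw [this, Finset.union_assoc, uni_cons]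

/-- Removing the product factors. -/
theorem reduce_trace (Y : MM Q) (C₁ Det : ι → Finset Q) (t : ι → MM Q) (ψ : ι → Q → Bool → ℂ) (σ : ι → ℂ)
    (l : List ι) (B : ℝ)
    (hCd : l.Pairwise (fun a b => Disjoint (C₁ a ∪ Det a) (C₁ b ∪ Det b)))
    (hd : ∀ h ∈ l, Disjoint (C₁ h) (Det h))
    (ht : ∀ h ∈ l, t h ∈ SpanOn (C₁ h))
    (hψ : ∀ h ∈ l, UnitOn (Det h) (ψ h))
    (hσ : ∀ h ∈ l, ‖σ h‖ = 1)
    (hbase : ∀ (K : MM Q) (T : Finset Q), K ∈ SpanOn T → K.PosSemidef → Disjoint T (uni l C₁) →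
      ‖(Y * (l.map t).prod * K).trace‖ ≤ B * (kb (uni l C₁) eK eK * K).trace.re) :
    ∀ (K : MM Q) (T : Finset Q), K ∈ SpanOn T → K.PosSemidef →
      Disjoint T (uni l (fun h => C₁ h ∪ Det h)) →
      ‖(Y * (l.map (fun h => σ h • (t h * kb (Det h) (ψ h) (ψ h)))).prod * K).trace‖ ≤
        B * (kb (uni l (fun h => C₁ h ∪ Det h)) eK eK * K).trace.re := by
  intro K T hK hKp hT
  have hDetp : l.Pairwise (fun a b => Disjoint (Det a) (Det b)) :=
    hCd.imp (fun h => Finset.disjoint_of_subset_left Finset.subset_union_right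
      (Finset.disjoint_of_subset_right Finset.subset_union_right h))
  rw [uni_union, Finset.disjoint_union_right] at hT
  rw [uni_union]
  obtain ⟨hT1, hT2⟩ := hT
  set Kκ := (l.map (fun h => kb (Det h) (ψ h) (ψ h))).prod with hKκ
  have hfact : ∀ l' : List ι, l'.Sublist l →
      (l'.map (fun h => σ h • (t h * kb (Det h) (ψ h) (ψ h)))).prod =
      (l'.map σ).prod • ((l'.map t).prod * (l'.map (fun h => kb (Det h) (ψ h) (ψ h))).prod) := by
    intro l' hl'
    induction l' with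
    | nil => simp
    | cons h l' ih =>
      have hl2 : l'.Sublist l := (List.sublist_cons_self _ _).trans hl'
      have hpw : (h :: l').Pairwise (fun a b => Disjoint (C₁ a ∪ Det a) (C₁ b ∪ Det b)) := hCd.sublist hl'
      rw [List.pairwise_cons] at hpw
      simp only [List.map_cons, List.prod_cons]
      rw [ih hl2]
      have hh : h ∈ l := hl'.subset (by simp)
      have hTm : (l'.map t).prod ∈ SpanOn (uni l' C₁) := prod_mem_spanOn (fun a ha =>
        spanOn_mono (uni_subset ha) (ht a (hl2.subset ha)))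
      have hdis : Disjoint (Det h) (uni l' C₁) := disjoint_uni_right (fun a ha =>
        Finset.disjoint_of_subset_left Finset.subset_union_right
          (Finset.disjoint_of_subset_right Finset.subset_union_left (hpw.1 a ha)))
      have hc := commute_spanOn hdis (kb_mem_spanOn (Finset.Subset.refl _) (ψ h) (ψ h)) hTm
      have e : t h * kb (Det h) (ψ h) (ψ h) * ((l'.map t).prod * (l'.map (fun h => kb (Det h) (ψ h) (ψ h))).prod) =
          t h * (l'.map t).prod * (kb (Det h) (ψ h) (ψ h) * (l'.map (fun h => kb (Det h) (ψ h) (ψ h))).prod) := by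
        calc t h * kb (Det h) (ψ h) (ψ h) * ((l'.map t).prod * (l'.map (fun h => kb (Det h) (ψ h) (ψ h))).prod)
            = t h * (kb (Det h) (ψ h) (ψ h) * (l'.map t).prod) * (l'.map (fun h => kb (Det h) (ψ h) (ψ h))).prod := by
              simp only [Matrix.mul_assoc]
          _ = t h * ((l'.map t).prod * kb (Det h) (ψ h) (ψ h)) * (l'.map (fun h => kb (Det h) (ψ h) (ψ h))).prod := by
              rw [hc]
          _ = _ := by simp only [Matrix.mul_assoc]
      simp only [Matrix.smul_mul, Matrix.mul_smul, smul_smul]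
      rw [e, mul_comm]
  rw [hfact l (List.Sublist.refl _), ← hKκ]
  obtain ⟨hpsd, hmem⟩ := prod_kb_psd_mul hDetp hψ hK hKp hT2
  rw [← hKκ] at hpsd hmem
  have hd3 : Disjoint (T ∪ uni l Det) (uni l C₁) := by
    rw [Finset.disjoint_union_left]
    refine ⟨hT1, ?_⟩
    rw [Finset.disjoint_left]
    intro q hq hq'
    obtain ⟨a, ha, hqa⟩ := mem_uni.mp hq
    obtain ⟨b, hb, hqb⟩ := mem_uni.mp hq'
    by_cases hab : a = b
    · subst hab
      exact Finset.disjoint_left.mp (hd a ha) hqb hqa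
    · rcases pairwise_or_eq (R := fun a b => Disjoint (C₁ a ∪ Det a) (C₁ b ∪ Det b))
        (fun _ _ h => h.symm) hCd a ha b hb with e | e
      · exact hab e
      · exact Finset.disjoint_left.mp e (Finset.mem_union_right _ hqa) (Finset.mem_union_left _ hqb)
  have h1 := hbase (Kκ * K) (T ∪ uni l Det) hmem hpsd hd3
  have htr := trace_prod_kb hDetp hψ hK hT2 (uni l C₁) (by
    rw [Finset.disjoint_left]
    intro q hq hq'
    exact Finset.disjoint_left.mp hd3 (Finset.mem_union_right _ hq') hq)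
  rw [← hKκ] at htr
  rw [htr] at h1
  have e : (Y * ((l.map σ).prod • ((l.map t).prod * Kκ)) * K).trace =
      (l.map σ).prod * (Y * (l.map t).prod * (Kκ * K)).trace := by
    rw [Matrix.mul_smul, Matrix.smul_mul, Matrix.trace_smul, smul_eq_mul]
    simp only [Matrix.mul_assoc]
  rw [e, norm_mul, prod_norm_one hσ, one_mul]
  exact h1

end Reduce

end Vale.Agent.Lib.P368

/-!
A system of rows covering all sites, and the two estimates in terms of it.
-/

set_option linter.unusedSectionVars false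
set_option linter.unusedSimpArgs false
set_option linter.unusedVariables false

namespace Vale.Agent.Lib.P368

open Matrix
open scoped Matrix.Norms.L2Operator ComplexConjugate ComplexOrder

section RowSys

variable {Q : Type*} [Fintype Q] [DecidableEq Q] {γ : Type*} [DecidableEq γ] {ι : Type*} [DecidableEq ι]

/-- A system of rows covering all sites. -/
structure RowSys (Q γ : Type*) [Fintype Q] [DecidableEq Q] where
  r : Q → Bool → ℂ
  hr : ∀ q, ip (r q) (r q) = 1
  rows : γ → Row Q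
  L : List γ
  hL : L.Nodup
  hdisj : L.Pairwise (fun a b => Disjoint (rows a).sites (rows b).sites)
  ro : Q → γ
  hro : ∀ q, ro q ∈ L
  hsite : ∀ q, q ∈ (rows (ro q)).sites

namespace RowSys

variable (R : RowSys Q γ)

/-- The operator of a row. -/
noncomputable def W (a : γ) : MM Q := (R.rows a).W R.r

/-- The product of all rows. -/
noncomputable def Pi : MM Q := (R.L.map R.W).prod

/-- The sites in the decision part of their row. -/
def Us : Finset Q := Finset.univ.filter (fun q => q ∈ (R.rows (R.ro q)).U)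

theorem mem_Us {q : Q} : q ∈ R.Us ↔ q ∈ (R.rows (R.ro q)).U := by simp [Us]

theorem disj_of_ne {a b : γ} (ha : a ∈ R.L) (hb : b ∈ R.L) (hab : a ≠ b) :
    Disjoint (R.rows a).sites (R.rows b).sites := by
  rcases pairwise_or_eq (R := fun a b => Disjoint (R.rows a).sites (R.rows b).sites)
    (fun _ _ h => h.symm) R.hdisj a ha b hb with e | e
  · exact absurd e hab
  · exact e

theorem uniq {a : γ} (ha : a ∈ R.L) {q : Q} (hq : q ∈ (R.rows a).sites) : a = R.ro q := by
  by_contra hne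
  exact Finset.disjoint_left.mp (R.disj_of_ne ha (R.hro q) hne) hq (R.hsite q)

theorem S_of_not_Us {q : Q} (hq : q ∉ R.Us) : q ∈ (R.rows (R.ro q)).S := by
  have h1 := R.hsite q
  rcases Finset.mem_union.mp h1 with h2 | h2
  · exact h2
  · exact absurd (R.mem_Us.mpr h2) hq

theorem not_S_of_Us {q : Q} (hq : q ∈ R.Us) {a : γ} (ha : a ∈ R.L) : q ∉ (R.rows a).S := by
  intro h
  have h1 : a = R.ro q := R.uniq ha (Finset.mem_union_left _ h)
  subst h1
  exact Finset.disjoint_left.mp (R.rows (R.ro q)).disj h (R.mem_Us.mp hq)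

theorem U_of_Us {q : Q} (hq : q ∈ R.Us) : q ∈ (R.rows (R.ro q)).U := R.mem_Us.mp hq

theorem W_mem (a : γ) : R.W a ∈ SpanOn (R.rows a).sites :=
  (R.rows a).mix_mem (kb_mem_spanOn (Finset.Subset.refl _) _ _) (Finset.Subset.refl _)

/-- The rows not in a list. -/
def nlI (own : List γ) : List γ := R.L.filter (fun a => a ∉ own)

/-- The other rows. -/
def nl (own : List γ) : List (Row Q) := (R.nlI own).map R.rows

theorem mem_nlI {own : List γ} {a : γ} : a ∈ R.nlI own ↔ a ∈ R.L ∧ a ∉ own := by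
  simp [nlI]

theorem nl_pairwise (own : List γ) : (R.nl own).Pairwise (fun g g' => Disjoint g.sites g'.sites) := by
  unfold nl
  rw [List.pairwise_map]
  exact R.hdisj.sublist List.filter_sublist

theorem Pi_split {own : List γ} (hown : ∀ a ∈ own, a ∈ R.L) (hnd : own.Nodup) :
    R.Pi = (own.map R.W).prod * ((R.nl own).map (fun g => g.W R.r)).prod := by
  have hperm1 : (R.L.filter (fun a => a ∈ own)).Perm own := by
    refine (List.perm_ext_iff_of_nodup (R.hL.filter _) hnd).mpr ?_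
    intro a
    simp only [List.mem_filter, decide_eq_true_eq]
    exact ⟨fun h => h.2, fun h => ⟨hown a h, h⟩⟩
  have hperm2 : (R.L.filter (fun a => a ∈ own) ++ R.L.filter (fun a => ¬ (a ∈ own))).Perm R.L :=
    by simpa using List.filter_append_perm (fun a => decide (a ∈ own)) R.L
  have hperm : (own ++ R.nlI own).Perm R.L := by
    refine List.Perm.trans ?_ hperm2
    unfold nlI
    exact List.Perm.append_right _ hperm1.symm
  have hpc : (R.L.map R.W).Pairwise Commute := by
    rw [List.pairwise_map]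
    exact R.hdisj.imp (fun h => commute_spanOn h (R.W_mem _) (R.W_mem _))
  have h1 : (R.L.map R.W).prod = ((own ++ R.nlI own).map R.W).prod :=
    List.Perm.prod_eq' (hperm.symm.map R.W) hpc
  unfold Pi
  rw [h1, List.map_append, List.prod_append]
  congr 2
  unfold nl
  rw [List.map_map]
  rfl

/-- The first estimate for a system of rows. -/
theorem base_M (l : List ι) (ℓ : ι → γ) (m : ι → MCol Q)
    (hℓ : ∀ h ∈ l, ℓ h ∈ R.L) (hℓnd : (l.map ℓ).Nodup)
    (hrow : ∀ h ∈ l, (m h).row = R.rows (ℓ h))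
    (hCC : l.Pairwise (fun a b => Disjoint (m a).C (m b).C))
    (hsep : ∀ a ∈ l, ∀ b ∈ l, a ≠ b → Disjoint (m a).C (R.rows (ℓ b)).sites)
    (hGp : ∀ h ∈ l, (m h).Gp ⊆ (R.rows (ℓ h)).sites)
    (hPU : ∀ h ∈ l, (m h).PU ⊆ R.Us)
    (hNS : ∀ h ∈ l, Disjoint (m h).NS R.Us) :
    ∀ (K : MM Q) (T : Finset Q), K ∈ SpanOn T → K.PosSemidef → Disjoint T (uni l (fun h => (m h).C)) →
      ‖(R.Pi * (l.map (fun h => (m h).tau)).prod * K).trace‖ ≤
        (l.map (fun h => (m h).beta R.r)).prod * (kb (uni l (fun h => (m h).C)) eK eK * K).trace.re := by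
  intro K T hK hKp hT
  have hnd : l.Nodup := List.Nodup.of_map _ hℓnd
  have hne : ∀ a ∈ l, ∀ b ∈ l, a ≠ b → ℓ a ≠ ℓ b := fun a ha b hb hab he =>
    hab (List.inj_on_of_nodup_map hℓnd ha hb he)
  set own := l.map ℓ with hown
  have hown' : ∀ a ∈ own, a ∈ R.L := by
    intro a ha
    obtain ⟨h, hh, rfl⟩ := List.mem_map.mp ha
    exact hℓ h hh
  have hpi := R.Pi_split hown' hℓnd
  have h1 : own.map R.W = (l.map m).map (fun h => h.row.W R.r) := by
    rw [hown, List.map_map, List.map_map]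
    refine List.map_congr_left (fun h hh => ?_)
    simp only [Function.comp_apply, hrow h hh]
    rfl
  have hX : (l.map m).Pairwise MCol.Apart := by
    rw [List.pairwise_map]
    refine (hCC.and hnd).imp_of_mem ?_
    intro a b ha hb h
    refine ⟨h.1, ?_, ?_⟩
    · rw [hrow b hb]
      exact hsep a ha b hb h.2
    · rw [hrow a ha]
      exact hsep b hb a ha h.2.symm
  have hXr : (l.map m).Pairwise (fun h h' => Disjoint h.row.sites h'.row.sites) := by
    rw [List.pairwise_map]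
    refine hnd.imp_of_mem ?_
    intro a b ha hb hab
    rw [hrow a ha, hrow b hb]
    exact R.disj_of_ne (hℓ a ha) (hℓ b hb) (hne a ha b hb hab)
  have hmemnl : ∀ g ∈ R.nl own, ∃ c, c ∈ R.L ∧ c ∉ own ∧ g = R.rows c := by
    intro g hg
    obtain ⟨c, hc, rfl⟩ := List.mem_map.mp hg
    obtain ⟨h1, h2⟩ := R.mem_nlI.mp hc
    exact ⟨c, h1, h2, rfl⟩
  have hXnl : ∀ h ∈ l.map m, ∀ g ∈ R.nl own, Disjoint h.row.sites g.sites := by
    intro h hh g hg
    obtain ⟨a, ha, rfl⟩ := List.mem_map.mp hh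
    obtain ⟨c, hc1, hc2, rfl⟩ := hmemnl g hg
    rw [hrow a ha]
    refine R.disj_of_ne (hℓ a ha) hc1 ?_
    rintro rfl
    exact hc2 (List.mem_map_of_mem ha)
  have hGnl : ∀ h ∈ l.map m, ∀ g ∈ R.nl own, Disjoint h.Gp g.sites := by
    intro h hh g hg
    have h2 := hXnl h hh g hg
    obtain ⟨a, ha, rfl⟩ := List.mem_map.mp hh
    refine Finset.disjoint_of_subset_left ?_ h2
    rw [hrow a ha]
    exact hGp a ha
  have hNS' : ∀ h ∈ l.map m, h.NS ⊆ uni (R.nl own) Row.S := by
    intro h hh q hq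
    obtain ⟨a, ha, rfl⟩ := List.mem_map.mp hh
    have hqUs : q ∉ R.Us := fun h2 => Finset.disjoint_left.mp (hNS a ha) hq h2
    have hq2 := R.S_of_not_Us hqUs
    have hnot : R.ro q ∉ own := by
      intro h3
      obtain ⟨b, hb, hbe⟩ := List.mem_map.mp h3
      have hqs : q ∈ (R.rows (ℓ b)).sites := by
        rw [hbe]
        exact R.hsite q
      have hqC : q ∈ (m a).C := (m a).NS_sub hq
      by_cases hab : a = b
      · subst hab
        have h5 : q ∈ (m a).C \ (m a).Gp := by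
          refine Finset.mem_sdiff.mpr ⟨hqC, fun h6 => ?_⟩
          exact Finset.disjoint_left.mp (m a).hd2 h6 hq
        rw [← hrow a ha] at hqs
        exact Finset.disjoint_left.mp (m a).hrow h5 hqs
      · exact Finset.disjoint_left.mp (hsep a ha b hb hab) hqC hqs
    refine mem_uni.mpr ⟨R.rows (R.ro q), ?_, hq2⟩
    exact List.mem_map_of_mem (R.mem_nlI.mpr ⟨R.hro q, hnot⟩)
  have hPUS : ∀ h ∈ l.map m, ∀ g ∈ R.nl own, Disjoint h.PU g.S := by
    intro h hh g hg
    obtain ⟨a, ha, rfl⟩ := List.mem_map.mp hh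
    obtain ⟨c, hc1, hc2, rfl⟩ := hmemnl g hg
    rw [Finset.disjoint_left]
    intro q hq hq2
    exact R.not_S_of_Us (hPU a ha hq) hc1 hq2
  have hTK : ∀ h ∈ l.map m, Disjoint T h.C := by
    intro h hh
    obtain ⟨a, ha, rfl⟩ := List.mem_map.mp hh
    exact disjoint_uni_of hT ha
  have hmain := thmM R.hr (l.map m) (R.nl own) K T hX hXr (R.nl_pairwise own) hXnl hGnl hNS' hPUS hK hKp hTK
  rw [hpi, h1]
  have e1 : (l.map m).map MCol.tau = l.map (fun h => (m h).tau) := by
    rw [List.map_map]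
    rfl
  have e2 : (l.map m).map (fun h => h.beta R.r) = l.map (fun h => (m h).beta R.r) := by
    rw [List.map_map]
    rfl
  have e3 : ((l.map m).map (fun h => kb h.C eK eK)).prod = kb (uni l (fun h => (m h).C)) eK eK := by
    rw [List.map_map]
    exact prod_kb_union (f := fun h => (m h).C) eK hCC
  rw [e1, e2, e3] at hmain
  exact hmain

/-- The second estimate for a system of rows. -/
theorem base_D (l : List ι) (ℓ : ι → γ) (D : ι → DCol Q)
    (hℓ : ∀ h ∈ l, ℓ h ∈ R.L) (hℓnd : (l.map ℓ).Nodup)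
    (hrow : ∀ h ∈ l, (D h).row = R.rows (ℓ h))
    (hCC : l.Pairwise (fun a b => Disjoint (D a).C (D b).C))
    (hsep : ∀ a ∈ l, ∀ b ∈ l, a ≠ b → Disjoint (D a).C (R.rows (ℓ b)).sites)
    (hAr : ∀ h ∈ l, Disjoint (D h).A (R.rows (ℓ h)).sites)
    (hir : ∀ h ∈ l, (D h).i ∈ (R.rows (ℓ h)).sites)
    (hAUs : ∀ h ∈ l, (D h).A ⊆ R.Us)
    (halign : ∀ h ∈ l, ∀ q ∈ (D h).A, ketbra ((D h).psi q) ((D h).psi q) = ketbra (R.r q) (R.r q) ∨
      ketbra ((D h).psi q) ((D h).psi q) = ketbra (perp (R.r q)) (perp (R.r q)))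
    (ha2 : ∀ h ∈ l, (D h).a2 ≤ 0.5001) :
    ∀ (K : MM Q) (T : Finset Q), K ∈ SpanOn T → K.PosSemidef → Disjoint T (uni l (fun h => (D h).C)) →
      ‖(R.Pi * (l.map (fun h => (D h).tau)).prod * K).trace‖ ≤
        (l.map (fun _ => (0.99 : ℝ))).prod * (kb (uni l (fun h => (D h).C)) eK eK * K).trace.re := by
  intro K T hK hKp hT
  have hnd : l.Nodup := List.Nodup.of_map _ hℓnd
  have hne : ∀ a ∈ l, ∀ b ∈ l, a ≠ b → ℓ a ≠ ℓ b := fun a ha b hb hab he =>
    hab (List.inj_on_of_nodup_map hℓnd ha hb he)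
  set own := l.map ℓ with hown
  have hown' : ∀ a ∈ own, a ∈ R.L := by
    intro a ha
    obtain ⟨h, hh, rfl⟩ := List.mem_map.mp ha
    exact hℓ h hh
  have hpi := R.Pi_split hown' hℓnd
  have hmemnl : ∀ g ∈ R.nl own, ∃ c, c ∈ R.L ∧ c ∉ own ∧ g = R.rows c := by
    intro g hg
    obtain ⟨c, hc, rfl⟩ := List.mem_map.mp hg
    obtain ⟨h1, h2⟩ := R.mem_nlI.mp hc
    exact ⟨c, h1, h2, rfl⟩
  have hXnl : ∀ h ∈ l, ∀ g ∈ R.nl own, Disjoint (D h).row.sites g.sites := by
    intro a ha g hg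
    obtain ⟨c, hc1, hc2, rfl⟩ := hmemnl g hg
    rw [hrow a ha]
    refine R.disj_of_ne (hℓ a ha) hc1 ?_
    rintro rfl
    exact hc2 (List.mem_map_of_mem ha)
  let S : DSys Q ι :=
    { r := R.r
      hr := R.hr
      col := D
      X := l
      nl := R.nl own
      hnd := hnd
      hXC := hCC
      hXr := by
        refine hnd.imp_of_mem ?_
        intro a b ha hb hab
        rw [hrow a ha, hrow b hb]
        exact R.disj_of_ne (hℓ a ha) (hℓ b hb) (hne a ha b hb hab)
      hXo := by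
        intro a ha b hb hab
        rw [hrow b hb]
        exact hsep a ha b hb hab
      hnl := R.nl_pairwise own
      hXnl := hXnl
      hAr := by
        intro h hh
        rw [hrow h hh]
        exact hAr h hh
      hir := by
        intro h hh
        rw [hrow h hh]
        exact hir h hh
      hnlS := by
        intro h hh g hg
        rw [Finset.disjoint_left]
        intro q hq hq2
        rcases (D h).mem_C.mp hq with rfl | h2
        · have h3 := hXnl h hh g hg
          rw [hrow h hh] at h3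
          exact Finset.disjoint_left.mp h3 (hir h hh) (Finset.mem_union_left _ hq2)
        · obtain ⟨c, hc1, hc2, rfl⟩ := hmemnl g hg
          exact R.not_S_of_Us (hAUs h hh h2) hc1 hq2
      hcov := by
        intro h hh q hq
        have hqU := R.U_of_Us (hAUs h hh hq)
        refine ⟨R.rows (R.ro q), ?_, hqU⟩
        refine List.mem_map_of_mem (R.mem_nlI.mpr ⟨R.hro q, ?_⟩)
        intro h3
        obtain ⟨b, hb, hbe⟩ := List.mem_map.mp h3
        have hqs : q ∈ (R.rows (ℓ b)).sites := by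
          rw [hbe]
          exact R.hsite q
        by_cases hab : h = b
        · subst hab
          exact Finset.disjoint_left.mp (hAr h hh) hq hqs
        · have hqC : q ∈ (D h).C := Finset.mem_insert_of_mem hq
          exact Finset.disjoint_left.mp (hsep h hh b hb hab) hqC hqs
      halign := halign
      ha2 := ha2 }
  have hmain := S.thmD hK hKp (TK := T) (by exact hT)
  have h1 : own.map R.W = l.map (fun h => (D h).row.W R.r) := by
    rw [hown, List.map_map]
    refine List.map_congr_left (fun h hh => ?_)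
    simp only [Function.comp_apply, hrow h hh]
    rfl
  rw [hpi, h1]
  have e3 : (l.map (fun h => kb (D h).C eK eK)).prod = kb (uni l (fun h => (D h).C)) eK eK :=
    prod_kb_union (f := fun h => (D h).C) eK hCC
  have e4 : (l.map (fun _ => (0.99 : ℝ))).prod = 0.99 ^ l.length := by
    rw [List.map_const', List.prod_replicate]
  rw [e4, ← e3]
  exact hmain

end RowSys

end RowSys

end Vale.Agent.Lib.P368

/-!
A large subset of a weighted digraph in which every vertex has small weighted out-degree.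
-/

set_option linter.unusedSectionVars false
set_option linter.unusedSimpArgs false
set_option linter.unusedVariables false

namespace Vale.Agent.Lib.P368

section Select

variable {ι : Type*} [DecidableEq ι]

/-- The total weight of a set. -/
noncomputable def wtot (m : ι → ι → ℝ) (S : Finset ι) : ℝ :=
  ∑ h ∈ S, ∑ h' ∈ S, (if h ≠ h' then m h h' else 0)

/-- The total weight within the colour classes. -/
noncomputable def wcol {κ : Type*} [DecidableEq κ] (m : ι → ι → ℝ) (c : ι → κ) (S : Finset ι) : ℝ :=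
  ∑ h ∈ S, ∑ h' ∈ S, (if h ≠ h' ∧ c h = c h' then m h h' else 0)

theorem sum_insert_square {F : ι → ι → ℝ} {a : ι} {S : Finset ι} (ha : a ∉ S) (hF : F a a = 0) :
    ∑ h ∈ insert a S, ∑ h' ∈ insert a S, F h h' =
      ∑ h' ∈ S, (F a h' + F h' a) + ∑ h ∈ S, ∑ h' ∈ S, F h h' := by
  rw [Finset.sum_insert ha, Finset.sum_insert ha, hF, zero_add]
  have h1 : ∑ h ∈ S, ∑ h' ∈ insert a S, F h h' = ∑ h ∈ S, (F h a + ∑ h' ∈ S, F h h') := by
    refine Finset.sum_congr rfl (fun h _ => ?_)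
    rw [Finset.sum_insert ha]
  rw [h1, Finset.sum_add_distrib, Finset.sum_add_distrib]
  ring

theorem exists_colouring (n : ℕ) (hn : 0 < n) (m : ι → ι → ℝ) (hm : ∀ a b, 0 ≤ m a b) (S : Finset ι) :
    ∃ c : ι → Fin n, (n : ℝ) * wcol m c S ≤ wtot m S := by
  classical
  induction S using Finset.induction_on with
  | empty =>
    refine ⟨fun _ => ⟨0, hn⟩, ?_⟩
    simp [wcol, wtot]
  | insert a S ha ih =>
    obtain ⟨c, hc⟩ := ih
    -- the cost of a colour
    set cost : Fin n → ℝ := fun j => ∑ h' ∈ S, (if j = c h' then m a h' + m h' a else 0) with hcost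
    have hsum : ∑ j, cost j = ∑ h' ∈ S, (m a h' + m h' a) := by
      simp only [hcost]
      rw [Finset.sum_comm]
      refine Finset.sum_congr rfl (fun h' _ => ?_)
      rw [Finset.sum_ite_eq' Finset.univ (c h')]
      simp
    have hex : ∃ j, (n : ℝ) * cost j ≤ ∑ h' ∈ S, (m a h' + m h' a) := by
      by_contra hcon
      push Not at hcon
      have h1 : ∑ j : Fin n, (∑ h' ∈ S, (m a h' + m h' a)) < ∑ j : Fin n, ((n : ℝ) * cost j) := by
        have : Nonempty (Fin n) := ⟨⟨0, hn⟩⟩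
        exact Finset.sum_lt_sum_of_nonempty Finset.univ_nonempty (fun j _ => hcon j)
      rw [Finset.sum_const, Finset.card_univ, Fintype.card_fin, nsmul_eq_mul, ← Finset.mul_sum, hsum] at h1
      exact lt_irrefl _ h1
    obtain ⟨j, hj⟩ := hex
    set c' := Function.update c a j with hc'
    have hc'S : ∀ h ∈ S, c' h = c h := fun h hh => by
      rw [hc', Function.update_of_ne]
      rintro rfl
      exact ha hh
    have hc'a : c' a = j := by rw [hc', Function.update_self]
    refine ⟨c', ?_⟩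
    have e1 : wcol m c' (insert a S) = cost j + wcol m c S := by
      unfold wcol
      rw [sum_insert_square ha (by simp)]
      congr 1
      · simp only [hcost]
        refine Finset.sum_congr rfl (fun h' hh' => ?_)
        have hne : a ≠ h' := by
          rintro rfl
          exact ha hh'
        rw [hc'a, hc'S h' hh']
        by_cases hje : j = c h'
        · simp [hne, hne.symm, hje]
        · have hje' : ¬ c h' = j := fun h => hje h.symm
          simp [hje, hje']
      · refine Finset.sum_congr rfl (fun h hh => Finset.sum_congr rfl (fun h' hh' => ?_))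
        rw [hc'S h hh, hc'S h' hh']
    have e2 : wtot m (insert a S) = ∑ h' ∈ S, (m a h' + m h' a) + wtot m S := by
      unfold wtot
      rw [sum_insert_square ha (by simp)]
      congr 1
      refine Finset.sum_congr rfl (fun h' hh' => ?_)
      have hne : a ≠ h' := by
        rintro rfl
        exact ha hh'
      simp [hne, hne.symm]
    rw [e1, e2, mul_add]
    exact add_le_add hj hc

/-- The weight within one colour class. -/
theorem wcol_eq_sum {κ : Type*} [DecidableEq κ] [Fintype κ] (m : ι → ι → ℝ) (c : ι → κ) (S : Finset ι) :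
    wcol m c S = ∑ j : κ, wtot m (S.filter (fun h => c h = j)) := by
  unfold wcol wtot
  have h1 : ∀ j : κ, ∑ h ∈ S.filter (fun h => c h = j), ∑ h' ∈ S.filter (fun h => c h = j),
      (if h ≠ h' then m h h' else 0) =
      ∑ h ∈ S, ∑ h' ∈ S, (if c h = j ∧ c h' = j ∧ h ≠ h' then m h h' else 0) := by
    intro j
    rw [Finset.sum_filter]
    refine Finset.sum_congr rfl (fun h _ => ?_)
    rw [Finset.sum_filter]
    by_cases hj : c h = j
    · simp only [hj, if_true, true_and]
      refine Finset.sum_congr rfl (fun h' _ => ?_)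
      by_cases hj' : c h' = j <;> simp [hj']
    · simp [hj]
  simp only [h1]
  have hswap : ∑ j : κ, ∑ h ∈ S, ∑ h' ∈ S, (if c h = j ∧ c h' = j ∧ h ≠ h' then m h h' else 0) =
      ∑ h ∈ S, ∑ h' ∈ S, ∑ j : κ, (if c h = j ∧ c h' = j ∧ h ≠ h' then m h h' else 0) := by
    rw [Finset.sum_comm]
    refine Finset.sum_congr rfl (fun h _ => ?_)
    rw [Finset.sum_comm]
  rw [hswap]
  refine Finset.sum_congr rfl (fun h _ => Finset.sum_congr rfl (fun h' _ => ?_))
  by_cases hne : h ≠ h' ∧ c h = c h'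
  · rw [if_pos hne]
    rw [Finset.sum_eq_single (c h)]
    · simp [hne.1, hne.2]
    · intro j _ hj
      rw [if_neg]
      rintro ⟨h2, _⟩
      exact hj h2.symm
    · simp
  · rw [if_neg hne]
    symm
    apply Finset.sum_eq_zero
    intro j _
    rw [if_neg]
    rintro ⟨h2, h3, h4⟩
    exact hne ⟨h4, h2.trans h3.symm⟩

theorem wtot_nonneg (m : ι → ι → ℝ) (hm : ∀ a b, 0 ≤ m a b) (S : Finset ι) : 0 ≤ wtot m S := by
  unfold wtot
  refine Finset.sum_nonneg (fun h _ => Finset.sum_nonneg (fun h' _ => ?_))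
  split_ifs
  · exact hm _ _
  · exact le_rfl

/-- The selection lemma. -/
theorem select (S₀ : Finset ι) (m : ι → ι → ℝ) (hm : ∀ a b, 0 ≤ m a b) {M μ : ℝ} (hM0 : 0 ≤ M) (hμ : 0 < μ)
    (n : ℕ) (hn : 0 < n) (hQ : 2 * M / μ ≤ n)
    (hM : ∀ h ∈ S₀, ∑ h' ∈ S₀, (if h ≠ h' then m h h' else 0) ≤ M) :
    ∃ S ⊆ S₀, (∀ h ∈ S, ∑ h' ∈ S, (if h ≠ h' then m h h' else 0) ≤ μ) ∧ S₀.card ≤ 2 * n * S.card := by
  classical
  set lam : ℝ := 1 / μ with hlam
  have hlam0 : 0 < lam := by positivity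
  set Φ : Finset ι → ℝ := fun S => (S.card : ℝ) - lam * wtot m S with hΦ
  obtain ⟨S, hS, hmax⟩ := Finset.exists_max_image S₀.powerset Φ ⟨∅, by simp⟩
  have hS' : S ⊆ S₀ := Finset.mem_powerset.mp hS
  refine ⟨S, hS', ?_, ?_⟩
  · -- local optimality
    intro h hh
    have h1 := hmax (S.erase h) (Finset.mem_powerset.mpr ((Finset.erase_subset _ _).trans hS'))
    have hins : insert h (S.erase h) = S := Finset.insert_erase hh
    have hnot : h ∉ S.erase h := Finset.notMem_erase _ _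
    have e1 : wtot m S = ∑ h' ∈ S.erase h, ((if h ≠ h' then m h h' else 0) + (if h' ≠ h then m h' h else 0)) +
        wtot m (S.erase h) := by
      unfold wtot
      conv_lhs => rw [← hins]
      exact sum_insert_square (F := fun a b => if a ≠ b then m a b else 0) hnot (by simp)
    have e2 : (S.card : ℝ) = (S.erase h).card + 1 := by
      rw [Finset.card_erase_of_mem hh]
      have : 1 ≤ S.card := Finset.card_pos.mpr ⟨h, hh⟩
      push_cast [Nat.cast_sub this]
      ring
    have e3 : ∑ h' ∈ S, (if h ≠ h' then m h h' else 0) = ∑ h' ∈ S.erase h, (if h ≠ h' then m h h' else 0) := by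
      conv_lhs => rw [← hins]
      rw [Finset.sum_insert hnot]
      simp
    have e4 : 0 ≤ ∑ h' ∈ S.erase h, (if h' ≠ h then m h' h else 0) := by
      refine Finset.sum_nonneg (fun h' _ => ?_)
      split_ifs
      · exact hm _ _
      · exact le_rfl
    rw [Finset.sum_add_distrib] at e1
    rw [e3]
    simp only [hΦ] at h1
    rw [e1, e2] at h1
    have h2 : lam * ∑ h' ∈ S.erase h, (if h ≠ h' then m h h' else 0) ≤ 1 := by
      nlinarith
    have h3 : ∑ h' ∈ S.erase h, (if h ≠ h' then m h h' else 0) = μ * (lam * ∑ h' ∈ S.erase h, (if h ≠ h' then m h h' else 0)) := by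
      rw [hlam]
      field_simp
    rw [h3]
    nlinarith
  · -- the size
    obtain ⟨c, hc⟩ := exists_colouring n hn m hm S₀
    have hnR : (0 : ℝ) < n := by exact_mod_cast hn
    have htot : wtot m S₀ ≤ S₀.card * M := by
      unfold wtot
      calc ∑ h ∈ S₀, ∑ h' ∈ S₀, (if h ≠ h' then m h h' else 0) ≤ ∑ h ∈ S₀, M := Finset.sum_le_sum hM
        _ = _ := by rw [Finset.sum_const, nsmul_eq_mul]
    have hsumΦ : ∑ j : Fin n, Φ (S₀.filter (fun h => c h = j)) = S₀.card - lam * wcol m c S₀ := by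
      simp only [hΦ]
      rw [Finset.sum_sub_distrib, ← Finset.mul_sum, ← wcol_eq_sum]
      congr 1
      have := Finset.card_eq_sum_card_fiberwise (f := c) (s := S₀) (t := Finset.univ) (fun x _ => Finset.mem_coe.mpr (Finset.mem_univ _))
      rw [this]
      push_cast
      rfl
    have hle : ∀ j : Fin n, Φ (S₀.filter (fun h => c h = j)) ≤ S.card := by
      intro j
      refine (hmax _ (Finset.mem_powerset.mpr (Finset.filter_subset _ _))).trans ?_
      simp only [hΦ]
      have := wtot_nonneg m hm S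
      have h2 : 0 ≤ lam * wtot m S := by positivity
      linarith
    have h1 : (S₀.card : ℝ) - lam * wcol m c S₀ ≤ n * S.card := by
      rw [← hsumΦ]
      calc ∑ j : Fin n, Φ (S₀.filter (fun h => c h = j)) ≤ ∑ j : Fin n, (S.card : ℝ) :=
            Finset.sum_le_sum (fun j _ => hle j)
        _ = _ := by rw [Finset.sum_const, Finset.card_univ, Fintype.card_fin, nsmul_eq_mul]
    have h2 : lam * wcol m c S₀ ≤ (S₀.card : ℝ) / 2 := by
      have h3 : wcol m c S₀ ≤ S₀.card * M / n := by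
        rw [le_div_iff₀ hnR]
        linarith
      have h4 : lam * M / n ≤ 1 / 2 := by
        rw [hlam]
        rw [div_le_iff₀ hμ] at hQ
        rw [div_le_iff₀ hnR]
        field_simp
        linarith
      calc lam * wcol m c S₀ ≤ lam * (S₀.card * M / n) := by gcongr
        _ = (S₀.card : ℝ) * (lam * M / n) := by ring
        _ ≤ (S₀.card : ℝ) * (1 / 2) := by gcongr
        _ = _ := by ring
    have h3 : (S₀.card : ℝ) ≤ 2 * n * S.card := by linarith
    exact_mod_cast h3

end Select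

end Vale.Agent.Lib.P368

/-!
The main estimate for many columns with distinct literals and rows.
-/

set_option linter.unusedSectionVars false
set_option linter.unusedSimpArgs false
set_option linter.unusedVariables false

namespace Vale.Agent.Lib.P368

open Matrix
open scoped Matrix.Norms.L2Operator ComplexConjugate ComplexOrder

section Core

variable {Q : Type*} [Fintype Q] [DecidableEq Q] {γ : Type*} [DecidableEq γ] {ι : Type*} [DecidableEq ι]

theorem prod_ite_le_pow (l : List ι) (X₂ : Finset ι) (c : ι → ℝ) {θ₀ : ℝ} (hθ0 : 0 ≤ θ₀) (hθ1 : θ₀ ≤ 1)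
    (h0 : ∀ a ∈ l, 0 ≤ c a) (h1 : ∀ a ∈ l, a ∈ X₂ → c a ≤ θ₀) (h2 : ∀ a ∈ l, a ∉ X₂ → c a ≤ 1) :
    (l.map c).prod ≤ θ₀ ^ (l.filter (fun a => a ∈ X₂)).length := by
  induction l with
  | nil => simp
  | cons a l ih =>
    simp only [List.map_cons, List.prod_cons]
    have i1 := ih (fun b hb => h0 b (by simp [hb])) (fun b hb => h1 b (by simp [hb]))
      (fun b hb => h2 b (by simp [hb]))
    have i2 : 0 ≤ (l.map c).prod := list_prod_nonneg (fun b hb => h0 b (by simp [hb]))
    have i3 := h0 a (by simp)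
    by_cases ha : a ∈ X₂
    · have : ((a :: l).filter (fun a => a ∈ X₂)).length = (l.filter (fun a => a ∈ X₂)).length + 1 := by
        simp [List.filter_cons, ha]
      rw [this, pow_succ, mul_comm]
      exact mul_le_mul i1 (h1 a (by simp) ha) i3 (by positivity)
    · have : ((a :: l).filter (fun a => a ∈ X₂)).length = (l.filter (fun a => a ∈ X₂)).length := by
        simp [List.filter_cons, ha]
      rw [this]
      calc c a * (l.map c).prod ≤ 1 * θ₀ ^ (l.filter (fun a => a ∈ X₂)).length :=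
            mul_le_mul (h2 a (by simp) ha) i1 i2 (by norm_num)
        _ = _ := one_mul _

/-- The expansion with selected columns. -/
theorem frame (Y : MM Q) (C : ι → Finset Q) (τ τ₂ : ι → MM Q) (θ₂ d₂ : ι → ℝ) (X₀ : List ι) (X₂ : Finset ι)
    {θ₀ : ℝ} (hθ0 : 0 ≤ θ₀) (hθ1 : θ₀ ≤ 1) (hnd : X₀.Nodup)
    (hC : X₀.Pairwise (fun a b => Disjoint (C a) (C b)))
    (hτ : ∀ h ∈ X₀, τ h ∈ SpanOn (C h)) (hτ₂ : ∀ h ∈ X₀, h ∈ X₂ → τ₂ h ∈ SpanOn (C h))
    (hdec : ∀ h ∈ X₀, h ∈ X₂ → Dec (C h) (τ h) (τ₂ h) (d₂ h))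
    (hdec0 : ∀ h ∈ X₀, h ∉ X₂ → Dec (C h) (τ h) 0 1)
    (hθ : ∀ h ∈ X₂, 0 ≤ θ₂ h) (hθd : ∀ h ∈ X₂, θ₂ h + d₂ h ≤ θ₀) (hX₂ : X₂ ⊆ X₀.toFinset)
    (hbase : ∀ l, l.Sublist X₀ → (∀ h ∈ l, h ∈ X₂) → ∀ (K : MM Q) (T : Finset Q), K ∈ SpanOn T →
      K.PosSemidef → Disjoint T (uni l C) →
      ‖(Y * (l.map τ₂).prod * K).trace‖ ≤ (l.map θ₂).prod * (kb (uni l C) eK eK * K).trace.re) :
    ∀ (K : MM Q) (T : Finset Q), K ∈ SpanOn T → K.PosSemidef → Disjoint T (uni X₀ C) →
      ‖(Y * (X₀.map τ).prod * K).trace‖ ≤ θ₀ ^ X₂.card * (kb (uni X₀ C) eK eK * K).trace.re := by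
  intro K T hK hKp hT
  set τ' : ι → MM Q := fun h => if h ∈ X₂ then τ₂ h else 0 with hτ'
  set θ : ι → ℝ := fun h => if h ∈ X₂ then θ₂ h else 0 with hθdef
  set d : ι → ℝ := fun h => if h ∈ X₂ then d₂ h else 1 with hd
  have hθ' : ∀ h, 0 ≤ θ h := by
    intro h
    simp only [hθdef]
    split_ifs with h1
    · exact hθ h h1
    · exact le_rfl
  have hmain := expand Y C τ τ' θ d X₀ hC hτ
    (by
      intro h hh
      simp only [hτ']
      split_ifs with h1
      · exact hτ₂ h hh h1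
      · exact Submodule.zero_mem _)
    (by
      intro h hh
      simp only [hτ', hd]
      split_ifs with h1
      · exact hdec h hh h1
      · exact hdec0 h hh h1)
    (fun h _ => hθ' h)
    (by
      intro l hl K T hK hKp hT
      have hZ0 : 0 ≤ (kb (uni l C) eK eK * K).trace.re := trace_psd_mul_re (kb_psd (eK_unit _)) hKp
      by_cases hall : ∀ h ∈ l, h ∈ X₂
      · have e1 : l.map τ' = l.map τ₂ := List.map_congr_left (fun h hh => by simp [hτ', hall h hh])
        have e2 : l.map θ = l.map θ₂ := List.map_congr_left (fun h hh => by simp [hθdef, hall h hh])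
        rw [e1, e2]
        exact hbase l hl hall K T hK hKp hT
      · push Not at hall
        obtain ⟨h, hh, hh2⟩ := hall
        have e1 : (l.map τ').prod = 0 := by
          apply List.prod_eq_zero
          refine List.mem_map.mpr ⟨h, hh, ?_⟩
          simp [hτ', hh2]
        rw [e1, Matrix.mul_zero, Matrix.zero_mul, Matrix.trace_zero, norm_zero]
        exact mul_nonneg (list_prod_nonneg (fun a _ => hθ' a)) hZ0)
    K T hK hKp hT
  refine hmain.trans ?_
  have hZ0 : 0 ≤ (kb (uni X₀ C) eK eK * K).trace.re := trace_psd_mul_re (kb_psd (eK_unit _)) hKp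
  refine mul_le_mul_of_nonneg_right ?_ hZ0
  have hd0 : ∀ h ∈ X₀, 0 ≤ d h := by
    intro h hh
    simp only [hd]
    split_ifs with h1
    · exact (hdec h hh h1).nonneg
    · norm_num
  have h1 := prod_ite_le_pow X₀ X₂ (fun h => θ h + d h) hθ0 hθ1
    (fun a ha => add_nonneg (hθ' a) (hd0 a ha))
    (by
      intro a _ ha
      simp only [hθdef, hd, ha, if_true]
      exact hθd a ha)
    (by
      intro a _ ha
      simp only [hθdef, hd, ha, if_false]
      norm_num)
  have hlen : (X₀.filter (fun a => a ∈ X₂)).length = X₂.card := by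
    have h2 : (X₀.filter (fun a => a ∈ X₂)).toFinset = X₂ := by
      ext a
      simp only [List.mem_toFinset, List.mem_filter, decide_eq_true_eq]
      exact ⟨fun h => h.2, fun h => ⟨List.mem_toFinset.mp (hX₂ h), h⟩⟩
    have h3 := List.toFinset_card_of_nodup (hnd.filter (fun a => decide (a ∈ X₂)))
    rw [h2] at h3
    exact h3.symm
  rw [hlen] at h1
  exact h1

variable (R : RowSys Q γ)

/-- The sites of a reduced column. -/
theorem gcol_C_union {g g' : GCol Q} {Det : Finset Q} (hi : g'.i = g.i) (hA : g'.A = g.A \ Det) (hD : Det ⊆ g.A) :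
    g'.C ∪ Det = g.C := by
  ext q
  simp only [Finset.mem_union, g'.mem_C, g.mem_C, hi, hA, Finset.mem_sdiff]
  constructor
  · rintro ((h | h) | h)
    · exact Or.inl h
    · exact Or.inr h.1
    · exact Or.inr (hD h)
  · rintro (h | h)
    · exact Or.inl (Or.inl h)
    · by_cases h2 : q ∈ Det
      · exact Or.inr h2
      · exact Or.inl (Or.inr ⟨h, h2⟩)

theorem gcol_C_disj {g g' : GCol Q} {Det : Finset Q} (hi : g'.i = g.i) (hA : g'.A = g.A \ Det) (hD : Det ⊆ g.A) :
    Disjoint g'.C Det := by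
  rw [Finset.disjoint_left]
  intro q h1 h2
  rcases g'.mem_C.mp h1 with h3 | h3
  · have : q = g.i := h3.trans hi
    exact g.hi (this ▸ hD h2)
  · rw [hA] at h3
    exact (Finset.mem_sdiff.mp h3).2 h2

/-- The estimate when all selected columns are of the first class. -/
theorem core_M (col : ι → GCol Q) (X₀ : List ι) (hnd : X₀.Nodup)
    (hC : X₀.Pairwise (fun a b => Disjoint (col a).C (col b).C))
    (hℓnd : (X₀.map (fun h => R.ro (col h).i)).Nodup)
    (X₂ : Finset ι) (hX₂ : X₂ ⊆ X₀.toFinset) (Dh : ι → Finset Q)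
    (hDh : ∀ a ∈ X₂, ∀ b ∈ X₂, a ≠ b → (col a).A ∩ (R.rows (R.ro (col b).i)).sites ⊆ Dh a)
    (hcl : ∀ h ∈ X₂, ClassM (col h) (R.rows (R.ro (col h).i)) R.Us (Dh h) R.r) :
    ∀ (K : MM Q) (T : Finset Q), K ∈ SpanOn T → K.PosSemidef → Disjoint T (uni X₀ (fun h => (col h).C)) →
      ‖(R.Pi * (X₀.map (fun h => (col h).tau)).prod * K).trace‖ ≤
        theta0 ^ X₂.card * (kb (uni X₀ (fun h => (col h).C)) eK eK * K).trace.re := by
  classical
  have hch : ∀ h, ∃ (g' : GCol Q) (Det : Finset Q) (σ : ℂ) (d : ℝ), h ∈ X₂ → g'.i = (col h).i ∧ g'.A = (col h).A \ Det ∧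
      Det ⊆ (col h).A ∧ Disjoint g'.A (Dh h) ∧ ‖σ‖ = 1 ∧
      Dec (col h).C (col h).tau (σ • ((g'.mcol (R.rows (R.ro (col h).i)) R.Us).tau * kb Det (col h).psi (col h).psi)) d ∧
      (g'.mcol (R.rows (R.ro (col h).i)) R.Us).beta R.r + d ≤ theta0 := by
    intro h
    by_cases hh : h ∈ X₂
    · obtain ⟨g', Det, σ, d, h1⟩ := hcl h hh
      exact ⟨g', Det, σ, d, fun _ => h1⟩
    · exact ⟨col h, ∅, 1, 0, fun h2 => absurd h2 hh⟩
  choose g' Det σ d H using hch
  set ρ : ι → Row Q := fun h => R.rows (R.ro (col h).i) with hρ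
  set m : ι → MCol Q := fun h => (g' h).mcol (ρ h) R.Us with hm
  have hunion : ∀ h ∈ X₂, (m h).C ∪ Det h = (col h).C := fun h hh =>
    gcol_C_union (H h hh).1 (H h hh).2.1 (H h hh).2.2.1
  have hdisjC : ∀ h ∈ X₂, Disjoint (m h).C (Det h) := fun h hh =>
    gcol_C_disj (H h hh).1 (H h hh).2.1 (H h hh).2.2.1
  have hsubX : ∀ h ∈ X₂, h ∈ X₀ := fun h hh => List.mem_toFinset.mp (hX₂ hh)
  have hi_site : ∀ h, (col h).i ∈ (ρ h).sites := fun h => R.hsite _
  refine frame R.Pi (fun h => (col h).C) (fun h => (col h).tau)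
    (fun h => σ h • ((m h).tau * kb (Det h) (col h).psi (col h).psi)) (fun h => (m h).beta R.r) d X₀ X₂
    theta0_pos.le theta0_lt.le hnd hC (fun h _ => (col h).tau_mem) ?_ ?_ ?_ ?_ ?_ hX₂ ?_
  · intro h _ hh
    refine Submodule.smul_mem _ _ (mul_mem_spanOn (spanOn_mono ?_ (m h).tau_mem) (kb_mem_spanOn ?_ _ _))
    · rw [← hunion h hh]
      exact Finset.subset_union_left
    · rw [← hunion h hh]
      exact Finset.subset_union_right
  · intro h _ hh
    exact (H h hh).2.2.2.2.2.1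
  · intro h _ _
    exact dec_zero ((col h).Ket_ket false) ((col h).Ket_ket true) ((col h).Ket_norm false).le
      ((col h).Ket_norm true).le
  · intro h hh
    exact WS_real_nonneg _ (fun y => (m h).cval_nonneg R.r y)
  · intro h hh
    exact (H h hh).2.2.2.2.2.2
  · intro l hl hall K T hK hKp hT
    have hlnd : (l.map (fun h => R.ro (col h).i)).Nodup := (hl.map _).nodup hℓnd
    have hlpw : l.Pairwise (fun a b => Disjoint (col a).C (col b).C) := hC.sublist hl
    have hlnd2 : l.Nodup := hnd.sublist hl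
    have hne : ∀ a ∈ l, ∀ b ∈ l, a ≠ b → R.ro (col a).i ≠ R.ro (col b).i := fun a ha b hb hab he =>
      hab (List.inj_on_of_nodup_map hlnd ha hb he)
    have hbase' := R.base_M l (fun h => R.ro (col h).i) m (fun h _ => R.hro _) hlnd (fun h _ => rfl)
      (hlpw.imp_of_mem (by
        intro a b ha hb hab
        refine Finset.disjoint_of_subset_left ?_ (Finset.disjoint_of_subset_right ?_ hab)
        · rw [← hunion a (hall a ha)]
          exact Finset.subset_union_left
        · rw [← hunion b (hall b hb)]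
          exact Finset.subset_union_left))
      (by
        intro a ha b hb hab
        rw [Finset.disjoint_left]
        intro q hq hq2
        rcases (g' a).mem_C.mp hq with h1 | h1
        · have h2 : q = (col a).i := h1.trans (H a (hall a ha)).1
          subst h2
          exact Finset.disjoint_left.mp (R.disj_of_ne (R.hro _) (R.hro _) (hne a ha b hb hab)) (hi_site a) hq2
        · have h3 := (H a (hall a ha))
          have h4 : q ∈ (col a).A := by
            rw [h3.2.1] at h1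
            exact (Finset.mem_sdiff.mp h1).1
          have h5 := hDh a (hall a ha) b (hall b hb) hab (Finset.mem_inter.mpr ⟨h4, hq2⟩)
          exact Finset.disjoint_left.mp h3.2.2.2.1 h1 h5)
      (by
        intro h hh q hq
        rw [hm, GCol.mcol_Gp] at hq
        rcases Finset.mem_insert.mp hq with h1 | h1
        · rw [h1, (H h (hall h hh)).1]
          exact hi_site h
        · exact (Finset.mem_inter.mp h1).2)
      (by
        intro h hh q hq
        rw [hm, GCol.mcol_PU] at hq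
        exact (Finset.mem_inter.mp hq).2)
      (by
        intro h hh
        rw [hm, GCol.mcol_NS]
        exact Finset.sdiff_disjoint)
    have hred := reduce_trace R.Pi (fun h => (m h).C) Det (fun h => (m h).tau) (fun h => (col h).psi) σ l
      (l.map (fun h => (m h).beta R.r)).prod
      (hlpw.imp_of_mem (by
        intro a b ha hb hab
        simp only [hunion a (hall a ha), hunion b (hall b hb)]
        exact hab))
      (fun h hh => hdisjC h (hall h hh))
      (fun h hh => (m h).tau_mem)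
      (fun h hh q hq => (col h).hpsi q ((H h (hall h hh)).2.2.1 hq))
      (fun h hh => (H h (hall h hh)).2.2.2.2.1)
      hbase'
    have huni : uni l (fun h => (m h).C ∪ Det h) = uni l (fun h => (col h).C) :=
      uni_congr (fun h hh => hunion h (hall h hh))
    have h9 := hred K T hK hKp (by rw [huni]; exact hT)
    rw [huni] at h9
    exact h9

/-- The estimate when all selected columns are of the second class. -/
theorem core_D (col : ι → GCol Q) (X₀ : List ι) (hnd : X₀.Nodup)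
    (hC : X₀.Pairwise (fun a b => Disjoint (col a).C (col b).C))
    (hℓnd : (X₀.map (fun h => R.ro (col h).i)).Nodup)
    (X₂ : Finset ι) (hX₂ : X₂ ⊆ X₀.toFinset) (Dh : ι → Finset Q)
    (hDh : ∀ a ∈ X₂, ∀ b ∈ X₂, a ≠ b → (col a).A ∩ (R.rows (R.ro (col b).i)).sites ⊆ Dh a)
    (hcl : ∀ h ∈ X₂, ClassD (col h) (R.rows (R.ro (col h).i)) R.Us (Dh h) R.r) :
    ∀ (K : MM Q) (T : Finset Q), K ∈ SpanOn T → K.PosSemidef → Disjoint T (uni X₀ (fun h => (col h).C)) →
      ‖(R.Pi * (X₀.map (fun h => (col h).tau)).prod * K).trace‖ ≤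
        theta0 ^ X₂.card * (kb (uni X₀ (fun h => (col h).C)) eK eK * K).trace.re := by
  classical
  have hch : ∀ h, ∃ (D : DCol Q) (Det : Finset Q) (σ : ℂ) (d : ℝ), h ∈ X₂ → D.i = (col h).i ∧ D.A = (col h).A \ Det ∧
      Det ⊆ (col h).A ∧ Disjoint D.A (Dh h) ∧ D.A ⊆ R.Us ∧ Disjoint D.A (R.rows (R.ro (col h).i)).sites ∧
      D.row = R.rows (R.ro (col h).i) ∧
      (∀ q ∈ D.A, ketbra (D.psi q) (D.psi q) = ketbra (R.r q) (R.r q) ∨
        ketbra (D.psi q) (D.psi q) = ketbra (perp (R.r q)) (perp (R.r q))) ∧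
      D.a2 ≤ 0.5001 ∧ ‖σ‖ = 1 ∧
      Dec (col h).C (col h).tau (σ • (D.tau * kb Det (col h).psi (col h).psi)) d ∧
      0.99 + d ≤ theta0 := by
    intro h
    by_cases hh : h ∈ X₂
    · obtain ⟨D, Det, σ, d, h1⟩ := hcl h hh
      exact ⟨D, Det, σ, d, fun _ => h1⟩
    · exact ⟨(col h).toDCol (Row.mk ∅ ∅ 1 1 (by simpa [IsKet, kb_empty] using one_mem_spanOn ∅)
        (by simpa [IsKet, kb_empty] using one_mem_spanOn ∅) (by simp [kb_empty]) (by simp [kb_empty]) (by simp)),
        ∅, 1, 0, fun h2 => absurd h2 hh⟩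
  choose D Det σ d H using hch
  set ρ : ι → Row Q := fun h => R.rows (R.ro (col h).i) with hρ
  have hunion : ∀ h ∈ X₂, (D h).toG.C ∪ Det h = (col h).C := fun h hh =>
    gcol_C_union (H h hh).1 (H h hh).2.1 (H h hh).2.2.1
  have hdisjC : ∀ h ∈ X₂, Disjoint (D h).toG.C (Det h) := fun h hh =>
    gcol_C_disj (H h hh).1 (H h hh).2.1 (H h hh).2.2.1
  have hCe : ∀ h, (D h).toG.C = (D h).C := fun h => rfl
  simp only [hCe] at hunion hdisjC
  have hi_site : ∀ h, (col h).i ∈ (ρ h).sites := fun h => R.hsite _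
  have htau_mem : ∀ h, (D h).tau ∈ SpanOn (D h).C := by
    intro h
    unfold DCol.tau
    refine Submodule.smul_mem _ _ (Submodule.sub_mem _ ?_ ?_)
    · exact mul_mem_spanOn (D h).A0_ket.1 (conjTranspose_mem_spanOn (D h).A0_ket.1)
    · exact mul_mem_spanOn (D h).A1_ket.1 (conjTranspose_mem_spanOn (D h).A1_ket.1)
  refine frame R.Pi (fun h => (col h).C) (fun h => (col h).tau)
    (fun h => σ h • ((D h).tau * kb (Det h) (col h).psi (col h).psi)) (fun _ => 0.99) d X₀ X₂
    theta0_pos.le theta0_lt.le hnd hC (fun h _ => (col h).tau_mem) ?_ ?_ ?_ ?_ ?_ hX₂ ?_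
  · intro h _ hh
    refine Submodule.smul_mem _ _ (mul_mem_spanOn (spanOn_mono ?_ (htau_mem h)) (kb_mem_spanOn ?_ _ _))
    · rw [← hunion h hh]
      exact Finset.subset_union_left
    · rw [← hunion h hh]
      exact Finset.subset_union_right
  · intro h _ hh
    exact (H h hh).2.2.2.2.2.2.2.2.2.2.1
  · intro h _ _
    exact dec_zero ((col h).Ket_ket false) ((col h).Ket_ket true) ((col h).Ket_norm false).le
      ((col h).Ket_norm true).le
  · intro h hh
    norm_num
  · intro h hh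
    exact (H h hh).2.2.2.2.2.2.2.2.2.2.2
  · intro l hl hall K T hK hKp hT
    have hlnd : (l.map (fun h => R.ro (col h).i)).Nodup := (hl.map _).nodup hℓnd
    have hlpw : l.Pairwise (fun a b => Disjoint (col a).C (col b).C) := hC.sublist hl
    have hne : ∀ a ∈ l, ∀ b ∈ l, a ≠ b → R.ro (col a).i ≠ R.ro (col b).i := fun a ha b hb hab he =>
      hab (List.inj_on_of_nodup_map hlnd ha hb he)
    have hbase' := R.base_D l (fun h => R.ro (col h).i) D (fun h _ => R.hro _) hlnd
      (fun h hh => (H h (hall h hh)).2.2.2.2.2.2.1)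
      (hlpw.imp_of_mem (by
        intro a b ha hb hab
        refine Finset.disjoint_of_subset_left ?_ (Finset.disjoint_of_subset_right ?_ hab)
        · rw [← hunion a (hall a ha)]
          exact Finset.subset_union_left
        · rw [← hunion b (hall b hb)]
          exact Finset.subset_union_left))
      (by
        intro a ha b hb hab
        rw [Finset.disjoint_left]
        intro q hq hq2
        rcases (D a).mem_C.mp hq with h1 | h1
        · have h2 : q = (col a).i := h1.trans (H a (hall a ha)).1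
          subst h2
          exact Finset.disjoint_left.mp (R.disj_of_ne (R.hro _) (R.hro _) (hne a ha b hb hab)) (hi_site a) hq2
        · have h3 := (H a (hall a ha))
          have h4 : q ∈ (col a).A := by
            rw [h3.2.1] at h1
            exact (Finset.mem_sdiff.mp h1).1
          have h5 := hDh a (hall a ha) b (hall b hb) hab (Finset.mem_inter.mpr ⟨h4, hq2⟩)
          exact Finset.disjoint_left.mp h3.2.2.2.1 h1 h5)
      (fun h hh => (H h (hall h hh)).2.2.2.2.2.1)
      (fun h hh => by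
        rw [(H h (hall h hh)).1]
        exact hi_site h)
      (fun h hh => (H h (hall h hh)).2.2.2.2.1)
      (fun h hh => (H h (hall h hh)).2.2.2.2.2.2.2.1)
      (fun h hh => (H h (hall h hh)).2.2.2.2.2.2.2.2.1)
    have hred := reduce_trace R.Pi (fun h => (D h).C) Det (fun h => (D h).tau) (fun h => (col h).psi) σ l
      (l.map (fun _ => (0.99 : ℝ))).prod
      (hlpw.imp_of_mem (by
        intro a b ha hb hab
        simp only [hunion a (hall a ha), hunion b (hall b hb)]
        exact hab))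
      (fun h hh => hdisjC h (hall h hh))
      (fun h hh => htau_mem h)
      (fun h hh q hq => (col h).hpsi q ((H h (hall h hh)).2.2.1 hq))
      (fun h hh => (H h (hall h hh)).2.2.2.2.2.2.2.2.2.1)
      hbase'
    have huni : uni l (fun h => (D h).C ∪ Det h) = uni l (fun h => (col h).C) :=
      uni_congr (fun h hh => hunion h (hall h hh))
    have h9 := hred K T hK hKp (by rw [huni]; exact hT)
    rw [huni] at h9
    exact h9

/-- The number of colours. -/
def Qn : ℕ := 2048 * 10 ^ 52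

/-- The main estimate. -/
theorem core (col : ι → GCol Q) (X₀ : List ι) (hnd : X₀.Nodup)
    (hC : X₀.Pairwise (fun a b => Disjoint (col a).C (col b).C))
    (hℓnd : (X₀.map (fun h => R.ro (col h).i)).Nodup) :
    ∃ e : ℕ, X₀.length ≤ 4 * Qn * e ∧
    ∀ (K : MM Q) (T : Finset Q), K ∈ SpanOn T → K.PosSemidef → Disjoint T (uni X₀ (fun h => (col h).C)) →
      ‖(R.Pi * (X₀.map (fun h => (col h).tau)).prod * K).trace‖ ≤
        theta0 ^ e * (kb (uni X₀ (fun h => (col h).C)) eK eK * K).trace.re := by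
  classical
  set ℓ : ι → γ := fun h => R.ro (col h).i with hℓ
  set S₀ := X₀.toFinset with hS₀
  have hne : ∀ a ∈ S₀, ∀ b ∈ S₀, a ≠ b → ℓ a ≠ ℓ b := fun a ha b hb hab he =>
    hab (List.inj_on_of_nodup_map hℓnd (List.mem_toFinset.mp ha) (List.mem_toFinset.mp hb) he)
  set large : ι → Prop := fun h => (col h).f = 1 ∧ 1 / 100 ≤ ‖(col h).aT‖ with hlarge
  set w : ι → ι → ℝ := fun h h' => ∑ q ∈ (col h).A ∩ (R.rows (ℓ h')).sites, (col h).tq q with hw
  set m : ι → ι → ℝ := fun h h' => if large h then w h h' else 0 with hm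
  have hw0 : ∀ h h', 0 ≤ w h h' := fun h h' =>
    Finset.sum_nonneg (fun q hq => (col h).tq_nonneg (Finset.mem_inter.mp hq).1)
  have hm0 : ∀ a b, 0 ≤ m a b := by
    intro a b
    simp only [hm]
    split_ifs
    · exact hw0 a b
    · exact le_rfl
  -- the total weight of a column
  have hMt : ∀ h, large h → ∑ q ∈ (col h).A, (col h).tq q ≤ 10 ^ 4 := by
    intro h hh
    have h1 := prod_one_sub_le_inv (col h).A (col h).tq (fun q hq => (col h).tq_nonneg hq) (fun q _ => (col h).tq_le q)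
    have h2 : (1 / 100 : ℝ) ^ 2 ≤ ‖(col h).aT‖ ^ 2 := pow_le_pow_left₀ (by norm_num) hh.2 2
    have h3 : ‖(col h).aT‖ ^ 2 = ∏ q ∈ (col h).A, (1 - (col h).tq q) := (col h).norm_prodIp_sq (col h).A
    rw [← h3] at h1
    have h4 : 0 ≤ ∑ q ∈ (col h).A, (col h).tq q :=
      Finset.sum_nonneg (fun q hq => (col h).tq_nonneg hq)
    nlinarith
  -- the sum over rows of the weights
  have hsumw : ∀ h, ∀ S ⊆ S₀, ∑ h' ∈ S, w h h' =
      ∑ q ∈ S.biUnion (fun h' => (col h).A ∩ (R.rows (ℓ h')).sites), (col h).tq q := by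
    intro h S hS
    rw [Finset.sum_biUnion]
    intro a ha b hb hab
    refine Finset.disjoint_of_subset_left Finset.inter_subset_right
      (Finset.disjoint_of_subset_right Finset.inter_subset_right ?_)
    exact R.disj_of_ne (R.hro _) (R.hro _) (hne a (hS ha) b (hS hb) hab)
  have hM : ∀ h ∈ S₀, ∑ h' ∈ S₀, (if h ≠ h' then m h h' else 0) ≤ 10 ^ 4 := by
    intro h _
    by_cases hl : large h
    · calc ∑ h' ∈ S₀, (if h ≠ h' then m h h' else 0) ≤ ∑ h' ∈ S₀, w h h' := by
            refine Finset.sum_le_sum (fun h' _ => ?_)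
            simp only [hm, hl, if_true]
            split_ifs
            · exact le_rfl
            · exact hw0 h h'
        _ = ∑ q ∈ S₀.biUnion (fun h' => (col h).A ∩ (R.rows (ℓ h')).sites), (col h).tq q :=
            hsumw h S₀ (Finset.Subset.refl _)
        _ ≤ ∑ q ∈ (col h).A, (col h).tq q := by
            refine Finset.sum_le_sum_of_subset_of_nonneg ?_ (fun q hq _ => (col h).tq_nonneg hq)
            intro q hq
            obtain ⟨_, _, h3⟩ := Finset.mem_biUnion.mp hq
            exact (Finset.mem_inter.mp h3).1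
        _ ≤ _ := hMt h hl
    · have : ∑ h' ∈ S₀, (if h ≠ h' then m h h' else 0) = 0 := by
        apply Finset.sum_eq_zero
        intro h' _
        simp [hm, hl]
      rw [this]
      norm_num
  have hQpos : 0 < Qn := by unfold Qn; norm_num
  obtain ⟨S, hS, hout, hcard⟩ := select S₀ m hm0 (M := 10 ^ 4) (μ := ((1 / 10 ^ 24) / 32) ^ 2) (by norm_num)
    (by norm_num) Qn hQpos (by unfold Qn; norm_num) hM
  set Dh : ι → Finset Q := fun h => (S.erase h).biUnion (fun h' => (col h).A ∩ (R.rows (ℓ h')).sites) with hDhdef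
  have hDh : ∀ a ∈ S, ∀ b ∈ S, a ≠ b → (col a).A ∩ (R.rows (R.ro (col b).i)).sites ⊆ Dh a := by
    intro a _ b hb hab q hq
    exact Finset.mem_biUnion.mpr ⟨b, Finset.mem_erase.mpr ⟨hab.symm, hb⟩, hq⟩
  have hclass : ∀ h ∈ S, ClassM (col h) (R.rows (R.ro (col h).i)) R.Us (Dh h) R.r ∨
      ClassD (col h) (R.rows (R.ro (col h).i)) R.Us (Dh h) R.r := by
    intro h hh
    by_cases hl : large h
    · refine (col h).class_large hl.1 _ _ _ R.hr ?_ ?_
      · intro q hq
        obtain ⟨_, _, h3⟩ := Finset.mem_biUnion.mp hq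
        exact (Finset.mem_inter.mp h3).1
      · have h1 := hout h hh
        have h2 : ∑ q ∈ Dh h, (col h).tq q = ∑ h' ∈ S.erase h, w h h' := by
          simp only [hDhdef]
          rw [hsumw h (S.erase h) ((Finset.erase_subset _ _).trans hS)]
        have h3 : ∑ h' ∈ S, (if h ≠ h' then m h h' else 0) = ∑ h' ∈ S.erase h, w h h' := by
          rw [← Finset.add_sum_erase S _ hh]
          simp only [ne_eq, not_true_eq_false, if_false, zero_add]
          refine Finset.sum_congr rfl (fun h' hh' => ?_)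
          have : h ≠ h' := (Finset.mem_erase.mp hh').1.symm
          simp [this, hm, hl]
        rw [h2, ← h3]
        exact h1
    · left
      refine (col h).class_small _ _ _ _ R.hr ?_
      rcases (col h).hf with h1 | h1
      · exact Or.inl h1
      · right
        by_contra h2
        exact hl ⟨h1, not_lt.mp h2⟩
  set SM := S.filter (fun h => ClassM (col h) (R.rows (R.ro (col h).i)) R.Us (Dh h) R.r) with hSM
  set SD := S.filter (fun h => ¬ ClassM (col h) (R.rows (R.ro (col h).i)) R.Us (Dh h) R.r) with hSD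
  have hcards : SM.card + SD.card = S.card := Finset.card_filter_add_card_filter_not _
  have hlen : X₀.length = S₀.card := (List.toFinset_card_of_nodup hnd).symm
  by_cases hbig : S.card ≤ 2 * SM.card
  · refine ⟨SM.card, ?_, ?_⟩
    · rw [hlen]
      calc S₀.card ≤ 2 * Qn * S.card := hcard
        _ ≤ 2 * Qn * (2 * SM.card) := by gcongr
        _ = _ := by ring
    · refine core_M R col X₀ hnd hC hℓnd SM ((Finset.filter_subset _ _).trans hS) Dh ?_ ?_
      · intro a ha b hb hab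
        exact hDh a (Finset.mem_filter.mp ha).1 b (Finset.mem_filter.mp hb).1 hab
      · intro h hh
        exact (Finset.mem_filter.mp hh).2
  · have hbig' : S.card ≤ 2 * SD.card := by omega
    refine ⟨SD.card, ?_, ?_⟩
    · rw [hlen]
      calc S₀.card ≤ 2 * Qn * S.card := hcard
        _ ≤ 2 * Qn * (2 * SD.card) := by gcongr
        _ = _ := by ring
    · refine core_D R col X₀ hnd hC hℓnd SD ((Finset.filter_subset _ _).trans hS) Dh ?_ ?_
      · intro a ha b hb hab
        exact hDh a (Finset.mem_filter.mp ha).1 b (Finset.mem_filter.mp hb).1 hab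
      · intro h hh
        obtain ⟨h1, h2⟩ := Finset.mem_filter.mp hh
        exact (hclass h h1).resolve_left h2


end Core

end Vale.Agent.Lib.P368

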